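import Mathlib

/-!
# P143, module M1: Kirchhoff's theorem for weighted spanning trees

`P143.kirchhoff`: on a finite connected graph with positive edge weights, the potential
`φ(x) = -(1/Z) ∑_{F separating a from b, x in the component of a} w(F)` solves the weighted
Dirichlet problem with unit source/sink, and the current through the edge `ab` is the probability
that the weighted spanning tree contains `ab`.
-/

namespace P143

open SimpleGraph Finset

open scoped Classical in
/-- The spanning trees of a finite graph, as finite sets of edges. -/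
noncomputable def spTrees {V : Type*} [Fintype V] (G : SimpleGraph V) :
    Finset (Finset (Sym2 V)) :=
  Finset.univ.filter fun T =>
    (∀ e ∈ T, e ∈ G.edgeSet) ∧ (fromEdgeSet (T : Set (Sym2 V))).IsTree

theorem mem_spTrees {V : Type*} [Fintype V] {G : SimpleGraph V} {T : Finset (Sym2 V)} :
    T ∈ spTrees G ↔
      (∀ e ∈ T, e ∈ G.edgeSet) ∧ (fromEdgeSet (T : Set (Sym2 V))).IsTree := by
  classical
  simp [spTrees]

section Tree

variable {V : Type*}

theorem reach_or_of_walk (G : SimpleGraph V) (y z : V) {u v : V} (p : G.Walk u v)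
    (h : (G.deleteEdges {s(y, z)}).Reachable u y ∨ (G.deleteEdges {s(y, z)}).Reachable u z) :
    (G.deleteEdges {s(y, z)}).Reachable v y ∨ (G.deleteEdges {s(y, z)}).Reachable v z := by
  induction p with
  | nil => exact h
  | @cons u v w huv p ih =>
    apply ih
    by_cases he : s(u, v) = s(y, z)
    · rw [Sym2.eq_iff] at he
      rcases he with ⟨rfl, rfl⟩ | ⟨rfl, rfl⟩
      · right; exact Reachable.refl _
      · left; exact Reachable.refl _
    · have hadj : (G.deleteEdges {s(y, z)}).Adj v u := by
        rw [deleteEdges_adj]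
        exact ⟨huv.symm, by rw [Set.mem_singleton_iff, Sym2.eq_swap]; exact he⟩
      rcases h with h | h
      · left; exact hadj.reachable.trans h
      · right; exact hadj.reachable.trans h

theorem reach_or (G : SimpleGraph V) (hG : G.Connected) (y z a : V) :
    (G.deleteEdges {s(y, z)}).Reachable a y ∨ (G.deleteEdges {s(y, z)}).Reachable a z := by
  obtain ⟨p⟩ := hG.preconnected y a
  exact reach_or_of_walk G y z p (Or.inl (Reachable.refl _))

variable [Fintype V]

/-- In a tree, the oriented increments of `g` over the edges separating `a` from `x` add up to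
`g x - g a`. -/
theorem tree_gain (T : SimpleGraph V) (hT : T.IsTree) (g : V → ℝ) (a x : V) :
    (open scoped Classical in
      ∑ p : V × V, if T.Adj p.1 p.2 ∧ (T.deleteEdges {s(p.1, p.2)}).Reachable a p.1 ∧
        ¬ (T.deleteEdges {s(p.1, p.2)}).Reachable a x then g p.2 - g p.1 else 0) = g x - g a := by
  classical
  set c : V → V × V → ℝ := fun x p => if T.Adj p.1 p.2 ∧
    (T.deleteEdges {s(p.1, p.2)}).Reachable a p.1 ∧
        ¬ (T.deleteEdges {s(p.1, p.2)}).Reachable a x then g p.2 - g p.1 else 0 with hc
  set D : V → ℝ := fun x => ∑ p : V × V, c x p with hD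
  change D x = _
  have hDa : D a = 0 := by
    simp only [hD]
    apply Finset.sum_eq_zero
    intro p _
    simp only [hc]
    rw [if_neg]
    rintro ⟨_, _, h⟩
    exact h (Reachable.refl _)
  have step : ∀ y z, T.Adj y z → D z - D y = g z - g y := by
    intro y z hyz
    have hne : y ≠ z := hyz.ne
    have hbr : T.IsBridge s(y, z) := isAcyclic_iff_forall_adj_isBridge.mp hT.isAcyclic hyz
    rw [isBridge_iff] at hbr
    have hconn := reach_or T hT.connected y z a
    have hnot : ¬ ((T.deleteEdges {s(y, z)}).Reachable a y ∧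
        (T.deleteEdges {s(y, z)}).Reachable a z) := fun h => hbr (h.1.symm.trans h.2)
    have h1 : D z - D y = ∑ p : V × V, (c z p - c y p) := by
      simp only [hD, Finset.sum_sub_distrib]
    have hsw : s(z, y) = s(y, z) := Sym2.eq_swap
    have hcz1 : c z (y, z) - c y (y, z) =
        if (T.deleteEdges {s(y, z)}).Reachable a y then g z - g y else 0 := by
      simp only [hc]
      by_cases hr : (T.deleteEdges {s(y, z)}).Reachable a y
      · have hr' : ¬ (T.deleteEdges {s(y, z)}).Reachable a z := fun h => hnot ⟨hr, h⟩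
        simp [hr, hr', hyz]
      · simp [hr]
    have hcz2 : c z (z, y) - c y (z, y) =
        if (T.deleteEdges {s(y, z)}).Reachable a z then g z - g y else 0 := by
      simp only [hc, hsw]
      by_cases hr : (T.deleteEdges {s(y, z)}).Reachable a z
      · have hr' : ¬ (T.deleteEdges {s(y, z)}).Reachable a y := fun h => hnot ⟨h, hr⟩
        simp [hr, hr', hyz.symm]
      · simp [hr]
    have hrest : ∀ p : V × V, p ≠ (y, z) ∧ p ≠ (z, y) → c z p - c y p = 0 := by
      rintro ⟨u, v⟩ ⟨hp1, hp2⟩
      have hadj : (T.deleteEdges {s(u, v)}).Adj y z := by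
        rw [deleteEdges_adj]
        refine ⟨hyz, ?_⟩
        simp only [Set.mem_singleton_iff, Sym2.eq_iff, not_or]
        constructor
        · rintro ⟨rfl, rfl⟩; exact hp1 rfl
        · rintro ⟨rfl, rfl⟩; exact hp2 rfl
      have hiff : (T.deleteEdges {s(u, v)}).Reachable a y ↔
          (T.deleteEdges {s(u, v)}).Reachable a z :=
        ⟨fun h => h.trans hadj.reachable, fun h => h.trans hadj.symm.reachable⟩
      simp only [hc, hiff, sub_self]
    have h2 : ∑ p : V × V, (c z p - c y p) =
        (c z (y, z) - c y (y, z)) + (c z (z, y) - c y (z, y)) := by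
      apply Finset.sum_eq_add (y, z) (z, y)
      · intro h
        exact hne (by simpa using congrArg Prod.fst h)
      · intro p _ hp
        exact hrest p hp
      · intro h; exact absurd (Finset.mem_univ _) h
      · intro h; exact absurd (Finset.mem_univ _) h
    rw [h1, h2, hcz1, hcz2]
    rcases hconn with h | h
    · have h' : ¬ (T.deleteEdges {s(y, z)}).Reachable a z := fun h'' => hnot ⟨h, h''⟩
      simp [h, h']
    · have h' : ¬ (T.deleteEdges {s(y, z)}).Reachable a y := fun h'' => hnot ⟨h'', h⟩
      simp [h, h']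
  have key : ∀ {u v : V} (p : T.Walk u v), D v - D u = g v - g u := by
    intro u v p
    induction p with
    | nil => simp
    | @cons u v w huv p ih =>
      have := step _ _ huv
      linarith
  obtain ⟨p⟩ := hT.connected.preconnected a x
  have := key p
  rw [hDa] at this
  linarith

end Tree

section Kirch

variable {V : Type*} [Fintype V]

/-- the weight of a set of edges -/
noncomputable def wt (w : Sym2 V → ℝ) (F : Finset (Sym2 V)) : ℝ := ∏ f ∈ F, w f

open scoped Classical in
/-- The spanning forests of `G` with exactly two components, separating `a` from `b`. -/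
noncomputable def sepForests (G : SimpleGraph V) (a b : V) : Finset (Finset (Sym2 V)) :=
  Finset.univ.filter fun F =>
    (∀ e ∈ F, e ∈ G.edgeSet) ∧ (fromEdgeSet (F : Set (Sym2 V))).IsAcyclic ∧
    ¬ (fromEdgeSet (F : Set (Sym2 V))).Reachable a b ∧
    ∀ x, (fromEdgeSet (F : Set (Sym2 V))).Reachable a x ∨
      (fromEdgeSet (F : Set (Sym2 V))).Reachable b x

theorem mem_sepForests {G : SimpleGraph V} {a b : V} {F : Finset (Sym2 V)} :
    F ∈ sepForests G a b ↔
    (∀ e ∈ F, e ∈ G.edgeSet) ∧ (fromEdgeSet (F : Set (Sym2 V))).IsAcyclic ∧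
    ¬ (fromEdgeSet (F : Set (Sym2 V))).Reachable a b ∧
    ∀ x, (fromEdgeSet (F : Set (Sym2 V))).Reachable a x ∨
      (fromEdgeSet (F : Set (Sym2 V))).Reachable b x := by
  classical
  simp [sepForests]

/-- The bijection `F ↦ F ∪ {uv}`. -/
theorem swap_sum (G : SimpleGraph V) (w : Sym2 V → ℝ) (a b u v : V) (huv : G.Adj u v) :
    (open scoped Classical in
      w s(u, v) * ∑ F ∈ sepForests G a b,
        (if (fromEdgeSet (F : Set (Sym2 V))).Reachable a u ∧
            ¬ (fromEdgeSet (F : Set (Sym2 V))).Reachable a v then wt w F else 0)) =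
    (open scoped Classical in
      ∑ T ∈ spTrees G,
        (if s(u, v) ∈ T ∧
          ((fromEdgeSet (T : Set (Sym2 V))).deleteEdges {s(u, v)}).Reachable a u ∧
            ¬ ((fromEdgeSet (T : Set (Sym2 V))).deleteEdges {s(u, v)}).Reachable a b
          then wt w T else 0)) := by
  classical
  have hins : ∀ F : Finset (Sym2 V), fromEdgeSet ((insert s(u, v) F : Finset (Sym2 V)) : Set (Sym2 V)) =
      fromEdgeSet (F : Set (Sym2 V)) ⊔ edge u v := by
    intro F
    rw [Finset.coe_insert, Set.insert_eq, fromEdgeSet_union, sup_comm]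
    rfl
  have hers : ∀ T : Finset (Sym2 V), fromEdgeSet ((T.erase s(u, v) : Finset (Sym2 V)) : Set (Sym2 V)) =
      (fromEdgeSet (T : Set (Sym2 V))).deleteEdges {s(u, v)} := by
    intro T
    rw [Finset.coe_erase, deleteEdges_fromEdgeSet]
  rw [Finset.mul_sum]
  have hl : ∀ F : Finset (Sym2 V), w s(u, v) * (if (fromEdgeSet (F : Set (Sym2 V))).Reachable a u ∧
            ¬ (fromEdgeSet (F : Set (Sym2 V))).Reachable a v then wt w F else 0) =
      if (fromEdgeSet (F : Set (Sym2 V))).Reachable a u ∧
            ¬ (fromEdgeSet (F : Set (Sym2 V))).Reachable a v then w s(u, v) * wt w F else 0 := by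
    intro F
    split_ifs <;> simp
  rw [Finset.sum_congr rfl fun F _ => hl F, ← Finset.sum_filter, ← Finset.sum_filter]
  refine Finset.sum_bij' (fun F _ => insert s(u, v) F) (fun T _ => T.erase s(u, v)) ?_ ?_ ?_ ?_ ?_
  · intro F hF
    rw [Finset.mem_filter, mem_sepForests] at hF
    obtain ⟨⟨hFG, hac, hab, hall⟩, hau, hav⟩ := hF
    have heF : s(u, v) ∉ F := by
      intro h
      apply hav
      refine hau.trans (Adj.reachable ?_)
      rw [fromEdgeSet_adj]
      exact ⟨by simpa using h, huv.ne⟩
    have hbv : (fromEdgeSet (F : Set (Sym2 V))).Reachable b v := by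
      rcases hall v with h | h
      · exact absurd h hav
      · exact h
    have hdel : (fromEdgeSet ((insert s(u, v) F : Finset (Sym2 V)) : Set (Sym2 V))).deleteEdges
        {s(u, v)} = fromEdgeSet (F : Set (Sym2 V)) := by
      rw [← hers, Finset.erase_insert heF]
    rw [Finset.mem_filter, mem_spTrees, hdel, hins]
    refine ⟨⟨?_, ?_, ?_⟩, Finset.mem_insert_self _ _, hau, hab⟩
    · intro e he
      rcases Finset.mem_insert.mp he with rfl | he
      · exact huv
      · exact hFG e he
    · have hle : fromEdgeSet (F : Set (Sym2 V)) ≤ fromEdgeSet (F : Set (Sym2 V)) ⊔ edge u v :=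
        le_sup_left
      have huv' : (fromEdgeSet (F : Set (Sym2 V)) ⊔ edge u v).Reachable u v := by
        apply Adj.reachable
        rw [sup_adj]
        right
        rw [edge_adj]
        exact ⟨Or.inl ⟨rfl, rfl⟩, huv.ne⟩
      have hab' : (fromEdgeSet (F : Set (Sym2 V)) ⊔ edge u v).Reachable a b :=
        ((hau.mono hle).trans huv').trans (hbv.mono hle).symm
      rw [connected_iff_exists_forall_reachable]
      refine ⟨a, fun x => ?_⟩
      rcases hall x with h | h
      · exact h.mono hle
      · exact hab'.trans (h.mono hle)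
    · exact IsAcyclic.sup_edge_of_not_reachable (fun h => hav (hau.trans h)) hac
  · intro T hT
    rw [Finset.mem_filter, mem_spTrees] at hT
    obtain ⟨⟨hTG, hTr⟩, heT, hau, hab⟩ := hT
    have hadj : (fromEdgeSet (T : Set (Sym2 V))).Adj u v := by
      rw [fromEdgeSet_adj]
      exact ⟨by simpa using heT, huv.ne⟩
    have hbr := isAcyclic_iff_forall_adj_isBridge.mp hTr.isAcyclic hadj
    rw [isBridge_iff] at hbr
    rw [Finset.mem_filter, mem_sepForests, hers]
    refine ⟨⟨?_, ?_, hab, ?_⟩, hau, fun h => hbr (hau.symm.trans h)⟩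
    · intro e he
      exact hTG e (Finset.mem_of_mem_erase he)
    · exact hTr.isAcyclic.anti (deleteEdges_le _)
    · intro x
      rcases reach_or _ hTr.connected u v b with h | h
      · exact absurd (hau.trans h.symm) hab
      · rcases reach_or _ hTr.connected u v x with h' | h'
        · left; exact hau.trans h'.symm
        · right; exact h.trans h'.symm
  · intro F hF
    rw [Finset.mem_filter, mem_sepForests] at hF
    obtain ⟨⟨hFG, hac, hab, hall⟩, hau, hav⟩ := hF
    apply Finset.erase_insert
    intro h
    apply hav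
    refine hau.trans (Adj.reachable ?_)
    rw [fromEdgeSet_adj]
    exact ⟨by simpa using h, huv.ne⟩
  · intro T hT
    rw [Finset.mem_filter] at hT
    exact Finset.insert_erase hT.2.1
  · intro F hF
    rw [Finset.mem_filter, mem_sepForests] at hF
    obtain ⟨⟨hFG, hac, hab, hall⟩, hau, hav⟩ := hF
    rw [wt, wt, Finset.prod_insert]
    intro h
    apply hav
    refine hau.trans (Adj.reachable ?_)
    rw [fromEdgeSet_adj]
    exact ⟨by simpa using h, huv.ne⟩

/-- **Kirchhoff's theorem** for weighted spanning trees. -/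
theorem kirchhoff (G : SimpleGraph V) (hG : G.Connected) (w : Sym2 V → ℝ) (hw : ∀ e, 0 < w e)
    (a b : V) (hab : G.Adj a b) :
    ∃ φ : V → ℝ,
      (∀ g : V → ℝ, (open scoped Classical in
        ∑ p : V × V, if G.Adj p.1 p.2 then
          w s(p.1, p.2) * ((φ p.2 - φ p.1) * (g p.2 - g p.1)) else 0) = 2 * (g b - g a)) ∧
      w s(a, b) * (φ b - φ a) =
        (open scoped Classical in
          (∑ T ∈ spTrees G, if s(a, b) ∈ T then wt w T else 0) / ∑ T ∈ spTrees G, wt w T) := by
  classical
  set Z : ℝ := ∑ T ∈ spTrees G, wt w T with hZ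
  have hZpos : 0 < Z := by
    rw [hZ]
    apply Finset.sum_pos
    · intro T _
      exact Finset.prod_pos fun e _ => hw e
    · obtain ⟨T, hTG, hT⟩ := hG.exists_isTree_le
      refine ⟨T.edgeFinset, ?_⟩
      rw [mem_spTrees]
      refine ⟨fun e he => ?_, ?_⟩
      · exact (edgeSet_mono hTG) (by simpa using he)
      · simpa using hT
  set S : Finset (Finset (Sym2 V)) := sepForests G a b with hS
  set R : Finset (Sym2 V) → V → ℝ := fun F x =>
    if (fromEdgeSet (F : Set (Sym2 V))).Reachable a x then wt w F else 0 with hR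
  set φ : V → ℝ := fun x => - (∑ F ∈ S, R F x) / Z with hφ
  set A : V → V → ℝ := fun u v => ∑ F ∈ S,
    (if (fromEdgeSet (F : Set (Sym2 V))).Reachable a u ∧
            ¬ (fromEdgeSet (F : Set (Sym2 V))).Reachable a v then wt w F else 0) with hA
  have hdiff : ∀ u v, φ v - φ u = (A u v - A v u) / Z := by
    intro u v
    simp only [hφ, hA, hR]
    rw [← sub_div, ← Finset.sum_sub_distrib, neg_sub_neg, ← Finset.sum_sub_distrib]
    congr 1
    apply Finset.sum_congr rfl
    intro F _
    by_cases h1 : (fromEdgeSet (F : Set (Sym2 V))).Reachable a u <;>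
      by_cases h2 : (fromEdgeSet (F : Set (Sym2 V))).Reachable a v <;> simp [h1, h2]
  refine ⟨φ, ?_, ?_⟩
  · intro g
    set B : V → V → ℝ := fun u v => ∑ T ∈ spTrees G,
        (if s(u, v) ∈ T ∧
          ((fromEdgeSet (T : Set (Sym2 V))).deleteEdges {s(u, v)}).Reachable a u ∧
            ¬ ((fromEdgeSet (T : Set (Sym2 V))).deleteEdges {s(u, v)}).Reachable a b
          then wt w T else 0) with hB
    have hAB : ∀ u v, G.Adj u v → w s(u, v) * A u v = B u v := by
      intro u v huv
      exact swap_sum G w a b u v huv
    have h1 : ∀ p : V × V, (if G.Adj p.1 p.2 then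
          w s(p.1, p.2) * ((φ p.2 - φ p.1) * (g p.2 - g p.1)) else 0) =
        (if G.Adj p.1 p.2 then B p.1 p.2 * (g p.2 - g p.1) / Z else 0) +
        (if G.Adj p.2 p.1 then B p.2 p.1 * (g p.1 - g p.2) / Z else 0) := by
      rintro ⟨u, v⟩
      simp only
      by_cases huv : G.Adj u v
      · rw [if_pos huv, if_pos huv, if_pos huv.symm, ← hAB u v huv, ← hAB v u huv.symm, hdiff,
          Sym2.eq_swap (a := v) (b := u)]
        ring
      · have hvu : ¬ G.Adj v u := fun h => huv h.symm
        rw [if_neg huv, if_neg huv, if_neg hvu, add_zero]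
    rw [Finset.sum_congr rfl fun p _ => h1 p, Finset.sum_add_distrib]
    have h2 : (∑ p : V × V, if G.Adj p.2 p.1 then B p.2 p.1 * (g p.1 - g p.2) / Z else 0) =
        ∑ p : V × V, if G.Adj p.1 p.2 then B p.1 p.2 * (g p.2 - g p.1) / Z else 0 := by
      exact Fintype.sum_equiv (Equiv.prodComm V V) _ _ (fun p => rfl)
    rw [h2]
    have h3 : (∑ p : V × V, if G.Adj p.1 p.2 then B p.1 p.2 * (g p.2 - g p.1) / Z else 0) =
        g b - g a := by
      have h4 : ∀ p : V × V, (if G.Adj p.1 p.2 then B p.1 p.2 * (g p.2 - g p.1) / Z else 0) =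
          ∑ T ∈ spTrees G, wt w T / Z *
            (if (fromEdgeSet (T : Set (Sym2 V))).Adj p.1 p.2 ∧
              ((fromEdgeSet (T : Set (Sym2 V))).deleteEdges {s(p.1, p.2)}).Reachable a p.1 ∧
              ¬ ((fromEdgeSet (T : Set (Sym2 V))).deleteEdges {s(p.1, p.2)}).Reachable a b then
                g p.2 - g p.1 else 0) := by
        rintro ⟨u, v⟩
        simp only
        by_cases huv : G.Adj u v
        · rw [if_pos huv, hB]
          simp only
          rw [Finset.sum_mul, Finset.sum_div]
          apply Finset.sum_congr rfl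
          intro T _
          have hadj : (fromEdgeSet (T : Set (Sym2 V))).Adj u v ↔ s(u, v) ∈ T := by
            rw [fromEdgeSet_adj]
            simp [huv.ne]
          simp only [hadj]
          split_ifs
          · ring
          · simp
        · rw [if_neg huv]
          symm
          apply Finset.sum_eq_zero
          intro T hT
          rw [if_neg, mul_zero]
          rintro ⟨h, _⟩
          rw [fromEdgeSet_adj] at h
          exact huv ((mem_spTrees.mp hT).1 _ (by simpa using h.1))
      rw [Finset.sum_congr rfl fun p _ => h4 p, Finset.sum_comm]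
      have h5 : ∀ T ∈ spTrees G, (∑ p : V × V, wt w T / Z *
            (if (fromEdgeSet (T : Set (Sym2 V))).Adj p.1 p.2 ∧
              ((fromEdgeSet (T : Set (Sym2 V))).deleteEdges {s(p.1, p.2)}).Reachable a p.1 ∧
              ¬ ((fromEdgeSet (T : Set (Sym2 V))).deleteEdges {s(p.1, p.2)}).Reachable a b then
                g p.2 - g p.1 else 0)) = wt w T / Z * (g b - g a) := by
        intro T hT
        rw [← Finset.mul_sum]
        congr 1
        rw [← tree_gain _ (mem_spTrees.mp hT).2 g a b]
        apply Finset.sum_congr rfl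
        intro p _
        congr
      rw [Finset.sum_congr rfl h5, ← Finset.sum_mul, ← Finset.sum_div, ← hZ,
        div_self hZpos.ne', one_mul]
    rw [h3]
    ring
  · rw [hdiff, mul_div_assoc', mul_sub]
    have hAab : w s(a, b) * A a b = _ := swap_sum G w a b a b hab
    have hAba : A b a = 0 := by
      simp only [hA]
      apply Finset.sum_eq_zero
      intro F _
      rw [if_neg]
      rintro ⟨_, h⟩
      exact h (Reachable.refl _)
    rw [hAab, hAba, mul_zero, sub_zero]
    congr 1
    apply Finset.sum_congr rfl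
    intro T hT
    have hTr := (mem_spTrees.mp hT).2
    by_cases he : s(a, b) ∈ T
    · have hadj : (fromEdgeSet (T : Set (Sym2 V))).Adj a b := by
        rw [fromEdgeSet_adj]
        exact ⟨by simpa using he, hab.ne⟩
      have hbr := isAcyclic_iff_forall_adj_isBridge.mp hTr.isAcyclic hadj
      rw [isBridge_iff] at hbr
      rw [if_pos he, if_pos ⟨he, Reachable.refl _, hbr⟩]
    · rw [if_neg he, if_neg (fun h => he h.1)]

end Kirch

end P143
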