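import Vale.Agent.P143.StmtDefs
import Vale.Agent.P143.Kirchhoff

/-!
# P143, module D: spanning trees of a finite subgraph as finsets of edges
-/

open Filter Topology SimpleGraph

namespace P143

variable {V : Type*} {G : SimpleGraph V}

/-- Edge set of a subgraph as a finset (junk `∅` if infinite). -/
noncomputable def edgesOf (H : G.Subgraph) : Finset (Sym2 V) := by
  classical exact if h : H.edgeSet.Finite then h.toFinset else ∅

open scoped Classical in
/-- The spanning trees of `H` as a finset of finsets. -/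
noncomputable def trees (H : G.Subgraph) : Finset (Finset (Sym2 V)) :=
  (edgesOf H).powerset.filter (fun T => IsSpanningTree H (T : Set (Sym2 V)))

theorem edgeSet_finite (H : G.Subgraph) (hf : H.verts.Finite) : H.edgeSet.Finite := by
  refine ((hf.prod hf).image (fun p : V × V => s(p.1, p.2))).subset ?_
  intro e he
  induction e using Sym2.ind with
  | _ x y =>
    rw [Subgraph.mem_edgeSet] at he
    exact ⟨(x, y), ⟨H.edge_vert he, H.edge_vert he.symm⟩, rfl⟩

theorem mem_edgesOf (H : G.Subgraph) (hf : H.verts.Finite) (e : Sym2 V) :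
    e ∈ edgesOf H ↔ e ∈ H.edgeSet := by
  unfold edgesOf
  rw [dif_pos (edgeSet_finite H hf)]
  simp

theorem mem_trees (H : G.Subgraph) (hf : H.verts.Finite) (T : Finset (Sym2 V)) :
    T ∈ trees H ↔ IsSpanningTree H (T : Set (Sym2 V)) := by
  classical
  unfold trees
  rw [Finset.mem_filter, Finset.mem_powerset]
  constructor
  · exact fun h => h.2
  · intro h
    exact ⟨fun e he => (mem_edgesOf H hf e).2 (h.1 he), h⟩

theorem trees_subset (H : G.Subgraph) : ∀ T ∈ trees H, T ⊆ edgesOf H := by
  classical
  intro T hT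
  unfold trees at hT
  rw [Finset.mem_filter, Finset.mem_powerset] at hT
  exact hT.1

/-- unordered pairs of vertices of `H` as unordered pairs of `V` -/
def semb (H : G.Subgraph) : Sym2 H.verts ↪ Sym2 V :=
  ⟨Sym2.map Subtype.val, Sym2.map.injective Subtype.val_injective⟩

theorem mem_edgeSet_coe (H : G.Subgraph) (e : Sym2 H.verts) :
    semb H e ∈ H.edgeSet ↔ e ∈ H.coe.edgeSet := by
  induction e using Sym2.ind with
  | _ x y => simp [semb]

theorem induce_map (H : G.Subgraph) (T : Finset (Sym2 H.verts)) :
    (fromEdgeSet ((T.map (semb H) : Finset (Sym2 V)) : Set (Sym2 V))).induce H.verts =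
      fromEdgeSet (T : Set (Sym2 H.verts)) := by
  ext x y
  rw [comap_adj, fromEdgeSet_adj, fromEdgeSet_adj]
  have h1 : s((x : V), (y : V)) = semb H s(x, y) := rfl
  simp only [Function.Embedding.subtype_apply, Finset.mem_coe, h1]
  rw [Finset.mem_map' (semb H)]
  constructor
  · rintro ⟨h, hne⟩
    exact ⟨h, fun h' => hne (congrArg Subtype.val h')⟩
  · rintro ⟨h, hne⟩
    exact ⟨h, fun h' => hne (Subtype.ext h')⟩

theorem trees_eq (H : G.Subgraph) (hf : H.verts.Finite) [Fintype H.verts] :
    trees H = (spTrees H.coe).map (Finset.mapEmbedding (semb H)).toEmbedding := by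
  classical
  ext T
  rw [mem_trees H hf, Finset.mem_map]
  constructor
  · rintro ⟨hsub, htree⟩
    have hT : (T.preimage (semb H) (semb H).injective.injOn).map (semb H) = T := by
      rw [Finset.map_eq_image, Finset.image_preimage]
      rw [Finset.filter_eq_self]
      intro e he
      have := hsub he
      induction e using Sym2.ind with
      | _ x y =>
        rw [Subgraph.mem_edgeSet] at this
        exact ⟨s(⟨x, H.edge_vert this⟩, ⟨y, H.edge_vert this.symm⟩), rfl⟩
    refine ⟨T.preimage (semb H) (semb H).injective.injOn, ?_, hT⟩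
    rw [mem_spTrees]
    refine ⟨?_, ?_⟩
    · intro e he
      rw [Finset.mem_preimage] at he
      exact (mem_edgeSet_coe H e).1 (hsub he)
    · rw [← induce_map, hT]
      exact htree
  · rintro ⟨T', hT', rfl⟩
    rw [mem_spTrees] at hT'
    simp only [RelEmbedding.coe_toEmbedding, Finset.mapEmbedding_apply]
    refine ⟨?_, ?_⟩
    · intro e he
      rw [Finset.coe_map] at he
      obtain ⟨e', he', rfl⟩ := he
      exact (mem_edgeSet_coe H e').2 (hT'.1 e' he')
    · rw [induce_map]
      exact hT'.2

theorem spTrees_nonempty {W : Type*} [Fintype W] {K : SimpleGraph W} (hK : K.Connected) :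
    (spTrees K).Nonempty := by
  classical
  obtain ⟨T, hTK, hT⟩ := hK.exists_isTree_le
  refine ⟨T.edgeFinset, ?_⟩
  rw [mem_spTrees]
  refine ⟨fun e he => ?_, ?_⟩
  · rw [mem_edgeFinset] at he
    exact edgeSet_mono hTK he
  · rw [coe_edgeFinset, fromEdgeSet_edgeSet]
    exact hT

theorem spTrees_card {W : Type*} [Fintype W] {K : SimpleGraph W} {T : Finset (Sym2 W)}
    (hT : T ∈ spTrees K) : T.card + 1 = Fintype.card W := by
  classical
  rw [mem_spTrees] at hT
  have h := hT.2.card_edgeFinset
  rw [← h]
  congr 1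
  congr 1
  ext e
  rw [mem_edgeFinset, edgeSet_fromEdgeSet]
  constructor
  · intro he
    refine ⟨he, fun hd => ?_⟩
    exact not_isDiag_of_mem_edgeSet K (hT.1 e he) hd
  · rintro ⟨he, _⟩
    exact he

theorem trees_nonempty (H : G.Subgraph) (hf : H.verts.Finite) (hc : H.Connected) :
    (trees H).Nonempty := by
  classical
  have : Fintype H.verts := hf.fintype
  rw [trees_eq H hf, Finset.map_nonempty]
  exact spTrees_nonempty hc.coe

theorem trees_card (H : G.Subgraph) (hf : H.verts.Finite) :
    ∃ c, ∀ T ∈ trees H, T.card = c := by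
  classical
  have : Fintype H.verts := hf.fintype
  refine ⟨Fintype.card H.verts - 1, fun T hT => ?_⟩
  rw [trees_eq H hf, Finset.mem_map] at hT
  obtain ⟨T', hT', rfl⟩ := hT
  have := spTrees_card hT'
  simp only [RelEmbedding.coe_toEmbedding, Finset.mapEmbedding_apply, Finset.card_map]
  omega

theorem edgesOf_eq_image (H : G.Subgraph) (hf : H.verts.Finite) :
    (edgesOf H : Set (Sym2 V)) = Sym2.map (Subtype.val : H.verts → V) '' H.coe.edgeSet := by
  ext e
  rw [Finset.mem_coe, mem_edgesOf H hf]
  constructor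
  · intro he
    induction e using Sym2.ind with
    | _ x y =>
      have he' := he
      rw [Subgraph.mem_edgeSet] at he'
      exact ⟨s(⟨x, H.edge_vert he'⟩, ⟨y, H.edge_vert he'.symm⟩),
        (mem_edgeSet_coe H _).1 he, rfl⟩
  · rintro ⟨e', he', rfl⟩
    exact (mem_edgeSet_coe H e').2 he'

theorem wt_eq_exp (H : G.Subgraph) (h : Sym2 V → ℝ) (T : Finset (Sym2 H.verts)) :
    wt (fun e' => Real.exp (h (Sym2.map Subtype.val e'))) T =
      Real.exp (∑ g ∈ T.map (semb H), h g) := by
  unfold wt
  rw [Finset.sum_map, Real.exp_sum]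
  rfl

open scoped Classical in
/-- Marginals of the Gibbs measure on a finite family `𝒯` of finite sets: the probability of
`e ∈ T` when `T` has weight `exp (∑ g ∈ T, h g)`. -/
noncomputable def gibbs {E : Type*} (𝒯 : Finset (Finset E)) (h : E → ℝ) (e : E) : ℝ :=
  (∑ T ∈ 𝒯, if e ∈ T then Real.exp (∑ g ∈ T, h g) else 0) / (∑ T ∈ 𝒯, Real.exp (∑ g ∈ T, h g))

open scoped Classical in
theorem gibbs_trees (H : G.Subgraph) (hf : H.verts.Finite) [Fintype H.verts] (h : Sym2 V → ℝ)
    (a b : H.verts) :
    gibbs (trees H) h s((a : V), (b : V)) =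
      (∑ T ∈ spTrees H.coe, if s(a, b) ∈ T then
        wt (fun e' => Real.exp (h (Sym2.map Subtype.val e'))) T else 0) /
      ∑ T ∈ spTrees H.coe, wt (fun e' => Real.exp (h (Sym2.map Subtype.val e'))) T := by
  unfold gibbs
  rw [trees_eq H hf, Finset.sum_map, Finset.sum_map]
  congr 1
  · refine Finset.sum_congr rfl fun T _ => ?_
    rw [wt_eq_exp]
    have h1 : s((a : V), (b : V)) = semb H s(a, b) := rfl
    simp only [RelEmbedding.coe_toEmbedding, Finset.mapEmbedding_apply, h1]
    congr 1
    rw [Finset.mem_map' (semb H)]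
  · refine Finset.sum_congr rfl fun T _ => ?_
    rw [wt_eq_exp]
    rfl

open scoped Classical in
/-- The uniform spanning tree probability of a cylinder as a ratio of cardinalities. -/
theorem ustProb_cyl (H : G.Subgraph) (hf : H.verts.Finite) (B A : Finset (Sym2 V)) :
    ustProb H (cyl B A) =
      (((trees H).filter (fun T => ∀ e ∈ B, (e ∈ T ↔ e ∈ A))).card : ℝ) / ((trees H).card : ℝ) := by
  unfold ustProb
  have key : ∀ (p : Set (Sym2 V) → Prop),
      {T : Set (Sym2 V) | IsSpanningTree H T ∧ p T}.ncard =
        ((trees H).filter (fun T : Finset (Sym2 V) => p (T : Set (Sym2 V)))).card := by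
    intro p
    have himg : {T : Set (Sym2 V) | IsSpanningTree H T ∧ p T} =
        (fun T : Finset (Sym2 V) => (T : Set (Sym2 V))) ''
          (((trees H).filter (fun T : Finset (Sym2 V) => p (T : Set (Sym2 V)))) :
            Set (Finset (Sym2 V))) := by
      ext T
      constructor
      · rintro ⟨hT, hp⟩
        have hfin : T.Finite := (edgeSet_finite H hf).subset hT.1
        refine ⟨hfin.toFinset, ?_, hfin.coe_toFinset⟩
        rw [Finset.mem_coe, Finset.mem_filter, mem_trees H hf, hfin.coe_toFinset]
        exact ⟨hT, hp⟩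
      · rintro ⟨T', hT', rfl⟩
        rw [Finset.mem_coe, Finset.mem_filter, mem_trees H hf] at hT'
        exact hT'
    rw [himg, Set.ncard_image_of_injective _ Finset.coe_injective, Set.ncard_coe_finset]
  have h1 := key (fun T => T ∈ cyl B A)
  have h2 := key (fun _ => True)
  simp only [and_true, Finset.filter_true] at h2
  rw [h1, h2]
  congr 3
  ext T
  simp only [Finset.mem_filter, cyl, Set.mem_ofPred_eq, Finset.mem_coe]

open scoped Classical in
theorem ustProb_cyl' (H : G.Subgraph) (hf : H.verts.Finite) (B A : Finset (Sym2 V)) :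
    ustProb H (cyl B A) =
      ∑ T ∈ trees H, if (∀ e ∈ B, (e ∈ T ↔ e ∈ A)) then (1 / ((trees H).card : ℝ)) else 0 := by
  rw [ustProb_cyl H hf, ← Finset.sum_filter, Finset.sum_const, nsmul_eq_mul, mul_one_div]
  congr!

/-- Along an exhaustion, every finite set of edges is eventually contained. -/
theorem IsExhaustion.eventually_subset {H : ℕ → G.Subgraph} (hH : IsExhaustion G H)
    (F : Finset (Sym2 V)) (hF : (F : Set (Sym2 V)) ⊆ G.edgeSet) :
    ∀ᶠ n in atTop, F ⊆ edgesOf (H n) := by
  have h1 : ∀ e ∈ F, ∀ᶠ n in atTop, e ∈ edgesOf (H n) := by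
    intro e he
    have heG : e ∈ G.edgeSet := hF he
    have : ∃ n, e ∈ (H n).edgeSet := by
      induction e using Sym2.ind with
      | _ x y =>
        have hadj : (⨆ n, H n).Adj x y := by
          rw [hH.exh]
          exact heG
        rw [Subgraph.iSup_adj] at hadj
        exact hadj
    obtain ⟨n, hn⟩ := this
    filter_upwards [eventually_ge_atTop n] with m hm
    rw [mem_edgesOf _ (hH.fin m)]
    exact Subgraph.edgeSet_mono (hH.mono hm) hn
  have h2 := (Filter.eventually_all_finset F).2 h1
  filter_upwards [h2] with n hn e he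
  exact hn e he

theorem edgesOf_subset (H : G.Subgraph) : (edgesOf H : Set (Sym2 V)) ⊆ G.edgeSet := by
  intro e he
  unfold edgesOf at he
  split_ifs at he with hfin
  · rw [Finset.mem_coe, Set.Finite.mem_toFinset] at he
    exact H.edgeSet_subset he
  · simp at he

end P143
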