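import Vale.Agent.P143.Transfer

/-!
# P143: Cayley graphs
-/

open MeasureTheory ProbabilityTheory Filter Topology unitInterval
open scoped ENNReal

namespace P143

variable {Γ : Type*} [Group Γ] {S : Finset Γ}

theorem cay_mul_left (c g h : Γ) : (cay Γ S).Adj (c * g) (c * h) ↔ (cay Γ S).Adj g h := by
  simp only [cay]
  have h1 : (c * g)⁻¹ * (c * h) = g⁻¹ * h := by group
  have h2 : (c * h)⁻¹ * (c * g) = h⁻¹ * g := by group
  rw [h1, h2]
  simp

theorem cay_finite (g : Γ) : ((cay Γ S).neighborSet g).Finite := by
  classical
  have hsub : (cay Γ S).neighborSet g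
      ⊆ ((S.image fun s => g * s) ∪ (S.image fun s => g * s⁻¹) : Finset Γ) := by
    intro h hh
    rcases hh.2 with h1 | h1
    · simp only [Finset.coe_union, Finset.coe_image, Set.mem_union, Set.mem_image,
        Finset.mem_coe]
      left
      exact ⟨_, h1, by group⟩
    · simp only [Finset.coe_union, Finset.coe_image, Set.mem_union, Set.mem_image,
        Finset.mem_coe]
      right
      exact ⟨_, h1, by group⟩
  exact (Finset.finite_toSet _).subset hsub

theorem cay_connected (hS : Subgroup.closure (S : Set Γ) = ⊤) : (cay Γ S).Connected := by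
  have hstep : ∀ (g s : Γ), s ∈ S → (cay Γ S).Reachable g (g * s) := by
    intro g s hs
    by_cases h : g = g * s
    · rw [← h]
    · refine SimpleGraph.Adj.reachable ⟨h, Or.inl ?_⟩
      simpa using hs
  have key : ∀ x ∈ Subgroup.closure (S : Set Γ), ∀ g : Γ, (cay Γ S).Reachable g (g * x) := by
    intro x hx
    induction hx using Subgroup.closure_induction with
    | mem s hs => exact fun g => hstep g s hs
    | one => intro g; rw [mul_one]
    | mul x y _ _ ihx ihy =>
      intro g
      rw [← mul_assoc]
      exact (ihx g).trans (ihy (g * x))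
    | inv x _ ih =>
      intro g
      have := ih (g * x⁻¹)
      rw [inv_mul_cancel_right] at this
      exact this.symm
  refine (SimpleGraph.connected_iff _).2 ⟨fun g h => ?_, ⟨1⟩⟩
  have := key (g⁻¹ * h) (by rw [hS]; trivial) g
  rwa [mul_inv_cancel_left] at this

theorem countable_of_closure (hS : Subgroup.closure (S : Set Γ) = ⊤) : Countable Γ := by
  have h1 : Function.Surjective (FreeGroup.lift (fun s : S => (s : Γ))) := by
    rw [← MonoidHom.range_eq_top, FreeGroup.range_lift_eq_closure]
    convert hS
    simp
  have h2 : Countable (FreeGroup S) := by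
    have : Countable (List (S × Bool)) := inferInstance
    exact Function.Surjective.countable (f := fun L : List (S × Bool) => FreeGroup.mk L)
      (Quot.mk_surjective)
  exact h1.countable

end P143
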