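import Vale.Agent.P143.StmtDefs

/-!
# P143: every connected countable graph has an exhaustion by finite connected subgraphs
-/

open SimpleGraph

namespace P143

theorem subgraph_sup_connected {V : Type*} {G : SimpleGraph V} {H K : G.Subgraph}
    (hH : H.Connected) (hK : K.Connected) (hn : ∃ v, v ∈ H.verts ∧ v ∈ K.verts) :
    (H ⊔ K).Connected := by
  obtain ⟨v, h1, h2⟩ := hn
  exact Subgraph.connected_sup hH.preconnected hK.preconnected ⟨v, h1, h2⟩

theorem exists_exhaustion {V : Type*} [Countable V] (G : SimpleGraph V) (hG : G.Connected) :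
    ∃ H : ℕ → G.Subgraph, IsExhaustion G H := by
  classical
  obtain ⟨v0⟩ := hG.nonempty
  have hw : ∀ u, ∃ p : G.Walk v0 u, True := fun u => by
    obtain ⟨p⟩ := hG.preconnected v0 u
    exact ⟨p, trivial⟩
  choose p _ using hw
  let K : V × V → G.Subgraph := fun q =>
    (p q.1).toSubgraph ⊔ (if h : G.Adj q.1 q.2 then G.subgraphOfAdj h else ⊥)
  have : Nonempty (V × V) := ⟨(v0, v0)⟩
  obtain ⟨f, hf⟩ := exists_surjective_nat (V × V)
  have hKfin : ∀ q, (K q).verts.Finite := by
    intro q
    simp only [K, Subgraph.verts_sup]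
    refine Set.Finite.union ?_ ?_
    · have : ((p q.1).toSubgraph.verts) = {w | w ∈ (p q.1).support} := by
        ext w; simp
      rw [this]
      exact List.finite_toSet _
    · split_ifs with h
      · simp only [subgraphOfAdj_verts]
        exact Set.toFinite _
      · simp
  have hKv0 : ∀ q, v0 ∈ (K q).verts := by
    intro q
    simp only [K, Subgraph.verts_sup]
    left
    rw [Walk.mem_verts_toSubgraph]
    exact Walk.start_mem_support _
  have hKconn : ∀ q, (K q).Connected := by
    intro q
    simp only [K]
    split_ifs with h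
    · refine subgraph_sup_connected (Walk.toSubgraph_connected _) (Subgraph.subgraphOfAdj_connected h) ?_
      refine ⟨q.1, ?_, ?_⟩
      · show q.1 ∈ (p q.1).toSubgraph.verts
        rw [Walk.mem_verts_toSubgraph]
        exact Walk.end_mem_support _
      · simp
    · rw [sup_bot_eq]
      exact Walk.toSubgraph_connected _
  let H : ℕ → G.Subgraph := fun n => Nat.rec (K (f 0)) (fun m Hm => Hm ⊔ K (f (m+1))) n
  have hHsucc : ∀ n, H (n+1) = H n ⊔ K (f (n+1)) := fun n => rfl
  have hH0 : H 0 = K (f 0) := rfl
  have hHv0 : ∀ n, v0 ∈ (H n).verts := by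
    intro n
    induction n with
    | zero => exact hKv0 _
    | succ n ih => rw [hHsucc]; exact Or.inl ih
  have hmono : Monotone H := monotone_nat_of_le_succ fun n => by
    rw [hHsucc]; exact le_sup_left
  have hKH : ∀ n, K (f n) ≤ H n := by
    intro n
    cases n with
    | zero => exact le_of_eq hH0.symm
    | succ n => rw [hHsucc]; exact le_sup_right
  refine ⟨H, ⟨?_, ?_, hmono, ?_⟩⟩
  · intro n
    induction n with
    | zero => exact hKfin _
    | succ n ih =>
      rw [hHsucc, Subgraph.verts_sup]
      exact ih.union (hKfin _)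
  · intro n
    induction n with
    | zero => exact hKconn _
    | succ n ih =>
      rw [hHsucc]
      exact subgraph_sup_connected ih (hKconn _) ⟨v0, hHv0 n, hKv0 _⟩
  · rw [eq_top_iff]
    refine ⟨?_, ?_⟩
    · intro v _
      rw [Subgraph.verts_iSup]
      obtain ⟨n, hn⟩ := hf (v, v)
      refine Set.mem_iUnion.2 ⟨n, (hKH n).1 ?_⟩
      rw [hn]
      simp only [K, Subgraph.verts_sup]
      left
      rw [Walk.mem_verts_toSubgraph]
      exact Walk.end_mem_support _
    · intro u v huv
      rw [Subgraph.iSup_adj]
      obtain ⟨n, hn⟩ := hf (u, v)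
      have huv' : G.Adj u v := huv
      refine ⟨n, (hKH n).2 ?_⟩
      rw [hn]
      simp only [K, Subgraph.sup_adj]
      right
      rw [dif_pos huv']
      simp

end P143
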