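import Vale.Agent.P143.StmtDefs

/-!
# P143: equivariant edge labels from vertex labels
-/

open MeasureTheory ProbabilityTheory Filter Topology unitInterval
open scoped ENNReal

namespace P143

section split

variable {κ ι₁ ι₂ : Type*} (γ : Measure ℝ) [IsProbabilityMeasure γ]

/-- Restricting an i.i.d. family to two disjoint injectively embedded index sets gives
independent i.i.d. families. -/
theorem map_split {f : ι₁ → κ} {g : ι₂ → κ} (hf : Function.Injective f)
    (hg : Function.Injective g) (hfg : ∀ i j, f i ≠ g j) :
    (Measure.infinitePi fun _ : κ => γ).map (fun x => ((fun i => x (f i)), (fun j => x (g j))))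
      = (Measure.infinitePi fun _ : ι₁ => γ).prod (Measure.infinitePi fun _ : ι₂ => γ) := by
  have hind : IndepFun (fun (x : κ → ℝ) i => x (f i)) (fun (x : κ → ℝ) j => x (g j))
      (Measure.infinitePi fun _ : κ => γ) := by
    have h0 : iIndepFun (fun (i : κ) (x : κ → ℝ) => x i) (Measure.infinitePi fun _ : κ => γ) :=
      iIndepFun_infinitePi (X := fun _ x => x) (fun _ => measurable_id)
    have h1 : iIndep (fun i : κ => MeasurableSpace.comap (fun x : κ → ℝ => x i) inferInstance)
        (Measure.infinitePi fun _ : κ => γ) := h0
    have h2 := indep_iSup_of_disjoint (S := Set.range f) (T := Set.range g)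
      (fun i => (measurable_pi_apply i).comap_le) h1
      (by
        rw [Set.disjoint_left]
        rintro _ ⟨i, rfl⟩ ⟨j, hj⟩
        exact hfg i j hj.symm)
    rw [IndepFun_iff_Indep]
    refine indep_of_indep_of_le_left (indep_of_indep_of_le_right h2 ?_) ?_
    · rw [MeasurableSpace.pi, MeasurableSpace.comap_iSup]
      refine iSup_le fun j => ?_
      rw [MeasurableSpace.comap_comp]
      refine le_iSup₂_of_le (g j) ⟨j, rfl⟩ ?_
      exact le_rfl
    · rw [MeasurableSpace.pi, MeasurableSpace.comap_iSup]
      refine iSup_le fun j => ?_
      rw [MeasurableSpace.comap_comp]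
      refine le_iSup₂_of_le (f j) ⟨j, rfl⟩ ?_
      exact le_rfl
  have := hind.map_prod_eq_prod_map_map (Measurable.aemeasurable (by fun_prop)) (Measurable.aemeasurable (by fun_prop))
  rw [this, Measure.map_infinitePi_infinitePi_of_inj hf, Measure.map_infinitePi_infinitePi_of_inj hg]

end split

end P143
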