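import Vale.Agent.P143.Cayley
import Vale.Agent.P143.LabelsG

/-!
# P143: final assembly from the core theorem and the edge labels
-/

open MeasureTheory ProbabilityTheory Filter Topology unitInterval
open scoped ENNReal

universe u

namespace P143

/-- The Gaussian edge-label law. -/
noncomputable abbrev gauE : Measure (Sym2 ℕ → ℝ) :=
  Measure.infinitePi fun _ : Sym2 ℕ => gaussianReal 0 1

/-- The statement of the core theorem. -/
def CoreStatement : Prop :=
  ∃ F : SimpleGraph ℕ → (Sym2 ℕ → ℝ) → Set (Sym2 ℕ),
    (Measurable fun p : SimpleGraph ℕ × (Sym2 ℕ → ℝ) => F p.1 p.2) ∧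
    (∀ (τ : Equiv.Perm ℕ) G ξ, Good G →
      F (rG τ G) (fun e => ξ (Sym2.map τ.symm e)) = {e | Sym2.map τ.symm e ∈ F G ξ}) ∧
    (∀ G ξ ξ', (∀ e ∈ G.edgeSet, ξ e = ξ' e) → F G ξ = F G ξ') ∧
    (∀ G, Good G → IsFUSF G (gauE.map (F G)))

/-- The statement about edge labels. -/
def LabelStatement : Prop :=
  ∃ L : SimpleGraph ℕ → (ℕ → I) → (Sym2 ℕ → ℝ),
    (Measurable fun p : SimpleGraph ℕ × (ℕ → I) => L p.1 p.2) ∧
    (∀ (τ : Equiv.Perm ℕ) G U, Good G → ∀ e ∈ G.edgeSet,
      L (rG τ G) (fun x => U (τ.symm x)) (Sym2.map τ e) = L G U e) ∧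
    (∀ G, Good G → ∀ F : (Sym2 ℕ → ℝ) → Set (Sym2 ℕ), Measurable F →
      (∀ ξ ξ', (∀ e ∈ G.edgeSet, ξ e = ξ' e) → F ξ = F ξ') →
      (vlab ℕ).map (fun U => F (L G U)) = gauE.map F)

theorem rG_eq_tG (τ : Equiv.Perm ℕ) (G : SimpleGraph ℕ) : rG τ G = tG τ G := rfl

theorem good_tG {V : Type*} (e : V ≃ ℕ) {G : SimpleGraph V} (hc : G.Connected)
    (hf : ∀ x, (G.neighborSet x).Finite) : Good (tG e G) := by
  constructor
  · have iso : G ≃g tG e G :=
      { toEquiv := e
        map_rel_iff' := by
          intro a b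
          exact tG_adj e G a b }
    exact iso.connected_iff.1 hc
  · intro n
    have : (tG e G).neighborSet n = e.symm ⁻¹' G.neighborSet (e.symm n) := by
      ext m
      rfl
    rw [this]
    exact (hf _).preimage e.symm.injective.injOn

theorem good_rG (τ : Equiv.Perm ℕ) (G : SimpleGraph ℕ) : Good (rG τ G) ↔ Good G := by
  constructor
  · intro h
    have h1 := good_tG τ.symm h.1 h.2
    have h2 : tG τ.symm (rG τ G) = G := by
      ext x y
      simp [tG, rG]
    rwa [h2] at h1
  · intro h
    rw [rG_eq_tG]
    exact good_tG τ h.1 h.2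

/-- `n`-step reachability -/
def stepR (G : SimpleGraph ℕ) : ℕ → ℕ → ℕ → Prop
  | 0, x, y => x = y
  | (n + 1), x, y => ∃ z, stepR G n x z ∧ G.Adj z y

theorem reachable_iff_stepR (G : SimpleGraph ℕ) (x y : ℕ) :
    G.Reachable x y ↔ ∃ n, stepR G n x y := by
  rw [SimpleGraph.reachable_iff_reflTransGen]
  constructor
  · intro h
    induction h with
    | refl => exact ⟨0, rfl⟩
    | tail _ hbc ih =>
      obtain ⟨n, hn⟩ := ih
      exact ⟨n + 1, _, hn, hbc⟩
  · rintro ⟨n, hn⟩
    induction n generalizing y with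
    | zero =>
      have : x = y := hn
      subst this
      exact Relation.ReflTransGen.refl
    | succ n ih =>
      obtain ⟨z, hz, hzy⟩ := hn
      exact (ih z hz).tail hzy

theorem measurableSet_adj (x y : ℕ) : MeasurableSet {G : SimpleGraph ℕ | G.Adj x y} := by
  have h : Measurable fun G : SimpleGraph ℕ => G.Adj x y := by fun_prop
  exact h.setOf

theorem measurableSet_stepR (n x y : ℕ) : MeasurableSet {G : SimpleGraph ℕ | stepR G n x y} := by
  induction n generalizing y with
  | zero =>
    by_cases h : x = y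
    · simp [stepR, h]
    · simp [stepR, h]
  | succ n ih =>
    have : {G : SimpleGraph ℕ | stepR G (n + 1) x y}
        = ⋃ z, ({G : SimpleGraph ℕ | stepR G n x z} ∩ {G | G.Adj z y}) := by
      ext G
      simp [stepR]
    rw [this]
    exact MeasurableSet.iUnion fun z => (ih z).inter (measurableSet_adj z y)

theorem measurableSet_good : MeasurableSet {G : SimpleGraph ℕ | Good G} := by
  have : {G : SimpleGraph ℕ | Good G}
      = (⋂ x, ⋂ y, ⋃ n, {G : SimpleGraph ℕ | stepR G n x y})
        ∩ (⋂ x, ⋃ N, ⋂ y, ({G : SimpleGraph ℕ | G.Adj x y}ᶜ ∪ {_G | y < N})) := by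
    ext G
    simp only [Good, Set.mem_ofPred_eq, Set.mem_inter_iff, Set.mem_iInter, Set.mem_iUnion,
      Set.mem_union, Set.mem_compl_iff]
    refine and_congr ?_ ?_
    · rw [SimpleGraph.connected_iff]
      simp only [SimpleGraph.Preconnected, reachable_iff_stepR]
      exact ⟨fun h => h.1, fun h => ⟨h, ⟨0⟩⟩⟩
    · refine forall_congr' fun x => ?_
      constructor
      · intro h
        obtain ⟨N, hN⟩ := h.bddAbove
        refine ⟨N + 1, fun y => ?_⟩
        by_cases hy : G.Adj x y
        · right
          exact Nat.lt_succ_of_le (hN hy)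
        · left
          exact hy
      · rintro ⟨N, hN⟩
        refine (Set.finite_lt_nat N).subset fun y hy => ?_
        rcases hN y with h | h
        · exact absurd hy h
        · exact h
  rw [this]
  refine MeasurableSet.inter ?_ ?_
  · exact MeasurableSet.iInter fun x => MeasurableSet.iInter fun y => MeasurableSet.iUnion fun n =>
      measurableSet_stepR n x y
  · refine MeasurableSet.iInter fun x => MeasurableSet.iUnion fun N => MeasurableSet.iInter fun y =>
      (measurableSet_adj x y).compl.union ?_
    exact MeasurableSet.const _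

theorem universal_of (hcore : CoreStatement) (hlab : LabelStatement) : UniversalRule := by
  classical
  obtain ⟨F, hFm, hFe, hFl, hFf⟩ := hcore
  obtain ⟨L, hLm, hLe, hLl⟩ := hlab
  refine ⟨fun G U => if Good G then F G (L G U) else ∅, ⟨?_, ?_⟩, ?_⟩
  · have hS : MeasurableSet {p : SimpleGraph ℕ × (ℕ → I) | Good p.1} :=
      measurableSet_good.preimage measurable_fst
    refine Measurable.ite hS ?_ measurable_const
    exact hFm.comp (measurable_fst.prodMk hLm)
  · intro τ G U
    by_cases hG : Good G
    · have hG' : Good (rG τ G) := (good_rG τ G).2 hG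
      simp only [hG, hG', if_true]
      have h1 := hFe τ G (L G U) hG
      have h2 : F (rG τ G) (L (rG τ G) fun x => U (τ.symm x))
          = F (rG τ G) (fun e => L G U (Sym2.map τ.symm e)) := by
        refine hFl _ _ _ fun e he => ?_
        have he' : Sym2.map τ.symm e ∈ G.edgeSet := by
          induction e with
          | _ x y => exact he
        have := hLe τ G U hG _ he'
        rw [← this]
        congr 1
        simp [Sym2.map_map]
      rw [h2, h1]
      exact rSe_eq_image τ (F G (L G U))
    · have hG' : ¬ Good (rG τ G) := fun h => hG ((good_rG τ G).1 h)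
      simp only [hG, hG', if_false, Set.image_empty]
  · intro G hG
    have h1 := hFf G hG
    have h2 := hLl G hG (F G) (hFm.comp (measurable_const.prodMk measurable_id)) (hFl G)
    rw [← h2] at h1
    have h3 : (fun U : ℕ → I => if Good G then F G (L G U) else ∅) = fun U => F G (L G U) := by
      funext U
      simp [hG]
    beta_reduce
    rw [h3]
    exact h1

theorem cayley_of (h : UniversalRule) : CayleyHalf.{u} := by
  obtain ⟨Φ, ⟨hm, he⟩, hf⟩ := h
  intro Γ _ _ S hS
  have : Countable Γ := countable_of_closure hS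
  obtain ⟨e⟩ : Nonempty (Γ ≃ ℕ) := nonempty_equiv_of_countable
  set G : SimpleGraph ℕ := tG e (cay Γ S) with hGdef
  have hG : Good G := good_tG e (cay_connected hS) cay_finite
  have hPhi : Measurable (Φ G) := hm.comp (measurable_const.prodMk measurable_id)
  have hpull : Measurable (fun (U : Γ → I) (n : ℕ) => U (e.symm n)) := by fun_prop
  refine ⟨fun U => rSe e.symm (Φ G (fun n => U (e.symm n))),
    (measurable_rSe e.symm).comp (hPhi.comp hpull), ?_, ?_⟩
  · intro γ U
    let τ : Equiv.Perm ℕ := e.symm.trans ((Equiv.mulLeft γ).trans e)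
    have hτ : ∀ n, e.symm (τ.symm n) = γ⁻¹ * e.symm n := by
      intro n
      simp [τ]
    have hτ' : ∀ g : Γ, τ (e g) = e (γ * g) := by
      intro g
      simp [τ]
    have hrG : rG τ G = G := by
      ext m n
      show (cay Γ S).Adj (e.symm (τ.symm m)) (e.symm (τ.symm n)) ↔ (cay Γ S).Adj (e.symm m) (e.symm n)
      rw [hτ, hτ]
      exact cay_mul_left γ⁻¹ _ _
    have h1 := he τ G (fun n => U (e.symm n))
    rw [hrG] at h1
    have h2 : (fun n => U (e.symm (τ.symm n))) = fun n => U (γ⁻¹ * e.symm n) := by
      funext n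
      rw [hτ]
    simp only [h2] at h1
    simp only [h1]
    rw [rSe_eq_image, rSe_eq_image, Set.image_image, Set.image_image]
    refine Set.image_congr fun f _ => ?_
    rw [Sym2.map_map, Sym2.map_map]
    congr 1
    funext n
    show e.symm (τ n) = γ * e.symm n
    have := hτ' (e.symm n)
    rw [e.apply_symm_apply] at this
    rw [this, e.symm_apply_apply]
  · have h1 := (hf G hG).transport e.symm
    have h2 : tG e.symm G = cay Γ S := by
      ext x y
      simp [hGdef, tG]
    rw [h2] at h1
    have h3 : ((vlab ℕ).map (Φ G)).map (rSe e.symm)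
        = (vlab Γ).map (fun U => rSe e.symm (Φ G (fun n => U (e.symm n)))) := by
      have h4 : (vlab Γ).map (fun (U : Γ → I) (n : ℕ) => U (e.symm n)) = vlab ℕ :=
        Measure.map_infinitePi_infinitePi_of_inj (P := fun _ : Γ => (volume : Measure I))
          e.symm.injective
      rw [← h4, Measure.map_map hPhi hpull, Measure.map_map (measurable_rSe e.symm)
        (hPhi.comp hpull)]
      rfl
    rw [h3] at h1
    exact h1

theorem unimodular_of (h : UniversalRule) : UnimodularHalf := by
  obtain ⟨Φ, hr, hf⟩ := h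
  intro P _ hP _
  exact ⟨Φ, hr, hP.mono fun G hG => hf G hG⟩

theorem all_of (hcore : CoreStatement) (hlab : LabelStatement) :
    CayleyHalf.{u} ∧ UnimodularHalf ∧ UniversalRule := by
  have h := universal_of hcore hlab
  exact ⟨cayley_of h, unimodular_of h, h⟩

end P143
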