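import Mathlib
import Vale.Agent.P143.Kirchhoff

/-!
# P143, module L3: effective conductances of finite edge sets and the drift

Everything is indexed by finite sets of edges `S : Finset (Sym2 V)` of a graph on any type `V`.
-/

namespace P143

open Finset Filter Topology

section Defs

variable {V : Type*}

/-- the squared increment of `f` along an edge -/
def sqd (f : V → ℝ) : Sym2 V → ℝ :=
  Sym2.lift ⟨fun x y => (f x - f y) ^ 2, fun x y => by ring⟩

@[simp] theorem sqd_mk (f : V → ℝ) (x y : V) : sqd f s(x, y) = (f x - f y) ^ 2 := rfl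

theorem sqd_nonneg (f : V → ℝ) (e : Sym2 V) : 0 ≤ sqd f e := by
  induction e with
  | _ x y => rw [sqd_mk]; positivity

/-- the Dirichlet energy of `f` on the finite edge set `S` with conductances `w` -/
def energy (S : Finset (Sym2 V)) (w : Sym2 V → ℝ) (f : V → ℝ) : ℝ := ∑ e ∈ S, w e * sqd f e

/-- the effective conductance across `e` in the finite edge set `S` -/
noncomputable def cnd (S : Finset (Sym2 V)) (w : Sym2 V → ℝ) (e : Sym2 V) : ℝ :=
  ⨅ f : {f : V → ℝ // sqd f e = 1}, energy S w f.1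

open scoped Classical in
/-- finite volume drift: the probability of `e` in the weighted uniform spanning tree of `S` -/
noncomputable def mS (S : Finset (Sym2 V)) (h : Sym2 V → ℝ) (e : Sym2 V) : ℝ :=
  if e ∈ S then Real.exp (h e) / cnd S (fun g => Real.exp (h g)) e else 0

open scoped Classical in
/-- infinite volume drift -/
noncomputable def mG (G : SimpleGraph V) (h : Sym2 V → ℝ) (e : Sym2 V) : ℝ :=
  if e ∈ G.edgeSet then
    ⨅ S : {S : Finset (Sym2 V) // (S : Set (Sym2 V)) ⊆ G.edgeSet ∧ e ∈ S}, mS S.1 h e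
  else 0

end Defs

section Basic

variable {V : Type*} {S S' : Finset (Sym2 V)} {w w' : Sym2 V → ℝ} {e : Sym2 V}

theorem energy_nonneg (hw : ∀ g ∈ S, 0 ≤ w g) (f : V → ℝ) : 0 ≤ energy S w f :=
  Finset.sum_nonneg fun g hg => mul_nonneg (hw g hg) (sqd_nonneg f g)

theorem energy_mono (hS : S ⊆ S') (hw : ∀ g ∈ S', 0 ≤ w g) (f : V → ℝ) :
    energy S w f ≤ energy S' w f :=
  Finset.sum_le_sum_of_subset_of_nonneg hS fun g hg _ => mul_nonneg (hw g hg) (sqd_nonneg f g)

theorem cnd_bdd (hw : ∀ g ∈ S, 0 ≤ w g) :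
    BddBelow (Set.range fun f : {f : V → ℝ // sqd f e = 1} => energy S w f.1) :=
  ⟨0, by rintro _ ⟨f, rfl⟩; exact energy_nonneg hw f.1⟩

theorem cnd_le (hw : ∀ g ∈ S, 0 ≤ w g) {f : V → ℝ} (hf : sqd f e = 1) :
    cnd S w e ≤ energy S w f :=
  ciInf_le (cnd_bdd hw) (⟨f, hf⟩ : {f : V → ℝ // sqd f e = 1})

theorem feas_nonempty (he : ¬ e.IsDiag) : Nonempty {f : V → ℝ // sqd f e = 1} := by
  classical
  induction e with
  | _ x y =>
    have hxy : x ≠ y := by simpa using he
    refine ⟨⟨fun z => if z = x then 1 else 0, ?_⟩⟩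
    rw [sqd_mk]
    simp [hxy.symm]

theorem le_cnd (he : ¬ e.IsDiag) {c : ℝ} (h : ∀ f : V → ℝ, sqd f e = 1 → c ≤ energy S w f) :
    c ≤ cnd S w e := by
  have := feas_nonempty he
  exact le_ciInf fun f => h f.1 f.2

theorem w_le_cnd (he : ¬ e.IsDiag) (heS : e ∈ S) (hw : ∀ g ∈ S, 0 ≤ w g) : w e ≤ cnd S w e := by
  apply le_cnd he
  intro f hf
  calc w e = w e * sqd f e := by rw [hf, mul_one]
    _ ≤ energy S w f :=
      Finset.single_le_sum (f := fun g => w g * sqd f g)
        (fun g hg => mul_nonneg (hw g hg) (sqd_nonneg f g)) heS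

theorem cnd_mono (he : ¬ e.IsDiag) (hS : S ⊆ S') (hw : ∀ g ∈ S', 0 ≤ w g) :
    cnd S w e ≤ cnd S' w e := by
  apply le_cnd he
  intro f hf
  exact (cnd_le (fun g hg => hw g (hS hg)) hf).trans (energy_mono hS hw f)

theorem cnd_le_mul (he : ¬ e.IsDiag) {c : ℝ} (hc : 0 < c) (hw' : ∀ g ∈ S, 0 ≤ w' g)
    (h : ∀ g ∈ S, w' g ≤ c * w g) : cnd S w' e ≤ c * cnd S w e := by
  rw [← div_le_iff₀' hc]
  apply le_cnd he
  intro f hf
  rw [div_le_iff₀' hc]
  refine (cnd_le hw' hf).trans ?_
  rw [energy, energy, Finset.mul_sum]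
  apply Finset.sum_le_sum
  intro g hg
  rw [← mul_assoc]
  exact mul_le_mul_of_nonneg_right (h g hg) (sqd_nonneg f g)

end Basic

section Drift

variable {V : Type*} {S S' : Finset (Sym2 V)} {h h' : Sym2 V → ℝ} {e : Sym2 V}

theorem mS_of_mem (heS : e ∈ S) :
    mS S h e = Real.exp (h e) / cnd S (fun g => Real.exp (h g)) e := by
  rw [mS, if_pos heS]

theorem mS_of_notMem (heS : e ∉ S) : mS S h e = 0 := by
  rw [mS, if_neg heS]

theorem cnd_diag (he : e.IsDiag) (w : Sym2 V → ℝ) : cnd S w e = 0 := by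
  have : IsEmpty {f : V → ℝ // sqd f e = 1} := by
    constructor
    rintro ⟨f, hf⟩
    induction e with
    | _ x y =>
      have hxy : x = y := by simpa using he
      rw [sqd_mk, hxy] at hf
      norm_num at hf
  rw [cnd, Real.iInf_of_isEmpty]

theorem exp_cnd_pos (he : ¬ e.IsDiag) (heS : e ∈ S) :
    0 < cnd S (fun g => Real.exp (h g)) e :=
  (Real.exp_pos _).trans_le (w_le_cnd (w := fun g => Real.exp (h g)) he heS
    fun g _ => (Real.exp_pos _).le)

theorem mS_nonneg (S : Finset (Sym2 V)) (h : Sym2 V → ℝ) (e : Sym2 V) : 0 ≤ mS S h e := by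
  by_cases heS : e ∈ S
  · rw [mS_of_mem heS]
    by_cases he : e.IsDiag
    · rw [cnd_diag he, div_zero]
    · exact (div_pos (Real.exp_pos _) (exp_cnd_pos he heS)).le
  · rw [mS_of_notMem heS]

theorem mS_le_one (S : Finset (Sym2 V)) (h : Sym2 V → ℝ) (e : Sym2 V) : mS S h e ≤ 1 := by
  by_cases heS : e ∈ S
  · rw [mS_of_mem heS]
    by_cases he : e.IsDiag
    · rw [cnd_diag he, div_zero]; exact zero_le_one
    · rw [div_le_one (exp_cnd_pos he heS)]
      exact w_le_cnd (w := fun g => Real.exp (h g)) he heS fun g _ => (Real.exp_pos _).le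
  · rw [mS_of_notMem heS]; exact zero_le_one

theorem mS_pos (he : ¬ e.IsDiag) (heS : e ∈ S) : 0 < mS S h e := by
  rw [mS_of_mem heS]
  exact div_pos (Real.exp_pos _) (exp_cnd_pos he heS)

/-- antitone in the volume (Rayleigh) -/
theorem mS_anti (heS : e ∈ S) (hS : S ⊆ S') : mS S' h e ≤ mS S h e := by
  rw [mS_of_mem heS, mS_of_mem (hS heS)]
  by_cases he : e.IsDiag
  · rw [cnd_diag he, cnd_diag he]
  · exact div_le_div_of_nonneg_left (Real.exp_pos _).le (exp_cnd_pos he heS)
      (cnd_mono he hS fun g _ => (Real.exp_pos _).le)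

theorem mS_le_exp_mul {d : ℝ} (hd : ∀ g ∈ S, |h g - h' g| ≤ d) :
    mS S h e ≤ Real.exp (2 * d) * mS S h' e := by
  by_cases heS : e ∈ S
  swap
  · rw [mS_of_notMem heS, mS_of_notMem heS, mul_zero]
  rw [mS_of_mem heS, mS_of_mem heS]
  by_cases he : e.IsDiag
  · rw [cnd_diag he, cnd_diag he, div_zero, div_zero, mul_zero]
  have h1 : Real.exp (h e) ≤ Real.exp d * Real.exp (h' e) := by
    rw [← Real.exp_add, Real.exp_le_exp]
    have := abs_le.mp (hd e heS)
    linarith [this.2]
  have h2 : cnd S (fun g => Real.exp (h' g)) e ≤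
      Real.exp d * cnd S (fun g => Real.exp (h g)) e := by
    apply cnd_le_mul he (Real.exp_pos _) fun g _ => (Real.exp_pos _).le
    intro g hg
    rw [← Real.exp_add, Real.exp_le_exp]
    have := abs_le.mp (hd g hg)
    linarith [this.1]
  have hc := exp_cnd_pos (h := h) he heS
  have hc' := exp_cnd_pos (h := h') he heS
  rw [mul_div_assoc', div_le_div_iff₀ hc hc']
  calc Real.exp (h e) * cnd S (fun g => Real.exp (h' g)) e
      ≤ (Real.exp d * Real.exp (h' e)) * (Real.exp d * cnd S (fun g => Real.exp (h g)) e) := by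
        apply mul_le_mul h1 h2 hc'.le; positivity
    _ = Real.exp (2 * d) * Real.exp (h' e) * cnd S (fun g => Real.exp (h g)) e := by
        rw [two_mul, Real.exp_add]; ring

theorem sub_le_of_exp {x y d : ℝ} (hx : x ≤ 1) (hy : 0 ≤ y) (hd : 0 ≤ d)
    (hxy : x ≤ Real.exp (2 * d) * y) : x - y ≤ 2 * d := by
  by_cases hx0 : x ≤ 0
  · linarith
  push Not at hx0
  have h1 : Real.exp (-(2 * d)) * x ≤ y := by
    calc Real.exp (-(2 * d)) * x ≤ Real.exp (-(2 * d)) * (Real.exp (2 * d) * y) := by
          exact mul_le_mul_of_nonneg_left hxy (Real.exp_pos _).le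
      _ = y := by rw [← mul_assoc, ← Real.exp_add]; simp
  have h2 : 1 - 2 * d ≤ Real.exp (-(2 * d)) := by
    have := Real.add_one_le_exp (-(2 * d)); linarith
  have h3 : (1 - 2 * d) * x ≤ y := (mul_le_mul_of_nonneg_right h2 hx0.le).trans h1
  nlinarith

theorem mS_lip {d : ℝ} (hd0 : 0 ≤ d) (hd : ∀ g ∈ S, |h g - h' g| ≤ d) :
    |mS S h e - mS S h' e| ≤ 2 * d := by
  rw [abs_le]
  constructor
  · have := sub_le_of_exp (mS_le_one S h' e) (mS_nonneg S h e) hd0
      (mS_le_exp_mul (e := e) (h := h') (h' := h) fun g hg => by rw [abs_sub_comm]; exact hd g hg)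
    linarith
  · exact sub_le_of_exp (mS_le_one S h e) (mS_nonneg S h' e) hd0 (mS_le_exp_mul hd)

theorem mS_congr (hh : ∀ g ∈ S, h g = h' g) : mS S h e = mS S h' e := by
  have := mS_lip (e := e) (le_refl (0 : ℝ)) (fun g hg => by rw [hh g hg]; simp : ∀ g ∈ S, |h g - h' g| ≤ 0)
  rw [mul_zero] at this
  have := abs_nonpos_iff.mp this
  linarith

/-- continuity in the product topology -/
theorem continuous_mS (S : Finset (Sym2 V)) (e : Sym2 V) : Continuous fun h => mS S h e := by
  rw [continuous_iff_continuousAt]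
  intro h
  rw [ContinuousAt, Metric.tendsto_nhds]
  intro ε hε
  have h1 : ∀ᶠ h' : Sym2 V → ℝ in 𝓝 h, ∀ g ∈ S, |h' g - h g| ≤ ε / 3 := by
    rw [Filter.eventually_all_finset]
    intro g _
    have h2 : Tendsto (fun h' : Sym2 V → ℝ => h' g) (𝓝 h) (𝓝 (h g)) :=
      (continuous_apply g).continuousAt
    have h3 := (Metric.tendsto_nhds.mp h2) (ε / 3) (by positivity)
    filter_upwards [h3] with h' h4
    rw [Real.dist_eq] at h4
    exact h4.le
  filter_upwards [h1] with h' h2
  rw [Real.dist_eq]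
  have := mS_lip (e := e) (by positivity) h2
  linarith

theorem measurable_mS [Countable V] (S : Finset (Sym2 V)) (e : Sym2 V) :
    Measurable fun h => mS S h e := by
  have : Countable (Sym2 V) := by
    unfold Sym2; infer_instance
  exact (continuous_mS S e).measurable

end Drift

section Infinite

variable {V : Type*} {G : SimpleGraph V} {h h' : Sym2 V → ℝ} {e : Sym2 V}

theorem mG_of_notMem (he : e ∉ G.edgeSet) : mG G h e = 0 := by
  rw [mG, if_neg he]

theorem mG_of_mem (he : e ∈ G.edgeSet) :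
    mG G h e = ⨅ S : {S : Finset (Sym2 V) // (S : Set (Sym2 V)) ⊆ G.edgeSet ∧ e ∈ S}, mS S.1 h e := by
  rw [mG, if_pos he]

theorem mG_bdd : BddBelow (Set.range
    fun S : {S : Finset (Sym2 V) // (S : Set (Sym2 V)) ⊆ G.edgeSet ∧ e ∈ S} => mS S.1 h e) :=
  ⟨0, by rintro _ ⟨S, rfl⟩; exact mS_nonneg _ _ _⟩

theorem mG_ne (he : e ∈ G.edgeSet) :
    Nonempty {S : Finset (Sym2 V) // (S : Set (Sym2 V)) ⊆ G.edgeSet ∧ e ∈ S} :=
  ⟨⟨{e}, by simpa using he, by simp⟩⟩

theorem mG_nonneg (G : SimpleGraph V) (h : Sym2 V → ℝ) (e : Sym2 V) : 0 ≤ mG G h e := by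
  by_cases he : e ∈ G.edgeSet
  · rw [mG_of_mem he]
    exact Real.iInf_nonneg fun S => mS_nonneg _ _ _
  · rw [mG_of_notMem he]

theorem mG_le_mS {S : Finset (Sym2 V)} (hS : (S : Set (Sym2 V)) ⊆ G.edgeSet) (heS : e ∈ S) :
    mG G h e ≤ mS S h e := by
  rw [mG_of_mem (hS heS)]
  exact ciInf_le mG_bdd (⟨S, hS, heS⟩ : {S : Finset (Sym2 V) // (S : Set (Sym2 V)) ⊆ G.edgeSet ∧ e ∈ S})

theorem mG_le_one (G : SimpleGraph V) (h : Sym2 V → ℝ) (e : Sym2 V) : mG G h e ≤ 1 := by
  by_cases he : e ∈ G.edgeSet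
  · exact (mG_le_mS (S := {e}) (by simpa using he) (by simp)).trans (mS_le_one _ _ _)
  · rw [mG_of_notMem he]; exact zero_le_one

theorem le_mG (he : e ∈ G.edgeSet) {c : ℝ}
    (hc : ∀ S : Finset (Sym2 V), (S : Set (Sym2 V)) ⊆ G.edgeSet → e ∈ S → c ≤ mS S h e) :
    c ≤ mG G h e := by
  have := mG_ne he
  rw [mG_of_mem he]
  exact le_ciInf fun S => hc S.1 S.2.1 S.2.2

theorem mG_lip {d : ℝ} (hd0 : 0 ≤ d) (hd : ∀ g ∈ G.edgeSet, |h g - h' g| ≤ d) :
    |mG G h e - mG G h' e| ≤ 2 * d := by
  by_cases he : e ∈ G.edgeSet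
  · have key : ∀ k k' : Sym2 V → ℝ, (∀ g ∈ G.edgeSet, |k g - k' g| ≤ d) →
        mG G k e - 2 * d ≤ mG G k' e := by
      intro k k' hk
      apply le_mG he
      intro S hS heS
      have h1 := mG_le_mS (h := k) hS heS
      have h2 := mS_lip (e := e) hd0 fun g (hg : g ∈ S) => hk g (hS hg)
      have := (abs_le.mp h2).2
      linarith
    rw [abs_le]
    constructor
    · have := key h' h fun g hg => by rw [abs_sub_comm]; exact hd g hg
      linarith
    · have := key h h' hd
      linarith
  · rw [mG_of_notMem he, mG_of_notMem he, sub_self, abs_zero]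
    positivity

theorem mG_congr (hh : ∀ g ∈ G.edgeSet, h g = h' g) : mG G h e = mG G h' e := by
  have h1 := mG_lip (G := G) (e := e) (le_refl (0 : ℝ))
    (fun g hg => by rw [hh g hg]; simp : ∀ g ∈ G.edgeSet, |h g - h' g| ≤ 0)
  rw [mul_zero] at h1
  have := abs_nonpos_iff.mp h1
  linarith

theorem measurable_mG [Countable V] (G : SimpleGraph V) (e : Sym2 V) :
    Measurable fun h => mG G h e := by
  have : Countable (Sym2 V) := by
    unfold Sym2; infer_instance
  by_cases he : e ∈ G.edgeSet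
  · simp only [mG_of_mem he]
    exact Measurable.iInf fun S => measurable_mS S.1 e
  · simp only [mG_of_notMem he]
    exact measurable_const

/-- joint measurability with the graph as a parameter -/
theorem measurable_mG_param [Countable V] {Ω : Type*} [MeasurableSpace Ω] (G : Ω → SimpleGraph V)
    (hG : ∀ g : Sym2 V, MeasurableSet {ω | g ∈ (G ω).edgeSet}) (h : Ω → Sym2 V → ℝ)
    (hh : ∀ g, Measurable fun ω => h ω g) (e : Sym2 V) :
    Measurable fun ω => mG (G ω) (h ω) e := by
  classical
  have : Countable (Sym2 V) := by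
    unfold Sym2; infer_instance
  have h0 : ∀ S : Finset (Sym2 V), MeasurableSet {ω | (S : Set (Sym2 V)) ⊆ (G ω).edgeSet ∧ e ∈ S} := by
    intro S
    have : {ω | (S : Set (Sym2 V)) ⊆ (G ω).edgeSet ∧ e ∈ S} =
        {ω | ∀ g ∈ S, g ∈ (G ω).edgeSet} ∩ {_ω | e ∈ S} := by
      ext ω
      simp only [Set.mem_setOf_eq, Set.mem_inter_iff]
      constructor
      · rintro ⟨h1, h2⟩
        exact ⟨fun g hg => h1 (by simpa using hg), h2⟩
      · rintro ⟨h1, h2⟩
        exact ⟨fun g hg => h1 g (by simpa using hg), h2⟩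
    rw [this]
    apply MeasurableSet.inter
    · have : {ω | ∀ g ∈ S, g ∈ (G ω).edgeSet} = ⋂ g ∈ S, {ω | g ∈ (G ω).edgeSet} := by
        ext ω; simp
      rw [this]
      exact Finset.measurableSet_biInter S fun g _ => hG g
    · exact MeasurableSet.const _
  have h1 : ∀ S : Finset (Sym2 V), Measurable fun ω =>
      if (S : Set (Sym2 V)) ⊆ (G ω).edgeSet ∧ e ∈ S then mS S (h ω) e else 1 := by
    intro S
    refine Measurable.ite (h0 S) ?_ measurable_const
    exact (measurable_mS S e).comp (measurable_pi_lambda _ hh)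
  have h2 : (fun ω => mG (G ω) (h ω) e) = fun ω =>
      if e ∈ (G ω).edgeSet then ⨅ S : Finset (Sym2 V),
        (if (S : Set (Sym2 V)) ⊆ (G ω).edgeSet ∧ e ∈ S then mS S (h ω) e else 1) else 0 := by
    funext ω
    split_ifs with he
    · apply le_antisymm
      · apply le_ciInf
        intro S
        split_ifs with hS
        · exact mG_le_mS hS.1 hS.2
        · exact mG_le_one _ _ _
      · apply le_mG he
        intro S hS heS
        refine (ciInf_le ?_ S).trans ?_
        · refine ⟨0, ?_⟩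
          rintro _ ⟨T, rfl⟩
          dsimp only
          split_ifs
          · exact mS_nonneg _ _ _
          · exact zero_le_one
        · rw [if_pos ⟨hS, heS⟩]
    · exact mG_of_notMem he
  rw [h2]
  refine Measurable.ite (hG e) ?_ measurable_const
  exact Measurable.iInf h1

/-- **convergence** of the finite volume drifts -/
theorem tendsto_mS (S : ℕ → Finset (Sym2 V)) (hSG : ∀ n, (S n : Set (Sym2 V)) ⊆ G.edgeSet)
    (hex : ∀ F : Finset (Sym2 V), (F : Set (Sym2 V)) ⊆ G.edgeSet → ∀ᶠ n in atTop, F ⊆ S n)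
    (hn : ℕ → Sym2 V → ℝ) (b : ℝ) (hb : ∀ n, ∀ g ∈ G.edgeSet, |hn n g - h g| ≤ b)
    (hlim : ∀ g ∈ G.edgeSet, Tendsto (fun n => hn n g) atTop (𝓝 (h g))) (e : Sym2 V) :
    Tendsto (fun n => mS (S n) (hn n) e) atTop (𝓝 (mG G h e)) := by
  classical
  by_cases he : e ∈ G.edgeSet
  swap
  · have : ∀ n, mS (S n) (hn n) e = 0 := fun n => mS_of_notMem fun h1 => he (hSG n h1)
    simp only [this, mG_of_notMem he]
    exact tendsto_const_nhds
  have hdiag : ¬ e.IsDiag := G.not_isDiag_of_mem_edgeSet he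
  have hb0 : 0 ≤ b := (abs_nonneg _).trans (hb 0 e he)
  -- uniform closeness on finite sets
  have hunif : ∀ F : Finset (Sym2 V), (F : Set (Sym2 V)) ⊆ G.edgeSet → ∀ δ > 0,
      ∀ᶠ n in atTop, ∀ g ∈ F, |hn n g - h g| ≤ δ := by
    intro F hF δ hδ
    rw [Filter.eventually_all_finset]
    intro g hg
    have h3 := (Metric.tendsto_nhds.mp (hlim g (hF hg))) δ hδ
    filter_upwards [h3] with n h4
    rw [Real.dist_eq] at h4
    exact h4.le
  rw [tendsto_order]
  constructor
  swap
  · -- upper bound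
    intro c hc
    obtain ⟨H, hHG, heH, hHc⟩ : ∃ H : Finset (Sym2 V), (H : Set (Sym2 V)) ⊆ G.edgeSet ∧ e ∈ H ∧
        mS H h e < c := by
      by_contra hcon
      push Not at hcon
      exact absurd (le_mG he fun S hS heS => hcon S hS heS) (not_le.mpr hc)
    set δ := (c - mS H h e) / 3 with hδ
    have hδ0 : 0 < δ := by rw [hδ]; linarith
    filter_upwards [hex H hHG, hunif H hHG δ hδ0] with n h1 h2
    have h3 : mS (S n) (hn n) e ≤ mS H (hn n) e := mS_anti heH h1
    have h4 := (abs_le.mp (mS_lip (e := e) hδ0.le h2)).2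
    linarith
  · -- lower bound
    intro c hc
    by_cases hc0 : c < 0
    · exact Filter.Eventually.of_forall fun n => hc0.trans_le (mS_nonneg _ _ _)
    push Not at hc0
    have hm : 0 < mG G h e := hc0.trans_lt hc
    set w : Sym2 V → ℝ := fun g => Real.exp (h g) with hw
    have hwpos : ∀ g, 0 < w g := fun g => Real.exp_pos _
    set C : ℝ := w e / mG G h e with hC
    have hCpos : 0 < C := div_pos (hwpos e) hm
    -- all finite conductances are at most C
    have hCS : ∀ T : Finset (Sym2 V), (T : Set (Sym2 V)) ⊆ G.edgeSet → e ∈ T → cnd T w e ≤ C := by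
      intro T hT heT
      have h1 := mG_le_mS (h := h) hT heT
      rw [mS_of_mem heT] at h1
      rw [hC, le_div_iff₀ hm]
      have h2 : 0 < cnd T w e := exp_cnd_pos hdiag heT
      rw [le_div_iff₀ h2] at h1
      linarith
    -- the comparison inequality
    set K : ℝ := Real.exp b + 1 with hK
    have hK2 : 2 ≤ K := by rw [hK]; linarith [Real.one_le_exp hb0]
    have hcomp : ∀ (H : Finset (Sym2 V)) (ε : ℝ), (H : Set (Sym2 V)) ⊆ G.edgeSet → e ∈ H →
        0 < ε → ε ≤ 1 → ∀ n, H ⊆ S n → (∀ g ∈ H, Real.exp (hn n g) ≤ (1 + ε) * w g) →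
        cnd (S n) (fun g => Real.exp (hn n g)) e + (K - 1 - ε) * cnd H w e ≤
          K * cnd (S n) w e := by
      intro H ε hHG heH hε hε1 n hHn hclose
      rw [← div_le_iff₀' (by linarith : (0 : ℝ) < K)]
      apply le_cnd hdiag
      intro f hf
      rw [div_le_iff₀' (by linarith : (0 : ℝ) < K)]
      have h1 : cnd (S n) (fun g => Real.exp (hn n g)) e ≤ energy (S n) (fun g => Real.exp (hn n g)) f :=
        cnd_le (fun g _ => (Real.exp_pos _).le) hf
      have h2 : cnd H w e ≤ energy H w f := cnd_le (fun g _ => (hwpos g).le) hf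
      have h3 : energy (S n) (fun g => Real.exp (hn n g)) f ≤
          K * energy (S n) w f - (K - 1 - ε) * energy H w f := by
        have e1 : energy (S n) (fun g => Real.exp (hn n g)) f =
            energy (S n \ H) (fun g => Real.exp (hn n g)) f + energy H (fun g => Real.exp (hn n g)) f := by
          rw [energy, energy, energy, Finset.sum_sdiff hHn]
        have e2 : energy (S n) w f = energy (S n \ H) w f + energy H w f := by
          rw [energy, energy, energy, Finset.sum_sdiff hHn]
        have e3 : energy H (fun g => Real.exp (hn n g)) f ≤ (1 + ε) * energy H w f := by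
          rw [energy, energy, Finset.mul_sum]
          apply Finset.sum_le_sum
          intro g hg
          rw [← mul_assoc]
          exact mul_le_mul_of_nonneg_right (hclose g hg) (sqd_nonneg f g)
        have e4 : energy (S n \ H) (fun g => Real.exp (hn n g)) f ≤ K * energy (S n \ H) w f := by
          rw [energy, energy, Finset.mul_sum]
          apply Finset.sum_le_sum
          intro g hg
          rw [← mul_assoc]
          refine mul_le_mul_of_nonneg_right ?_ (sqd_nonneg f g)
          have hgG : g ∈ G.edgeSet := hSG n (Finset.mem_sdiff.mp hg).1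
          have h5 := (abs_le.mp (hb n g hgG)).2
          calc Real.exp (hn n g) ≤ Real.exp (b + h g) := by
                rw [Real.exp_le_exp]; linarith
            _ = Real.exp b * w g := by rw [Real.exp_add]
            _ ≤ K * w g := by
                apply mul_le_mul_of_nonneg_right _ (hwpos g).le
                rw [hK]; linarith
        rw [e1, e2]
        linarith
      have h4 : (K - 1 - ε) * cnd H w e ≤ (K - 1 - ε) * energy H w f :=
        mul_le_mul_of_nonneg_left h2 (by linarith)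
      linarith
    -- choose the parameters
    -- we need `w e * exp (-δ) / (C + η) > c`
    have hlimw : Tendsto (fun t : ℝ => w e * Real.exp (-t) / (C + t * C + (K - 1) * t)) (𝓝[>] 0)
        (𝓝 (w e * Real.exp (-0) / (C + 0 * C + (K - 1) * 0))) := by
      apply tendsto_nhdsWithin_of_tendsto_nhds
      apply ContinuousAt.tendsto
      apply ContinuousAt.div
      · fun_prop
      · fun_prop
      · simp only [zero_mul, add_zero, mul_zero]
        exact hCpos.ne'
    have hval : w e * Real.exp (-0) / (C + 0 * C + (K - 1) * 0) = mG G h e := by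
      have hwe := (hwpos e).ne'
      rw [hC]
      simp only [neg_zero, Real.exp_zero, mul_one, zero_mul, add_zero, mul_zero]
      rw [div_div_eq_mul_div, mul_div_assoc, mul_comm, div_mul_cancel₀ _ hwe]
    rw [hval] at hlimw
    have hev := (tendsto_order.mp hlimw).1 c hc
    have hev2 : ∀ᶠ t : ℝ in 𝓝[>] 0, t < 1 := by
      apply eventually_nhdsWithin_of_eventually_nhds
      exact gt_mem_nhds zero_lt_one
    obtain ⟨t, ⟨ht1, ht2⟩, ht0⟩ := ((hev.and hev2).and self_mem_nhdsWithin).exists
    replace ht0 : 0 < t := ht0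
    -- choose H with cnd H w e ≥ C - t
    obtain ⟨H, hHG, heH, hHC⟩ : ∃ H : Finset (Sym2 V), (H : Set (Sym2 V)) ⊆ G.edgeSet ∧ e ∈ H ∧
        C - t < cnd H w e := by
      by_contra hcon
      push Not at hcon
      have hCt : 0 < C - t := by
        have h1 := hcon {e} (by simpa using he) (by simp)
        exact (exp_cnd_pos (h := h) hdiag (by simp : e ∈ ({e} : Finset (Sym2 V)))).trans_le h1
      have h2 : w e / (C - t) ≤ mG G h e := by
        apply le_mG he
        intro T hT heT
        rw [mS_of_mem heT]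
        exact div_le_div_of_nonneg_left (hwpos e).le (exp_cnd_pos hdiag heT) (hcon T hT heT)
      have h3 : mG G h e = w e / C := by
        have hwe := (hwpos e).ne'
        rw [hC, div_div_eq_mul_div, mul_comm, mul_div_assoc, div_self hwe, mul_one]
      rw [h3, div_le_div_iff_of_pos_left (hwpos e) hCt hCpos] at h2
      linarith
    -- closeness on H
    have hlog : 0 < Real.log (1 + t) := Real.log_pos (by linarith)
    have hmin : 0 < min t (Real.log (1 + t)) := lt_min ht0 hlog
    filter_upwards [hex H hHG, hunif H hHG _ hmin] with n h1 h2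
    have h3 : ∀ g ∈ H, Real.exp (hn n g) ≤ (1 + t) * w g := by
      intro g hg
      have h4 := (abs_le.mp (h2 g hg)).2
      have h5 : hn n g ≤ Real.log (1 + t) + h g := by
        have := min_le_right t (Real.log (1 + t))
        linarith
      calc Real.exp (hn n g) ≤ Real.exp (Real.log (1 + t) + h g) := Real.exp_le_exp.mpr h5
        _ = (1 + t) * w g := by
          rw [Real.exp_add, Real.exp_log (by linarith)]
    have h4 := hcomp H t hHG heH ht0 ht2.le n h1 h3
    have h5 := hCS (S n) (hSG n) (h1 heH)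
    have h6 : cnd (S n) (fun g => Real.exp (hn n g)) e ≤ C + t * C + (K - 1) * t := by
      have h7 : K * cnd (S n) w e ≤ K * C := mul_le_mul_of_nonneg_left h5 (by linarith)
      have h8 : (K - 1 - t) * (C - t) ≤ (K - 1 - t) * cnd H w e :=
        mul_le_mul_of_nonneg_left hHC.le (by linarith)
      nlinarith
    have h7 : w e * Real.exp (-t) ≤ Real.exp (hn n e) := by
      have h8 := (abs_le.mp (h2 e heH)).1
      have h9 := min_le_left t (Real.log (1 + t))
      rw [hw]
      simp only
      rw [← Real.exp_add, Real.exp_le_exp]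
      linarith
    rw [mS_of_mem (h1 heH)]
    refine ht1.trans_le ?_
    exact div_le_div₀ (Real.exp_pos _).le h7 (exp_cnd_pos hdiag (h1 heH)) h6

end Infinite

end P143
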