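import Mathlib
import Vale.Agent.P143.Resist

/-!
# P143: Kirchhoff's formula for the finite volume drift
-/

namespace P143

open Finset Filter Topology

section

variable {W : Type*} [Fintype W]

theorem pair_sum (K : SimpleGraph W) (KE : Finset (Sym2 W)) (hKE : ∀ g, g ∈ KE ↔ g ∈ K.edgeSet)
    (F : Sym2 W → ℝ) :
    (open scoped Classical in
      ∑ p : W × W, if K.Adj p.1 p.2 then F s(p.1, p.2) else 0) = 2 * ∑ e ∈ KE, F e := by
  classical
  rw [← Finset.sum_filter]
  have hmaps : ∀ p ∈ (Finset.univ.filter fun p : W × W => K.Adj p.1 p.2), s(p.1, p.2) ∈ KE := by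
    intro p hp
    rw [hKE]
    exact (Finset.mem_filter.mp hp).2
  rw [← Finset.sum_fiberwise_of_maps_to hmaps, Finset.mul_sum]
  apply Finset.sum_congr rfl
  intro e he
  induction e with
  | _ x y =>
    have hxy : K.Adj x y := (hKE _).mp he
    have h1 : ((Finset.univ.filter fun p : W × W => K.Adj p.1 p.2).filter
        fun p => s(p.1, p.2) = s(x, y)) = {(x, y), (y, x)} := by
      ext ⟨u, v⟩
      simp only [Finset.mem_filter, Finset.mem_univ, true_and, Finset.mem_insert,
        Finset.mem_singleton, Prod.mk.injEq, Sym2.eq_iff]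
      constructor
      · rintro ⟨_, h⟩; exact h
      · rintro (⟨rfl, rfl⟩ | ⟨rfl, rfl⟩)
        · exact ⟨hxy, Or.inl ⟨rfl, rfl⟩⟩
        · exact ⟨hxy.symm, Or.inr ⟨rfl, rfl⟩⟩
    rw [h1, Finset.sum_pair]
    · rw [Sym2.eq_swap (a := y) (b := x)]; ring
    · intro h
      rw [Prod.mk.injEq] at h
      exact hxy.ne h.1

theorem mS_kirchhoff {V : Type*} (K : SimpleGraph W) (hK : K.Connected) (i : W → V)
    (hi : Function.Injective i) (S : Finset (Sym2 V))
    (hS : ∀ g, g ∈ S ↔ ∃ g' ∈ K.edgeSet, Sym2.map i g' = g) (h : Sym2 V → ℝ) (a b : W)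
    (hab : K.Adj a b) :
    mS S h s(i a, i b) =
      (open scoped Classical in
        (∑ T ∈ spTrees K, if s(a, b) ∈ T then
          wt (fun e' => Real.exp (h (Sym2.map i e'))) T else 0) /
          ∑ T ∈ spTrees K, wt (fun e' => Real.exp (h (Sym2.map i e'))) T) := by
  classical
  set w' : Sym2 W → ℝ := fun e' => Real.exp (h (Sym2.map i e')) with hw'
  have hw'pos : ∀ e, 0 < w' e := fun e => Real.exp_pos _
  obtain ⟨φ, hφ1, hφ2⟩ := kirchhoff K hK w' hw'pos a b hab
  have hmapinj : Function.Injective (Sym2.map i) := Sym2.map.injective hi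
  have hSeq : S = K.edgeFinset.map ⟨Sym2.map i, hmapinj⟩ := by
    ext g
    rw [hS, Finset.mem_map]
    simp only [SimpleGraph.mem_edgeFinset, Function.Embedding.coeFn_mk]
  have heS : s(i a, i b) ∈ S := by
    rw [hS]; exact ⟨s(a, b), hab, rfl⟩
  have hdiag : ¬ (s(i a, i b)).IsDiag := by
    rw [Sym2.mk_isDiag_iff]
    exact fun h' => hab.ne (hi h')
  -- energies
  have hen : ∀ f : V → ℝ, energy S (fun g => Real.exp (h g)) f =
      ∑ e ∈ K.edgeFinset, w' e * sqd (fun x => f (i x)) e := by
    intro f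
    rw [energy, hSeq, Finset.sum_map]
    apply Finset.sum_congr rfl
    intro e _
    induction e with
    | _ x y => rfl
  set E2 : (W → ℝ) → ℝ := fun g => ∑ e ∈ K.edgeFinset, w' e * sqd g e with hE2
  have hbil : ∀ g : W → ℝ, (∑ p : W × W, if K.Adj p.1 p.2 then
      w' s(p.1, p.2) * ((g p.2 - g p.1) * (g p.2 - g p.1)) else 0) = 2 * E2 g := by
    intro g
    rw [hE2, ← pair_sum K K.edgeFinset (fun e => SimpleGraph.mem_edgeFinset)
      (fun e => w' e * sqd g e)]
    apply Finset.sum_congr rfl
    rintro ⟨x, y⟩ _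
    simp only [sqd_mk]
    split_ifs
    · ring
    · rfl
  set D : ℝ := φ b - φ a with hD
  -- the quadratic inequality
  have hquad : ∀ (g : W → ℝ) (t : ℝ), 0 ≤ E2 g - 2 * t * (g b - g a) + t ^ 2 * D := by
    intro g t
    have h1 : 0 ≤ ∑ p : W × W, (if K.Adj p.1 p.2 then
        w' s(p.1, p.2) * ((g p.2 - g p.1) - t * (φ p.2 - φ p.1)) ^ 2 else 0) := by
      apply Finset.sum_nonneg
      intro p _
      split_ifs
      · exact mul_nonneg (hw'pos _).le (sq_nonneg _)
      · exact le_refl _
    have h2 : (∑ p : W × W, (if K.Adj p.1 p.2 then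
        w' s(p.1, p.2) * ((g p.2 - g p.1) - t * (φ p.2 - φ p.1)) ^ 2 else 0)) =
        (∑ p : W × W, if K.Adj p.1 p.2 then
          w' s(p.1, p.2) * ((g p.2 - g p.1) * (g p.2 - g p.1)) else 0) -
        2 * t * (∑ p : W × W, if K.Adj p.1 p.2 then
          w' s(p.1, p.2) * ((φ p.2 - φ p.1) * (g p.2 - g p.1)) else 0) +
        t ^ 2 * (∑ p : W × W, if K.Adj p.1 p.2 then
          w' s(p.1, p.2) * ((φ p.2 - φ p.1) * (φ p.2 - φ p.1)) else 0) := by
      rw [Finset.mul_sum, Finset.mul_sum, ← Finset.sum_sub_distrib, ← Finset.sum_add_distrib]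
      apply Finset.sum_congr rfl
      intro p _
      split_ifs
      · ring
      · ring
    rw [h2, hbil g, hφ1 g, hφ1 φ] at h1
    linarith
  have hDE : E2 φ = D := by
    have h1 := hbil φ
    rw [hφ1 φ] at h1
    linarith
  have hDpos : 0 < D := by
    have h0 : 0 ≤ D := by
      rw [← hDE, hE2]
      exact Finset.sum_nonneg fun e _ => mul_nonneg (hw'pos e).le (sqd_nonneg _ e)
    rcases h0.lt_or_eq with h1 | h1
    · exact h1
    exfalso
    -- D = 0: then the quadratic inequality fails
    set g : W → ℝ := fun x => if x = b then 1 else 0 with hg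
    have hgb : g b - g a = 1 := by
      rw [hg]; simp [hab.ne]
    have h2 := hquad g (E2 g)
    rw [← h1, hgb] at h2
    have h3 : 0 ≤ E2 g := by
      rw [hE2]
      exact Finset.sum_nonneg fun e _ => mul_nonneg (hw'pos e).le (sqd_nonneg _ e)
    have h4 : 0 < E2 g := by
      have h5 : w' s(a, b) * sqd g s(a, b) ≤ E2 g := by
        rw [hE2]
        exact Finset.single_le_sum (f := fun e => w' e * sqd g e)
          (fun e _ => mul_nonneg (hw'pos e).le (sqd_nonneg _ e))
          (SimpleGraph.mem_edgeFinset.mpr hab)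
      have h6 : sqd g s(a, b) = 1 := by
        rw [sqd_mk, hg]; simp [hab.ne]
      rw [h6, mul_one] at h5
      exact (hw'pos _).trans_le h5
    nlinarith
  -- the conductance is 1 / D
  have hcnd : cnd S (fun g => Real.exp (h g)) s(i a, i b) = 1 / D := by
    apply le_antisymm
    · -- the minimiser
      set f : V → ℝ := Function.extend i (fun x => φ x / D) (fun _ => 0) with hf
      have hfi : ∀ x, f (i x) = φ x / D := fun x => hi.extend_apply _ _ x
      have hfeas : sqd f s(i a, i b) = 1 := by
        rw [sqd_mk, hfi, hfi, ← sub_div]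
        have : φ a - φ b = - D := by rw [hD]; ring
        rw [this, neg_div, div_self hDpos.ne']
        norm_num
      refine (cnd_le (fun g _ => (Real.exp_pos _).le) hfeas).trans ?_
      rw [hen]
      have h1 : ∀ e ∈ K.edgeFinset, w' e * sqd (fun x => f (i x)) e = w' e * sqd φ e / D ^ 2 := by
        intro e _
        induction e with
        | _ x y =>
          rw [sqd_mk, sqd_mk, hfi, hfi]
          field_simp
      rw [Finset.sum_congr rfl h1, ← Finset.sum_div]
      have h2 : ∑ e ∈ K.edgeFinset, w' e * sqd φ e = D := hDE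
      rw [h2]
      apply le_of_eq
      field_simp
    · apply le_cnd hdiag
      intro f hf
      rw [hen]
      change 1 / D ≤ E2 (fun x => f (i x))
      set g : W → ℝ := fun x => f (i x) with hg
      have hg1 : (g b - g a) ^ 2 = 1 := by
        rw [sqd_mk] at hf
        rw [hg]
        simp only
        rw [← hf]
        ring
      have h1 := hquad g ((g b - g a) / D)
      have h2 : E2 g - 2 * ((g b - g a) / D) * (g b - g a) + ((g b - g a) / D) ^ 2 * D =
          E2 g - (g b - g a) ^ 2 / D := by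
        field_simp
        ring
      rw [h2, hg1] at h1
      linarith
  rw [mS_of_mem heS, hcnd, ← hφ2]
  rw [hw']
  simp only [Sym2.map_mk]
  rw [div_div_eq_mul_div, div_one]

end

end P143
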