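import Mathlib

/-!
# P143, module C: Picard iteration for `x'(s) = m (s x(s))` with an `ℓ^∞`-Lipschitz drift

Generic in the index type `E` (edges) and in the drift `m`.
-/

namespace P143

open MeasureTheory Filter Topology

variable {E : Type*}

/-- Bounded drift with values in `[0,1]`, `2`-Lipschitz for the sup distance, measurable. -/
structure Drift (m : (E → ℝ) → E → ℝ) : Prop where
  nonneg : ∀ h e, 0 ≤ m h e
  le_one : ∀ h e, m h e ≤ 1
  lip : ∀ (h h' : E → ℝ) (d : ℝ), (∀ g, |h g - h' g| ≤ d) → ∀ e, |m h e - m h' e| ≤ 2 * d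
  meas : ∀ e, Measurable fun h => m h e

/-- Picard iterates of `y(s) = ∫_0^s m (r (ξ + y(r))) dr`. -/
noncomputable def picY (m : (E → ℝ) → E → ℝ) (ξ : E → ℝ) : ℕ → ℝ → E → ℝ
  | 0 => fun _ _ => 0
  | k + 1 => fun s e => ∫ r in (0:ℝ)..s, m (fun g => r * (ξ g + picY m ξ k r g)) e

/-- The solution of `x(s) = ξ + ∫_0^s m (r x(r)) dr` (constant for `s ≤ 0`). -/
noncomputable def picX (m : (E → ℝ) → E → ℝ) (ξ : E → ℝ) (s : ℝ) (e : E) : ℝ :=
  ξ e + limUnder atTop fun k : ℕ => picY m ξ k (max s 0) e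

@[simp] theorem picY_zero (m : (E → ℝ) → E → ℝ) (ξ : E → ℝ) (s : ℝ) (e : E) :
    picY m ξ 0 s e = 0 := rfl

theorem picY_succ (m : (E → ℝ) → E → ℝ) (ξ : E → ℝ) (k : ℕ) (s : ℝ) (e : E) :
    picY m ξ (k + 1) s e =
      ∫ r in (0:ℝ)..s, m (fun g => r * (ξ g + picY m ξ k r g)) e := rfl

/-! ### Locality and equivariance -/

theorem picY_comp {E' : Type*} (φ : E' → E) {m : (E → ℝ) → E → ℝ} {m' : (E' → ℝ) → E' → ℝ}
    (h : ∀ h : E → ℝ, m' (h ∘ φ) = m h ∘ φ) (ξ : E → ℝ) (k : ℕ) (s : ℝ) :
    picY m' (ξ ∘ φ) k s = picY m ξ k s ∘ φ := by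
  induction k generalizing s with
  | zero => rfl
  | succ k ih =>
    funext e
    simp only [Function.comp, picY_succ]
    congr 1
    funext r
    have h1 := congrFun (h (fun g => r * (ξ g + picY m ξ k r g))) e
    have h2 : (fun g => r * ((ξ ∘ φ) g + picY m' (ξ ∘ φ) k r g)) =
        (fun g => r * (ξ g + picY m ξ k r g)) ∘ φ := by
      funext g
      rw [ih r]
      rfl
    calc m' (fun g => r * (ξ (φ g) + picY m' (fun x => ξ (φ x)) k r g)) e
        = m' (fun g => r * ((ξ ∘ φ) g + picY m' (ξ ∘ φ) k r g)) e := rfl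
      _ = _ := by rw [h2, h1]; rfl

theorem picX_comp {E' : Type*} (φ : E' → E) {m : (E → ℝ) → E → ℝ} {m' : (E' → ℝ) → E' → ℝ}
    (h : ∀ h : E → ℝ, m' (h ∘ φ) = m h ∘ φ) (ξ : E → ℝ) (s : ℝ) :
    picX m' (ξ ∘ φ) s = picX m ξ s ∘ φ := by
  funext e
  have h1 : ∀ k, picY m' (ξ ∘ φ) k (max s 0) e = picY m ξ k (max s 0) (φ e) := by
    intro k
    exact congrFun (picY_comp φ h ξ k (max s 0)) e
  have h2 : picX m' (ξ ∘ φ) s e =
      ξ (φ e) + limUnder atTop fun k : ℕ => picY m' (ξ ∘ φ) k (max s 0) e := rfl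
  rw [h2]
  simp only [h1]
  rfl

/-- If `m` only depends on the coordinates in `D`, so does the iteration. -/
theorem picY_congr {m : (E → ℝ) → E → ℝ} (D : Set E)
    (hD : ∀ h h' : E → ℝ, (∀ g ∈ D, h g = h' g) → m h = m h') {ξ ξ' : E → ℝ}
    (hξ : ∀ g ∈ D, ξ g = ξ' g) (k : ℕ) (s : ℝ) : picY m ξ k s = picY m ξ' k s := by
  induction k generalizing s with
  | zero => rfl
  | succ k ih =>
    funext e
    simp only [picY_succ]
    congr 1
    funext r
    rw [hD _ (fun g => r * (ξ' g + picY m ξ' k r g))]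
    intro g hg
    rw [hξ g hg, ih r]

theorem picX_congr {m : (E → ℝ) → E → ℝ} (D : Set E)
    (hD : ∀ h h' : E → ℝ, (∀ g ∈ D, h g = h' g) → m h = m h') {ξ ξ' : E → ℝ}
    (hξ : ∀ g ∈ D, ξ g = ξ' g) (s : ℝ) {e : E} (he : ξ e = ξ' e) :
    picX m ξ s e = picX m ξ' s e := by
  unfold picX
  rw [he]
  congr 2
  funext k
  rw [picY_congr D hD hξ]

/-! ### Joint measurability -/

section Meas

variable {Ω : Type*} [MeasurableSpace Ω]

theorem measurable_intervalIntegral_param {F : Ω × ℝ → ℝ} (hF : Measurable F) :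
    Measurable fun p : Ω × ℝ => ∫ r in (0:ℝ)..p.2, F (p.1, r) := by
  have hset : ∀ (A : Set ((Ω × ℝ) × ℝ)), MeasurableSet A →
      Measurable fun p : Ω × ℝ => ∫ r, A.indicator (fun q => F (q.1.1, q.2)) (p, r) := by
    intro A hA
    have h1 : Measurable (A.indicator fun q : (Ω × ℝ) × ℝ => F (q.1.1, q.2)) := by
      refine Measurable.indicator (hF.comp ?_) hA
      exact (measurable_fst.comp measurable_fst).prodMk measurable_snd
    have h2 := (h1.stronglyMeasurable.integral_prod_right (f := fun p r =>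
      A.indicator (fun q : (Ω × ℝ) × ℝ => F (q.1.1, q.2)) (p, r)) (ν := volume))
    exact h2.measurable
  have hA1 : MeasurableSet {q : (Ω × ℝ) × ℝ | 0 < q.2 ∧ q.2 ≤ q.1.2} :=
    (measurableSet_lt measurable_const measurable_snd).inter
      (measurableSet_le measurable_snd (measurable_snd.comp measurable_fst))
  have hA2 : MeasurableSet {q : (Ω × ℝ) × ℝ | q.1.2 < q.2 ∧ q.2 ≤ 0} :=
    (measurableSet_lt (measurable_snd.comp measurable_fst) measurable_snd).inter
      (measurableSet_le measurable_snd measurable_const)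
  have h3 := (hset _ hA1).sub (hset _ hA2)
  have h4 : (fun p : Ω × ℝ => ∫ r in (0:ℝ)..p.2, F (p.1, r)) =
      (fun p : Ω × ℝ => ∫ r, {q : (Ω × ℝ) × ℝ | 0 < q.2 ∧ q.2 ≤ q.1.2}.indicator
        (fun q => F (q.1.1, q.2)) (p, r)) -
      (fun p : Ω × ℝ => ∫ r, {q : (Ω × ℝ) × ℝ | q.1.2 < q.2 ∧ q.2 ≤ 0}.indicator
        (fun q => F (q.1.1, q.2)) (p, r)) := by
    funext p
    simp only [Pi.sub_apply]
    unfold intervalIntegral
    congr 1
    · rw [← integral_indicator measurableSet_Ioc]
      rfl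
    · rw [← integral_indicator measurableSet_Ioc]
      rfl
  rw [h4]
  exact h3

theorem measurable_picY_param {m : Ω → (E → ℝ) → E → ℝ}
    (hm : ∀ e, Measurable fun p : Ω × (E → ℝ) => m p.1 p.2 e) {ξ : Ω → E → ℝ}
    (hξ : Measurable ξ) (k : ℕ) (e : E) :
    Measurable fun p : Ω × ℝ => picY (m p.1) (ξ p.1) k p.2 e := by
  induction k generalizing e with
  | zero => exact measurable_const
  | succ k ih =>
    simp only [picY_succ]
    have hF : Measurable fun p : Ω × ℝ =>
        m p.1 (fun g => p.2 * (ξ p.1 g + picY (m p.1) (ξ p.1) k p.2 g)) e := by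
      refine (hm e).comp (measurable_fst.prodMk ?_)
      refine measurable_pi_iff.mpr fun g => ?_
      exact measurable_snd.mul (((measurable_pi_iff.mp hξ g).comp measurable_fst).add (ih g))
    exact measurable_intervalIntegral_param hF

end Meas

/-! ### Bounds -/

section Bounds

variable {m : (E → ℝ) → E → ℝ}

theorem Drift.abs_le (hm : Drift m) (h : E → ℝ) (e : E) : |m h e| ≤ 1 := by
  rw [abs_of_nonneg (hm.nonneg h e)]
  exact hm.le_one h e

theorem Drift.measurable_picY (hm : Drift m) (ξ : E → ℝ) (k : ℕ) (e : E) :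
    Measurable fun s : ℝ => picY m ξ k s e := by
  have := measurable_picY_param (Ω := Unit) (m := fun _ => m) (ξ := fun _ => ξ)
    (fun e => (hm.meas e).comp measurable_snd) measurable_const k e
  exact this.comp (measurable_const.prodMk measurable_id : Measurable fun s : ℝ => ((), s))

/-- A path `y : ℝ → E → ℝ` which is coordinatewise measurable gives a measurable integrand. -/
theorem Drift.measurable_comp (hm : Drift m) {y : ℝ → E → ℝ}
    (hy : ∀ g, Measurable fun s => y s g) (e : E) : Measurable fun r => m (y r) e :=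
  (hm.meas e).comp (measurable_pi_iff.mpr hy)

theorem Drift.intervalIntegrable (hm : Drift m) {y : ℝ → E → ℝ}
    (hy : ∀ g, Measurable fun s => y s g) (e : E) (a b : ℝ) :
    IntervalIntegrable (fun r => m (y r) e) volume a b := by
  have hmeas := hm.measurable_comp hy e
  refine IntervalIntegrable.mono_fun (g := fun r => m (y r) e)
    (intervalIntegrable_const (c := (1:ℝ))) hmeas.aestronglyMeasurable ?_
  refine Filter.Eventually.of_forall fun r => ?_
  show ‖m (y r) e‖ ≤ ‖(1:ℝ)‖
  rw [Real.norm_eq_abs, norm_one]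
  exact hm.abs_le _ _

theorem Drift.measurable_arg (hm : Drift m) (ξ : E → ℝ) (k : ℕ) (g : E) :
    Measurable fun r : ℝ => r * (ξ g + picY m ξ k r g) :=
  measurable_id.mul (measurable_const.add (hm.measurable_picY ξ k g))

theorem Drift.picY_diff (hm : Drift m) (ξ : E → ℝ) (k : ℕ) (s : ℝ) (hs : 0 ≤ s) (e : E) :
    |picY m ξ (k + 1) s e - picY m ξ k s e| ≤ s ^ (2 * k + 1) / (k.factorial : ℝ) := by
  induction k generalizing s e with
  | zero =>
    simp only [picY_zero, sub_zero, picY_succ]
    have := intervalIntegral.norm_integral_le_of_norm_le_const (a := 0) (b := s) (C := 1)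
      (f := fun r => m (fun g => r * (ξ g + 0)) e) (fun r _ => by
        rw [Real.norm_eq_abs]; exact hm.abs_le _ _)
    rw [Real.norm_eq_abs] at this
    simpa [abs_of_nonneg hs] using this
  | succ k ih =>
    rw [picY_succ m ξ (k + 1), picY_succ m ξ k,
      ← intervalIntegral.integral_sub (hm.intervalIntegrable (hm.measurable_arg ξ (k + 1)) e 0 s)
        (hm.intervalIntegrable (hm.measurable_arg ξ k) e 0 s)]
    have hb : ∀ᵐ r ∂(volume : Measure ℝ), r ∈ Set.Ioc 0 s →
        ‖m (fun g => r * (ξ g + picY m ξ (k + 1) r g)) e -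
          m (fun g => r * (ξ g + picY m ξ k r g)) e‖ ≤ 2 / (k.factorial : ℝ) * r ^ (2 * k + 2) := by
      refine Filter.Eventually.of_forall fun r hr => ?_
      rw [Real.norm_eq_abs]
      have h1 := hm.lip (fun g => r * (ξ g + picY m ξ (k + 1) r g))
        (fun g => r * (ξ g + picY m ξ k r g)) (r * (r ^ (2 * k + 1) / (k.factorial : ℝ)))
        (fun g => by
          have h2 : r * (ξ g + picY m ξ (k + 1) r g) - r * (ξ g + picY m ξ k r g) =
              r * (picY m ξ (k + 1) r g - picY m ξ k r g) := by ring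
          rw [h2, abs_mul, abs_of_nonneg hr.1.le]
          exact mul_le_mul_of_nonneg_left (ih r hr.1.le g) hr.1.le) e
      refine h1.trans (le_of_eq ?_)
      ring
    have h3 := intervalIntegral.norm_integral_le_of_norm_le hs hb
      ((intervalIntegral.intervalIntegrable_pow (2 * k + 2)).const_mul _)
    rw [Real.norm_eq_abs] at h3
    refine h3.trans ?_
    rw [intervalIntegral.integral_const_mul, integral_pow]
    have hk : (0:ℝ) < k.factorial := by exact_mod_cast k.factorial_pos
    have hfac : ((k + 1).factorial : ℝ) = (k + 1) * k.factorial := by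
      rw [Nat.factorial_succ]; push_cast; ring
    rw [hfac, zero_pow (by omega), sub_zero]
    have h5 : 2 * (k + 1) + 1 = 2 * k + 2 + 1 := by ring
    rw [h5]
    have h6 : 0 ≤ s ^ (2 * k + 2 + 1) := pow_nonneg hs _
    rw [div_mul_div_comm, div_le_div_iff₀ (by positivity) (by positivity)]
    push_cast
    have h7 : 2 * ((k:ℝ) + 1) ≤ 2 * k + 2 + 1 := by linarith
    nlinarith [mul_le_mul_of_nonneg_left h7 (mul_nonneg h6 hk.le)]

theorem summable_bound (s : ℝ) :
    Summable fun k : ℕ => s ^ (2 * k + 1) / (k.factorial : ℝ) := by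
  have h := (Real.summable_pow_div_factorial (s ^ 2)).mul_left s
  refine h.congr fun k => ?_
  rw [pow_succ s (2 * k), pow_mul]
  ring

theorem Drift.summable_diff (hm : Drift m) (ξ : E → ℝ) (s : ℝ) (hs : 0 ≤ s) (e : E) :
    Summable fun k : ℕ => picY m ξ (k + 1) s e - picY m ξ k s e :=
  Summable.of_norm_bounded (summable_bound s) fun k => hm.picY_diff ξ k s hs e

theorem Drift.tendsto_picY (hm : Drift m) (ξ : E → ℝ) (s : ℝ) (hs : 0 ≤ s) (e : E) :
    Tendsto (fun k => ξ e + picY m ξ k s e) atTop (𝓝 (picX m ξ s e)) := by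
  have h1 := (hm.summable_diff ξ s hs e).hasSum.tendsto_sum_nat
  have h2 : ∀ n, ∑ k ∈ Finset.range n, (picY m ξ (k + 1) s e - picY m ξ k s e) =
      picY m ξ n s e := by
    intro n
    rw [Finset.sum_range_sub (fun k => picY m ξ k s e) n]
    simp
  simp only [h2] at h1
  have h3 : picX m ξ s e = ξ e + ∑' k : ℕ, (picY m ξ (k + 1) s e - picY m ξ k s e) := by
    simp only [picX, max_eq_left hs]
    rw [h1.limUnder_eq]
  rw [h3]
  exact h1.const_add _

theorem Drift.picX_eq_tsum (hm : Drift m) (ξ : E → ℝ) (s : ℝ) (hs : 0 ≤ s) (e : E) :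
    picX m ξ s e = ξ e + ∑' k : ℕ, (picY m ξ (k + 1) s e - picY m ξ k s e) := by
  have h1 := (hm.summable_diff ξ s hs e).hasSum.tendsto_sum_nat
  have h2 : ∀ n, ∑ k ∈ Finset.range n, (picY m ξ (k + 1) s e - picY m ξ k s e) =
      picY m ξ n s e := by
    intro n
    rw [Finset.sum_range_sub (fun k => picY m ξ k s e) n]
    simp
  simp only [h2] at h1
  simp only [picX, max_eq_left hs]
  rw [h1.limUnder_eq]

theorem picX_max (m : (E → ℝ) → E → ℝ) (ξ : E → ℝ) (s : ℝ) (e : E) :
    picX m ξ (max s 0) e = picX m ξ s e := by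
  simp [picX]

/-- Uniform tail bound (independent of the coordinate and of the drift). -/
noncomputable def picTail (s : ℝ) (k : ℕ) : ℝ :=
  ∑' j : ℕ, s ^ (2 * (j + k) + 1) / ((j + k).factorial : ℝ)

theorem tendsto_picTail (s : ℝ) : Tendsto (picTail s) atTop (𝓝 0) :=
  tendsto_sum_nat_add fun k : ℕ => s ^ (2 * k + 1) / (k.factorial : ℝ)

theorem Drift.picX_sub_le (hm : Drift m) (ξ : E → ℝ) (k : ℕ) (s : ℝ) (hs : 0 ≤ s) (e : E) :
    |picX m ξ s e - (ξ e + picY m ξ k s e)| ≤ picTail s k := by
  have h3 := hm.picX_eq_tsum ξ s hs e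
  have hsum := hm.summable_diff ξ s hs e
  have h4 := hsum.sum_add_tsum_nat_add k
  rw [Finset.sum_range_sub (fun k => picY m ξ k s e) k] at h4
  have h5 : picX m ξ s e - (ξ e + picY m ξ k s e) =
      ∑' j : ℕ, (picY m ξ (j + k + 1) s e - picY m ξ (j + k) s e) := by
    rw [h3, ← h4]
    simp
  rw [h5, ← Real.norm_eq_abs]
  have hb : Summable fun j : ℕ => s ^ (2 * (j + k) + 1) / ((j + k).factorial : ℝ) :=
    (summable_nat_add_iff (f := fun k : ℕ => s ^ (2 * k + 1) / (k.factorial : ℝ)) k).mpr
      (summable_bound s)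
  exact tsum_of_norm_bounded hb.hasSum fun j => hm.picY_diff ξ (j + k) s hs e

theorem Drift.picY_nonneg (hm : Drift m) (ξ : E → ℝ) (k : ℕ) (s : ℝ) (hs : 0 ≤ s) (e : E) :
    0 ≤ picY m ξ k s e := by
  cases k with
  | zero => simp
  | succ k =>
    rw [picY_succ]
    exact intervalIntegral.integral_nonneg hs fun r _ => hm.nonneg _ _

theorem Drift.picY_le (hm : Drift m) (ξ : E → ℝ) (k : ℕ) (s : ℝ) (hs : 0 ≤ s) (e : E) :
    picY m ξ k s e ≤ s := by
  cases k with
  | zero => simpa using hs
  | succ k =>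
    rw [picY_succ]
    have := intervalIntegral.norm_integral_le_of_norm_le_const (a := 0) (b := s) (C := 1)
      (f := fun r => m (fun g => r * (ξ g + picY m ξ k r g)) e) (fun r _ => by
        rw [Real.norm_eq_abs]; exact hm.abs_le _ _)
    rw [Real.norm_eq_abs, sub_zero, one_mul, abs_of_nonneg hs] at this
    exact (le_abs_self _).trans this

theorem picTail_mono {r s : ℝ} (hr : 0 ≤ r) (hrs : r ≤ s) (k : ℕ) : picTail r k ≤ picTail s k := by
  have hb : ∀ t : ℝ, Summable fun j : ℕ => t ^ (2 * (j + k) + 1) / ((j + k).factorial : ℝ) :=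
    fun t => (summable_nat_add_iff (f := fun k : ℕ => t ^ (2 * k + 1) / (k.factorial : ℝ)) k).mpr
      (summable_bound t)
  refine Summable.tsum_le_tsum (fun j => ?_) (hb r) (hb s)
  exact div_le_div_of_nonneg_right (pow_le_pow_left₀ hr hrs _) (Nat.cast_nonneg _)

/-- Joint measurability (no regularity of the drift needed). -/
theorem measurable_picX_param {Ω : Type*} [MeasurableSpace Ω] {m : Ω → (E → ℝ) → E → ℝ}
    (hm : ∀ e, Measurable fun p : Ω × (E → ℝ) => m p.1 p.2 e) {ξ : Ω → E → ℝ}
    (hξ : Measurable ξ) (e : E) :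
    Measurable fun p : Ω × ℝ => picX (m p.1) (ξ p.1) p.2 e := by
  refine ((measurable_pi_iff.mp hξ e).comp measurable_fst).add ?_
  refine StronglyMeasurable.measurable ?_
  refine StronglyMeasurable.limUnder
    (f := fun (k : ℕ) (p : Ω × ℝ) => picY (m p.1) (ξ p.1) k (max p.2 0) e) fun k => ?_
  exact ((measurable_picY_param hm hξ k e).comp
    (measurable_fst.prodMk (measurable_snd.max measurable_const))).stronglyMeasurable

theorem Drift.measurable_picX (hm : Drift m) (ξ : E → ℝ) (e : E) :
    Measurable fun s : ℝ => picX m ξ s e := by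
  unfold picX
  refine measurable_const.add (StronglyMeasurable.measurable ?_)
  refine StronglyMeasurable.limUnder (f := fun (k : ℕ) (s : ℝ) => picY m ξ k (max s 0) e)
    fun k => ?_
  exact ((hm.measurable_picY ξ k e).comp (measurable_id.max measurable_const)).stronglyMeasurable

/-- Measurability in the initial condition at a fixed time. -/
theorem Drift.measurable_picX_init (hm : Drift m) (s : ℝ) (e : E) :
    Measurable fun ξ : E → ℝ => picX m ξ s e := by
  have h1 := measurable_picX_param (Ω := E → ℝ) (m := fun _ => m) (ξ := fun ξ => ξ)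
    (fun e => (hm.meas e).comp measurable_snd) measurable_id e
  have h2 : Measurable fun ξ : E → ℝ => (ξ, s) := measurable_prodMk_right
  exact Measurable.comp (g := fun p : (E → ℝ) × ℝ => picX m p.1 p.2 e) h1 h2

/-- The integral equation. -/
theorem Drift.picX_eq (hm : Drift m) (ξ : E → ℝ) (s : ℝ) (hs : 0 ≤ s) (e : E) :
    picX m ξ s e = ξ e + ∫ r in (0:ℝ)..s, m (fun g => r * picX m ξ r g) e := by
  have h1 := (hm.tendsto_picY ξ s hs e).comp (tendsto_add_atTop_nat 1)
  refine tendsto_nhds_unique h1 ?_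
  simp only [Function.comp_def, picY_succ]
  refine Tendsto.const_add _ ?_
  refine intervalIntegral.tendsto_integral_filter_of_dominated_convergence (fun _ => 1) ?_ ?_ ?_ ?_
  · exact Filter.Eventually.of_forall fun k =>
      (hm.measurable_comp (hm.measurable_arg ξ k) e).aestronglyMeasurable
  · refine Filter.Eventually.of_forall fun k => Filter.Eventually.of_forall fun r _ => ?_
    rw [Real.norm_eq_abs]
    exact hm.abs_le _ _
  · exact intervalIntegrable_const
  · refine Filter.Eventually.of_forall fun r hr => ?_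
    rw [Set.uIoc_of_le hs] at hr
    rw [tendsto_iff_norm_sub_tendsto_zero]
    have h0 : Tendsto (fun k => 2 * (r * picTail r k)) atTop (𝓝 0) := by
      have := ((tendsto_picTail r).const_mul r).const_mul 2
      simpa using this
    refine squeeze_zero (fun k => norm_nonneg _) (fun k => ?_) h0
    rw [Real.norm_eq_abs]
    refine hm.lip _ _ _ (fun g => ?_) e
    have h2 : r * (ξ g + picY m ξ k r g) - r * picX m ξ r g =
        -(r * (picX m ξ r g - (ξ g + picY m ξ k r g))) := by ring
    rw [h2, abs_neg, abs_mul, abs_of_nonneg hr.1.le]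
    exact mul_le_mul_of_nonneg_left (hm.picX_sub_le ξ k r hr.1.le g) hr.1.le

theorem Drift.picX_incr (hm : Drift m) (ξ : E → ℝ) {s s' : ℝ} (hs : 0 ≤ s) (hss : s ≤ s')
    (e : E) : 0 ≤ picX m ξ s' e - picX m ξ s e ∧ picX m ξ s' e - picX m ξ s e ≤ s' - s := by
  have hint : ∀ a b : ℝ, IntervalIntegrable (fun r => m (fun g => r * picX m ξ r g) e)
      volume a b := fun a b =>
    hm.intervalIntegrable (fun g => measurable_id.mul (hm.measurable_picX ξ g)) e a b
  have h1 : picX m ξ s' e - picX m ξ s e = ∫ r in s..s', m (fun g => r * picX m ξ r g) e := by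
    rw [hm.picX_eq ξ s hs e, hm.picX_eq ξ s' (hs.trans hss) e,
      ← intervalIntegral.integral_add_adjacent_intervals (hint 0 s) (hint s s')]
    ring
  rw [h1]
  constructor
  · exact intervalIntegral.integral_nonneg hss fun r _ => hm.nonneg _ _
  · have := intervalIntegral.norm_integral_le_of_norm_le_const (a := s) (b := s') (C := 1)
      (f := fun r => m (fun g => r * picX m ξ r g) e) (fun r _ => by
        rw [Real.norm_eq_abs]; exact hm.abs_le _ _)
    rw [Real.norm_eq_abs, one_mul, abs_of_nonneg (sub_nonneg.mpr hss)] at this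
    exact (le_abs_self _).trans this

theorem Drift.picX_zero (hm : Drift m) (ξ : E → ℝ) (e : E) : picX m ξ 0 e = ξ e := by
  rw [hm.picX_eq ξ 0 le_rfl e]
  simp

theorem Drift.continuousOn_picX (hm : Drift m) (ξ : E → ℝ) (e : E) :
    ContinuousOn (fun s => picX m ξ s e) (Set.Ici 0) := by
  have : LipschitzOnWith 1 (fun s => picX m ξ s e) (Set.Ici 0) := by
    refine LipschitzOnWith.of_dist_le_mul fun a ha b hb => ?_
    rw [NNReal.coe_one, one_mul, Real.dist_eq, Real.dist_eq]
    rcases le_total a b with hab | hab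
    · have := hm.picX_incr ξ ha hab e
      rw [abs_sub_comm, abs_of_nonneg this.1, abs_sub_comm, abs_of_nonneg (by linarith)]
      exact this.2
    · have := hm.picX_incr ξ hb hab e
      rw [abs_of_nonneg this.1, abs_of_nonneg (by linarith)]
      exact this.2
  exact this.continuousOn

theorem Drift.continuous_picX (hm : Drift m) (ξ : E → ℝ) (e : E) :
    Continuous (fun s => picX m ξ s e) := by
  have h1 : (fun s => picX m ξ s e) = (fun s => picX m ξ s e) ∘ fun s : ℝ => max s 0 := by
    funext s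
    simp [picX]
  rw [h1]
  exact (hm.continuousOn_picX ξ e).comp_continuous (continuous_id.max continuous_const)
    fun s => Set.mem_Ici.mpr (le_max_right _ _)

end Bounds

/-! ### Convergence of the finite-volume solutions -/

section Conv

variable {m : (E → ℝ) → E → ℝ} {mn : ℕ → (E → ℝ) → E → ℝ}

/-- The drifts `mn n` converge to `m` along coordinatewise convergent sequences at bounded
sup-distance. -/
def PDriftConv (mn : ℕ → (E → ℝ) → E → ℝ) (m : (E → ℝ) → E → ℝ) : Prop :=
  ∀ (hn : ℕ → E → ℝ) (h : E → ℝ) (b : ℝ), (∀ n g, |hn n g - h g| ≤ b) →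
    (∀ g, Tendsto (fun n => hn n g) atTop (𝓝 (h g))) →
    ∀ e, Tendsto (fun n => mn n (hn n) e) atTop (𝓝 (m h e))

theorem tendsto_picY_of_conv (hm : Drift m) (hmn : ∀ n, Drift (mn n)) (hc : PDriftConv mn m)
    (ξ : E → ℝ) (k : ℕ) (s : ℝ) (hs : 0 ≤ s) (e : E) :
    Tendsto (fun n => picY (mn n) ξ k s e) atTop (𝓝 (picY m ξ k s e)) := by
  induction k generalizing s e with
  | zero => simp
  | succ k ih =>
    simp only [picY_succ]
    refine intervalIntegral.tendsto_integral_filter_of_dominated_convergence (fun _ => 1)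
      ?_ ?_ ?_ ?_
    · exact Filter.Eventually.of_forall fun n =>
        ((hmn n).measurable_comp ((hmn n).measurable_arg ξ k) e).aestronglyMeasurable
    · refine Filter.Eventually.of_forall fun n => Filter.Eventually.of_forall fun r _ => ?_
      rw [Real.norm_eq_abs]
      exact (hmn n).abs_le _ _
    · exact intervalIntegrable_const
    · refine Filter.Eventually.of_forall fun r hr => ?_
      rw [Set.uIoc_of_le hs] at hr
      refine hc _ _ (r * r) (fun n g => ?_) (fun g => ?_) e
      · have h2 : r * (ξ g + picY (mn n) ξ k r g) - r * (ξ g + picY m ξ k r g) =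
            r * (picY (mn n) ξ k r g - picY m ξ k r g) := by ring
        rw [h2, abs_mul, abs_of_nonneg hr.1.le]
        refine mul_le_mul_of_nonneg_left ?_ hr.1.le
        have h3 := (hmn n).picY_nonneg ξ k r hr.1.le g
        have h4 := (hmn n).picY_le ξ k r hr.1.le g
        have h5 := hm.picY_nonneg ξ k r hr.1.le g
        have h6 := hm.picY_le ξ k r hr.1.le g
        rw [abs_le]
        constructor <;> linarith
      · exact ((ih r hr.1.le g).const_add _).const_mul _

theorem tendsto_picX_of_conv (hm : Drift m) (hmn : ∀ n, Drift (mn n)) (hc : PDriftConv mn m)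
    (ξ : E → ℝ) (s : ℝ) (e : E) :
    Tendsto (fun n => picX (mn n) ξ s e) atTop (𝓝 (picX m ξ s e)) := by
  have h0 : 0 ≤ max s 0 := le_max_right _ _
  rw [← picX_max m]
  simp only [← picX_max (mn _) ξ s e]
  rw [hm.picX_eq_tsum ξ _ h0 e]
  simp only [(hmn _).picX_eq_tsum ξ _ h0 e]
  refine Tendsto.const_add _ ?_
  refine tendsto_tsum_of_dominated_convergence (summable_bound (max s 0)) (fun k => ?_)
    (Filter.Eventually.of_forall fun n k => (hmn n).picY_diff ξ k _ h0 e)
  exact (tendsto_picY_of_conv hm hmn hc ξ (k + 1) _ h0 e).sub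
    (tendsto_picY_of_conv hm hmn hc ξ k _ h0 e)

end Conv

/-! ### Rounding -/

theorem round_dichotomy {x : ℝ → ℝ}
    (hx : ∀ s s' : ℝ, 0 ≤ s → s ≤ s' → 0 ≤ x s' - x s ∧ x s' - x s ≤ s' - s)
    (hev : ∀ᶠ k : ℕ in atTop, ¬ ((k:ℝ) / 4 ≤ x k ∧ x k ≤ 3 * k / 4)) :
    (∀ᶠ k : ℕ in atTop, x k < (k:ℝ) / 4) ∨ (∀ᶠ k : ℕ in atTop, 3 * (k:ℝ) / 4 < x k) := by
  obtain ⟨N, hN⟩ := eventually_atTop.mp (hev.and (eventually_ge_atTop 3))
  by_cases h0 : x N < (N:ℝ) / 4
  · left
    refine eventually_atTop.mpr ⟨N, fun k hk => ?_⟩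
    induction k, hk using Nat.le_induction with
    | base => exact h0
    | succ k hk ih =>
      have h1 := (hN (k + 1) (by omega)).1
      have h2 := hx k (k + 1) (Nat.cast_nonneg _) (by linarith)
      have h3 : (3:ℝ) ≤ k := by exact_mod_cast (hN k hk).2
      by_contra h4
      push Not at h4
      apply h1
      refine ⟨h4, ?_⟩
      push_cast
      linarith [h2.2]
  · right
    have h00 : 3 * (N:ℝ) / 4 < x N := by
      by_contra h5
      push Not at h5
      push Not at h0
      exact (hN N le_rfl).1 ⟨h0, h5⟩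
    refine eventually_atTop.mpr ⟨N, fun k hk => ?_⟩
    induction k, hk using Nat.le_induction with
    | base => exact h00
    | succ k hk ih =>
      have h1 := (hN (k + 1) (by omega)).1
      have h2 := hx k (k + 1) (Nat.cast_nonneg _) (by linarith)
      have h3 : (3:ℝ) ≤ k := by exact_mod_cast (hN k hk).2
      by_contra h4
      push Not at h4
      apply h1
      refine ⟨?_, h4⟩
      push_cast
      linarith [h2.1]

end P143
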