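import Mathlib

/-! Rounding of a convergent sequence of fields with known finite laws. -/

open MeasureTheory ProbabilityTheory Filter Topology
open scoped BigOperators

namespace P143

/-- continuous bump, `1` on `[1/4, 3/4]` and `0` off `[1/8, 7/8]` -/
noncomputable def bump (t : ℝ) : ℝ := max 0 (min 1 (min (8 * t - 1) (7 - 8 * t)))

/-- continuous ramp from `0` (for `t ≤ 1/4`) to `1` (for `t ≥ 3/4`) -/
noncomputable def ramp (t : ℝ) : ℝ := max 0 (min 1 (2 * t - 1 / 2))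

theorem continuous_bump : Continuous bump := by unfold bump; fun_prop

theorem continuous_ramp : Continuous ramp := by unfold ramp; fun_prop

theorem bump_nonneg (t : ℝ) : 0 ≤ bump t := le_max_left _ _

theorem bump_le_one (t : ℝ) : bump t ≤ 1 := max_le zero_le_one (min_le_left _ _)

theorem ramp_nonneg (t : ℝ) : 0 ≤ ramp t := le_max_left _ _

theorem ramp_le_one (t : ℝ) : ramp t ≤ 1 := max_le zero_le_one (min_le_left _ _)

theorem bump_eq_one {t : ℝ} (h1 : 1 / 4 ≤ t) (h2 : t ≤ 3 / 4) : bump t = 1 := by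
  unfold bump
  rw [min_eq_left (le_min (by linarith) (by linarith)), max_eq_right zero_le_one]

theorem bump_le (b u : ℝ) (hb : b = 0 ∨ b = 1) : bump (b + u) ≤ 64 * u ^ 2 := by
  by_cases hu : |u| ≤ 1 / 8
  · have h := abs_le.1 hu
    have h0 : bump (b + u) = 0 := by
      unfold bump
      apply max_eq_left
      rcases hb with rfl | rfl
      · exact (min_le_right _ _).trans ((min_le_left _ _).trans (by linarith))
      · exact (min_le_right _ _).trans ((min_le_right _ _).trans (by linarith))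
    rw [h0]; positivity
  · have h1 : 1 / 8 < |u| := not_le.1 hu
    have h2 : 1 ≤ 64 * u ^ 2 := by
      rw [← sq_abs]; nlinarith
    exact (bump_le_one _).trans h2

theorem ramp_zero {t : ℝ} (h : t ≤ 1 / 4) : ramp t = 0 := by
  unfold ramp
  exact max_eq_left ((min_le_right _ _).trans (by linarith))

theorem ramp_one {t : ℝ} (h : 3 / 4 ≤ t) : ramp t = 1 := by
  unfold ramp
  rw [min_eq_left (by linarith), max_eq_right zero_le_one]

section test

variable {ι : Type*} [Fintype ι] (η : ι → Prop) [DecidablePred η]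

/-- the continuous approximation of a cylinder event at scale `k` -/
noncomputable def tst (k : ℝ) (y : ι → ℝ) : ℝ :=
  ∏ e, (if η e then ramp (y e / k) else 1 - ramp (y e / k))

theorem continuous_tst (k : ℝ) : Continuous (tst η k) := by
  unfold tst
  refine continuous_finsetProd _ fun e _ => ?_
  by_cases h : η e
  · simp only [h, if_true]
    exact continuous_ramp.comp (by fun_prop)
  · simp only [h, if_false]
    exact continuous_const.sub (continuous_ramp.comp (by fun_prop))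

theorem tst_nonneg (k : ℝ) (y : ι → ℝ) : 0 ≤ tst η k y := by
  unfold tst
  refine Finset.prod_nonneg fun e _ => ?_
  split_ifs
  · exact ramp_nonneg _
  · exact sub_nonneg.2 (ramp_le_one _)

theorem tst_le_one (k : ℝ) (y : ι → ℝ) : tst η k y ≤ 1 := by
  unfold tst
  refine Finset.prod_le_one (fun e _ => ?_) fun e _ => ?_
  · split_ifs
    · exact ramp_nonneg _
    · exact sub_nonneg.2 (ramp_le_one _)
  · split_ifs
    · exact ramp_le_one _
    · have := ramp_nonneg (y e / k); linarith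

theorem tst_eq (k : ℝ) (y : ι → ℝ) (t : ι → Prop) [DecidablePred t]
    (h : ∀ e, ramp (y e / k) = if t e then 1 else 0) :
    tst η k y = if ∀ e, (t e ↔ η e) then 1 else 0 := by
  unfold tst
  by_cases hall : ∀ e, (t e ↔ η e)
  · rw [if_pos hall]
    refine Finset.prod_eq_one fun e _ => ?_
    rw [h e]
    have := hall e
    by_cases h1 : η e
    · rw [if_pos h1, if_pos (this.2 h1)]
    · rw [if_neg h1, if_neg (fun h2 => h1 (this.1 h2)), sub_zero]
  · rw [if_neg hall]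
    push Not at hall
    obtain ⟨e, he⟩ := hall
    refine Finset.prod_eq_zero (Finset.mem_univ e) ?_
    rw [h e]
    rcases he with ⟨h1, h2⟩ | ⟨h1, h2⟩
    · rw [if_neg h2, if_pos h1, sub_self]
    · rw [if_pos h2, if_neg h1]

/-- comparison with the indicator -/
theorem abs_tst_sub (k : ℝ) (hk : 0 < k) (t : ι → Prop) [DecidablePred t] (x : ι → ℝ) :
    |tst η k (fun e => x e + k * (if t e then 1 else 0)) -
      (if ∀ e, (t e ↔ η e) then (1 : ℝ) else 0)| ≤ ∑ e, 16 * (x e) ^ 2 / k ^ 2 := by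
  by_cases hx : ∀ e, |x e / k| ≤ 1 / 4
  · rw [tst_eq η k _ t, sub_self, abs_zero]
    · positivity
    · intro e
      have h := abs_le.1 (hx e)
      have h1 : (x e + k * (if t e then 1 else 0)) / k = x e / k + (if t e then 1 else 0) := by
        field_simp
      rw [h1]
      by_cases h2 : t e
      · simp only [if_pos h2]
        exact ramp_one (by linarith)
      · simp only [if_neg h2]
        exact ramp_zero (by linarith)
  · push Not at hx
    obtain ⟨e, he⟩ := hx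
    have h1 : (1 : ℝ) ≤ 16 * (x e) ^ 2 / k ^ 2 := by
      have h2 : (x e / k) ^ 2 = (x e) ^ 2 / k ^ 2 := by rw [div_pow]
      have h3 : 1 / 16 ≤ (x e / k) ^ 2 := by rw [← sq_abs]; nlinarith
      rw [mul_div_assoc, ← h2]; linarith
    have h2 : |tst η k (fun e => x e + k * (if t e then 1 else 0)) -
      (if ∀ e, (t e ↔ η e) then (1 : ℝ) else 0)| ≤ 1 := by
      have h3 := tst_nonneg η k (fun e => x e + k * (if t e then 1 else 0))
      have h4 := tst_le_one η k (fun e => x e + k * (if t e then 1 else 0))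
      rw [abs_le]
      split_ifs
      · constructor <;> linarith
      · constructor <;> linarith
    refine h2.trans (h1.trans ?_)
    exact Finset.single_le_sum (f := fun e => 16 * (x e) ^ 2 / k ^ 2)
      (fun e _ => by positivity) (Finset.mem_univ e)

end test

/-! ### Gaussian moments -/

theorem integral_sq_gauss : ∫ x, x ^ 2 ∂(gaussianReal 0 1) = 1 := by
  have h := variance_fun_id_gaussianReal (μ := 0) (v := 1)
  rw [variance_eq_integral (by fun_prop)] at h
  simpa using h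

theorem integrable_sq_gauss : Integrable (fun x : ℝ => x ^ 2) (gaussianReal 0 1) := by
  by_contra h
  have := integral_sq_gauss
  rw [integral_undef h] at this
  norm_num at this

theorem integrable_sq_of_map {Ω : Type*} [MeasurableSpace Ω] (P : Measure Ω) (x : Ω → ℝ)
    (hx : Measurable x) (h : P.map x = gaussianReal 0 1) : Integrable (fun ω => (x ω) ^ 2) P := by
  have h1 := integrable_sq_gauss
  rw [← h] at h1
  exact (integrable_map_measure h1.aestronglyMeasurable hx.aemeasurable).1 h1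

theorem integral_sq_of_map {Ω : Type*} [MeasurableSpace Ω] (P : Measure Ω) (x : Ω → ℝ)
    (hx : Measurable x) (h : P.map x = gaussianReal 0 1) : ∫ ω, (x ω) ^ 2 ∂P = 1 := by
  have h1 := integral_map (μ := P) (φ := x) (f := fun x : ℝ => x ^ 2) hx.aemeasurable
    (by rw [h]; exact integrable_sq_gauss.aestronglyMeasurable)
  rw [h, integral_sq_gauss] at h1
  exact h1.symm

/-! ### Deterministic dichotomy -/

theorem dich (x : ℕ → ℝ) (hx : ∀ k, 0 ≤ x (k + 1) - x k ∧ x (k + 1) - x k ≤ 1)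
    (hev : ∀ᶠ k : ℕ in atTop, ¬ ((k : ℝ) / 4 ≤ x k ∧ x k ≤ 3 * k / 4)) :
    (∀ᶠ k : ℕ in atTop, 3 * (k : ℝ) / 4 < x k) ∨ (∀ᶠ k : ℕ in atTop, x k < (k : ℝ) / 4) := by
  obtain ⟨K, hK⟩ := eventually_atTop.1 hev
  have hcase := hK (max K 4) (le_max_left _ _)
  have hbig : ∀ k : ℕ, max K 4 ≤ k → (4 : ℝ) ≤ k := fun k hk => by
    exact_mod_cast (le_max_right K 4).trans hk
  rcases lt_or_ge (x (max K 4)) (((max K 4 : ℕ) : ℝ) / 4) with h | h
  · right
    refine eventually_atTop.2 ⟨max K 4, fun k hk => ?_⟩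
    induction k, hk using Nat.le_induction with
    | base => exact h
    | succ k hk ih =>
      have h1 := (hx k).2
      have h2 := hbig k hk
      have h3 := hK (k + 1) (((le_max_left _ _).trans hk).trans (Nat.le_succ k))
      by_contra h4
      apply h3
      push_cast at h4 ⊢
      constructor
      · linarith
      · linarith
  · left
    have h' : 3 * (((max K 4 : ℕ) : ℝ)) / 4 < x (max K 4) := by
      by_contra h4
      exact hcase ⟨h, not_lt.1 h4⟩
    refine eventually_atTop.2 ⟨max K 4, fun k hk => ?_⟩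
    induction k, hk using Nat.le_induction with
    | base => exact h'
    | succ k hk ih =>
      have h1 := (hx k).1
      have h2 := hbig k hk
      have h3 := hK (k + 1) (((le_max_left _ _).trans hk).trans (Nat.le_succ k))
      by_contra h4
      apply h3
      push_cast at h4 ⊢
      constructor
      · linarith
      · linarith

theorem avg_le {α : Type*} (S : Finset α) (hS : S.Nonempty) (a b : α → ℝ) (c : ℝ)
    (h : ∀ T ∈ S, |a T - b T| ≤ c) :
    |(∑ T ∈ S, a T) / (S.card : ℝ) - (∑ T ∈ S, b T) / (S.card : ℝ)| ≤ c := by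
  have hc : (0 : ℝ) < S.card := by exact_mod_cast hS.card_pos
  rw [← sub_div, ← Finset.sum_sub_distrib, abs_div, abs_of_pos hc, div_le_iff₀ hc]
  refine (Finset.abs_sum_le_sum_abs _ _).trans ((Finset.sum_le_sum h).trans ?_)
  rw [Finset.sum_const, nsmul_eq_mul, mul_comm]

theorem avg_le' {α : Type*} (S : Finset α) (hS : S.Nonempty) (a : α → ℝ) (c : ℝ)
    (h : ∀ T ∈ S, a T ≤ c) :
    (∑ T ∈ S, a T) / (S.card : ℝ) ≤ c := by
  have hc : (0 : ℝ) < S.card := by exact_mod_cast hS.card_pos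
  rw [div_le_iff₀ hc]
  refine (Finset.sum_le_sum h).trans ?_
  rw [Finset.sum_const, nsmul_eq_mul, mul_comm]

theorem measurableSet_ev {Ω : Type*} [MeasurableSpace Ω] (X : ℕ → Ω → ℝ)
    (hX : ∀ k, Measurable (X k)) :
    MeasurableSet {ω | ∀ᶠ k : ℕ in atTop, (k : ℝ) / 2 < X k ω} := by
  have : {ω | ∀ᶠ k : ℕ in atTop, (k : ℝ) / 2 < X k ω} =
      ⋃ K : ℕ, ⋂ k : ℕ, ⋂ (_ : K ≤ k), {ω | (k : ℝ) / 2 < X k ω} := by
    ext ω
    simp [eventually_atTop]
  rw [this]
  exact MeasurableSet.iUnion fun K => MeasurableSet.iInter fun k => MeasurableSet.iInter fun _ =>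
    measurableSet_lt measurable_const (hX k)

/-! ### The rounding theorem -/

section main

variable {E Ω : Type*} [DecidableEq E] [MeasurableSpace Ω] (P : Measure Ω)
  [IsProbabilityMeasure P] (A : Finset E)

omit [DecidableEq E] in
/-- limits in `n` of bounded continuous functions -/
theorem round_limn (X : Ω → E → ℝ) (Y : ℕ → Ω → E → ℝ)
    (hYm : ∀ n e, Measurable fun ω => Y n ω e)
    (hY : ∀ ω e, Tendsto (fun n => Y n ω e) atTop (𝓝 (X ω e)))
    (f : (A → ℝ) → ℝ) (hf : Continuous f) (hf0 : ∀ y, 0 ≤ f y) (hf1 : ∀ y, f y ≤ 1) :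
    Tendsto (fun n => ∫ ω, f (fun e : A => Y n ω e) ∂P) atTop
      (𝓝 (∫ ω, f (fun e : A => X ω e) ∂P)) := by
  refine tendsto_integral_of_dominated_convergence (fun _ => (1 : ℝ)) (fun n => ?_)
    (integrable_const _) (fun n => ae_of_all _ fun ω => ?_) (ae_of_all _ fun ω => ?_)
  · exact (hf.measurable.comp (measurable_pi_iff.2 fun e => hYm n e)).aestronglyMeasurable
  · rw [Real.norm_eq_abs, abs_of_nonneg (hf0 _)]; exact hf1 _
  · exact (hf.tendsto _).comp (tendsto_pi_nhds.2 fun e => hY ω e)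

variable (ξ : Ω → E → ℝ) (hξm : ∀ e, Measurable fun ω => ξ ω e)
  (hξi : ∀ e, Integrable (fun ω => (ξ ω e) ^ 2) P) (hξ2 : ∀ e, ∫ ω, (ξ ω e) ^ 2 ∂P = 1)

include hξm hξi hξ2

/-- comparison of the test function average with the count -/
theorem round_test (S : Finset (Finset E)) (hS : S.Nonempty) (η : E → Prop) [DecidablePred η]
    (k : ℕ) (hk : 0 < k) :
    |(∑ T ∈ S, ∫ ω, tst (fun e : A => η e) k
        (fun e : A => ξ ω e + k * (if (e : E) ∈ T then 1 else 0)) ∂P) / (S.card : ℝ) -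
      ((S.filter (fun T => ∀ e ∈ A, (e ∈ T ↔ η e))).card : ℝ) / (S.card : ℝ)| ≤
      16 * A.card / (k : ℝ) ^ 2 := by
  have hqn : ((S.filter (fun T => ∀ e ∈ A, (e ∈ T ↔ η e))).card : ℝ) / (S.card : ℝ) =
      (∑ T ∈ S, (if ∀ e : A, ((e : E) ∈ T ↔ η e) then (1 : ℝ) else 0)) / (S.card : ℝ) := by
    rw [Finset.card_filter]
    push_cast
    congr 1
    refine Finset.sum_congr rfl fun T _ => ?_
    simp only [Subtype.forall]
  rw [hqn]
  refine avg_le S hS _ _ _ fun T _ => ?_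
  have hint : Integrable (fun ω => ∑ e : A, 16 * (ξ ω e) ^ 2 / (k : ℝ) ^ 2) P := by
    refine integrable_finsetSum _ fun e _ => ?_
    exact ((hξi e).const_mul 16).div_const _
  have hval : ∫ ω, ∑ e : A, 16 * (ξ ω e) ^ 2 / (k : ℝ) ^ 2 ∂P = 16 * A.card / (k : ℝ) ^ 2 := by
    rw [integral_finsetSum Finset.univ (f := fun (e : A) ω => 16 * (ξ ω e) ^ 2 / (k : ℝ) ^ 2)
      fun e _ => ((hξi e).const_mul 16).div_const _]
    simp_rw [integral_div, integral_const_mul, hξ2]
    rw [Finset.sum_const, Finset.card_univ, Fintype.card_coe, nsmul_eq_mul]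
    ring
  have hti : Integrable (fun ω => tst (fun e : A => η e) k
      (fun e : A => ξ ω e + k * (if (e : E) ∈ T then 1 else 0))) P := by
    refine Integrable.of_bound (C := 1)
      ((continuous_tst (fun e : A => η e) k).measurable.comp
        (measurable_pi_iff.2 fun e => (hξm e).add_const _)).aestronglyMeasurable
      (ae_of_all _ fun x => ?_)
    rw [Real.norm_eq_abs, abs_of_nonneg (tst_nonneg _ _ _)]
    exact tst_le_one _ _ _
  rw [← hval]
  have hc : ∫ _ω, (if ∀ e : A, ((e : E) ∈ T ↔ η e) then (1 : ℝ) else 0) ∂P =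
      (if ∀ e : A, ((e : E) ∈ T ↔ η e) then (1 : ℝ) else 0) := by
    rw [integral_const]; simp
  rw [← hc, ← integral_sub hti (integrable_const _)]
  refine (abs_integral_le_integral_abs).trans ?_
  refine integral_mono_of_nonneg (ae_of_all _ fun _ => abs_nonneg _) hint
    (ae_of_all _ fun ω => ?_)
  exact abs_tst_sub (fun e : A => η e) k (by exact_mod_cast hk) (fun e : A => (e : E) ∈ T)
    (fun e : A => ξ ω e)

omit [IsProbabilityMeasure P] hξm in
theorem round_bump (S : Finset (Finset E)) (hS : S.Nonempty) (e : E) (k : ℕ) (hk : 0 < k) :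
    (∑ T ∈ S, ∫ ω, bump ((ξ ω e + k * (if e ∈ T then 1 else 0)) / k) ∂P) / (S.card : ℝ) ≤
      64 / (k : ℝ) ^ 2 := by
  have hk' : (0 : ℝ) < k := by exact_mod_cast hk
  refine avg_le' S hS _ _ fun T _ => ?_
  have hint : Integrable (fun ω => 64 * (ξ ω e) ^ 2 / (k : ℝ) ^ 2) P :=
    ((hξi _).const_mul 64).div_const _
  have hval : ∫ ω, 64 * (ξ ω e) ^ 2 / (k : ℝ) ^ 2 ∂P = 64 / (k : ℝ) ^ 2 := by
    rw [integral_div, integral_const_mul, hξ2, mul_one]
  rw [← hval]
  refine integral_mono_of_nonneg (ae_of_all _ fun _ => bump_nonneg _) hint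
    (ae_of_all _ fun ω => ?_)
  have h1 : (ξ ω e + k * (if e ∈ T then 1 else 0)) / k =
      (if e ∈ T then 1 else 0) + ξ ω e / k := by
    field_simp
    ring
  have h2 := bump_le (if e ∈ T then 1 else 0) (ξ ω e / k) (by split_ifs <;> simp)
  simp only
  rw [h1]
  refine h2.trans (le_of_eq ?_)
  rw [div_pow]; ring

omit hξm hξi hξ2 in
omit [DecidableEq E] in
/-- almost sure avoidance -/
theorem round_avoid (x : ℕ → Ω → ℝ) (hx : ∀ k, Measurable (x k))
    (hb : ∀ k : ℕ, 0 < k → ∫ ω, bump (x k ω / k) ∂P ≤ 64 / (k : ℝ) ^ 2) :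
    ∀ᵐ ω ∂P, ∀ᶠ k : ℕ in atTop, ¬ ((k : ℝ) / 4 ≤ x k ω ∧ x k ω ≤ 3 * k / 4) := by
  set s : ℕ → Set Ω := fun j =>
    {ω | ((j + 1 : ℕ) : ℝ) / 4 ≤ x (j + 1) ω ∧ x (j + 1) ω ≤ 3 * ((j + 1 : ℕ) : ℝ) / 4} with hs
  have hsm : ∀ j, MeasurableSet (s j) := fun j =>
    (measurableSet_le measurable_const (hx _)).inter (measurableSet_le (hx _) measurable_const)
  have hsb : ∀ j, P (s j) ≤ ENNReal.ofReal (64 / ((j + 1 : ℕ) : ℝ) ^ 2) := by
    intro j
    have h1 : P.real (s j) ≤ 64 / ((j + 1 : ℕ) : ℝ) ^ 2 := by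
      refine le_trans ?_ (hb (j + 1) (Nat.succ_pos j))
      rw [← integral_indicator_one (hsm j)]
      refine integral_mono_of_nonneg (ae_of_all _ fun ω => ?_) ?_ (ae_of_all _ fun ω => ?_)
      · exact Set.indicator_nonneg (fun _ _ => zero_le_one) _
      · refine Integrable.of_bound (C := 1)
          ((continuous_bump.measurable.comp ((hx _).div_const _)).aestronglyMeasurable)
          (ae_of_all _ fun ω => ?_)
        rw [Real.norm_eq_abs, abs_of_nonneg (bump_nonneg _)]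
        exact bump_le_one _
      · by_cases hω : ω ∈ s j
        · rw [Set.indicator_of_mem hω]
          have hj : (0 : ℝ) < ((j + 1 : ℕ) : ℝ) := by exact_mod_cast Nat.succ_pos j
          have h2 := hω.1
          have h3 := hω.2
          simp only [Pi.one_apply]
          rw [bump_eq_one]
          · rw [le_div_iff₀ hj]; linarith
          · rw [div_le_iff₀ hj]; linarith
        · rw [Set.indicator_of_notMem hω]; exact bump_nonneg _
    rw [← ofReal_measureReal]
    exact ENNReal.ofReal_le_ofReal h1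
  have hsum : ∑' j, P (s j) ≠ ⊤ := by
    refine ne_top_of_le_ne_top ?_ (ENNReal.tsum_le_tsum hsb)
    have h1 : Summable (fun j : ℕ => 64 / ((j + 1 : ℕ) : ℝ) ^ 2) := by
      have h2 : Summable (fun j : ℕ => 1 / ((j : ℝ)) ^ 2) :=
        Real.summable_one_div_nat_pow.2 (by norm_num)
      have h3 := ((summable_nat_add_iff 1).2 h2).mul_left 64
      refine h3.congr fun j => ?_
      ring
    exact h1.tsum_ofReal_ne_top
  filter_upwards [ae_eventually_notMem hsum] with ω hω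
  rw [← map_add_atTop_eq_nat 1]
  exact hω

omit [IsProbabilityMeasure P] hξm hξi hξ2 in
omit [MeasurableSpace Ω] [DecidableEq E] in
/-- pointwise convergence of the test functions -/
theorem round_pt (x : ℕ → E → ℝ)
    (hX : ∀ k e, 0 ≤ x (k + 1) e - x k e ∧ x (k + 1) e - x k e ≤ 1)
    (η : E → Prop) [DecidablePred η]
    (hω : ∀ e : A, ∀ᶠ k : ℕ in atTop, ¬ ((k : ℝ) / 4 ≤ x k e ∧ x k e ≤ 3 * k / 4))
    (hd : Decidable (∀ e ∈ A, ((∀ᶠ k : ℕ in atTop, (k : ℝ) / 2 < x k e) ↔ η e))) :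
    Tendsto (fun k : ℕ => tst (fun e : A => η e) k (fun e : A => x k e)) atTop
      (𝓝 (if ∀ e ∈ A, ((∀ᶠ k : ℕ in atTop, (k : ℝ) / 2 < x k e) ↔ η e) then 1 else 0)) := by
  classical
  have hr : ∀ e : A, ∀ᶠ k : ℕ in atTop, ramp (x k e / k) =
      if (∀ᶠ k : ℕ in atTop, (k : ℝ) / 2 < x k e) then 1 else 0 := by
    intro e
    rcases dich (fun k => x k e) (fun k => hX k e) (hω e) with h | h
    · have hyes : ∀ᶠ k : ℕ in atTop, (k : ℝ) / 2 < x k e := by
        filter_upwards [h] with k hk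
        have : (0 : ℝ) ≤ k := Nat.cast_nonneg k
        linarith
      rw [if_pos hyes]
      filter_upwards [h, eventually_gt_atTop 0] with k hk hk0
      have hk0' : (0 : ℝ) < k := by exact_mod_cast hk0
      refine ramp_one ?_
      rw [le_div_iff₀ hk0']; linarith
    · have hno : ¬ ∀ᶠ k : ℕ in atTop, (k : ℝ) / 2 < x k e := by
        intro hyes
        obtain ⟨k, h1, h2⟩ := (hyes.and h).exists
        have : (0 : ℝ) ≤ k := Nat.cast_nonneg k
        linarith
      rw [if_neg hno]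
      filter_upwards [h, eventually_gt_atTop 0] with k hk hk0
      have hk0' : (0 : ℝ) < k := by exact_mod_cast hk0
      refine ramp_zero ?_
      rw [div_le_iff₀ hk0']; linarith
  refine tendsto_const_nhds.congr' ?_
  filter_upwards [eventually_all.2 hr] with k hk
  rw [tst_eq (fun e : A => η e) k _ (fun e : A => ∀ᶠ k : ℕ in atTop, (k : ℝ) / 2 < x k e) hk]
  by_cases hin : ∀ e ∈ A, ((∀ᶠ k : ℕ in atTop, (k : ℝ) / 2 < x k e) ↔ η e)
  · rw [if_pos hin, if_pos]
    exact fun e => hin e e.2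
  · rw [if_neg hin, if_neg]
    exact fun h => hin fun e he => h ⟨e, he⟩

omit hξm hξi hξ2 in
omit [DecidableEq E] in
/-- the limit in `k` -/
theorem round_limk (X : ℕ → Ω → E → ℝ) (hXm : ∀ k e, Measurable fun ω => X k ω e)
    (hX : ∀ k ω e, 0 ≤ X (k + 1) ω e - X k ω e ∧ X (k + 1) ω e - X k ω e ≤ 1)
    (hav : ∀ e ∈ A, ∀ᵐ ω ∂P, ∀ᶠ k : ℕ in atTop,
      ¬ ((k : ℝ) / 4 ≤ X k ω e ∧ X k ω e ≤ 3 * k / 4))
    (η : E → Prop) [DecidablePred η] :
    Tendsto (fun k : ℕ => ∫ ω, tst (fun e : A => η e) k (fun e : A => X k ω e) ∂P) atTop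
      (𝓝 (P.real {ω | ∀ e ∈ A, ((∀ᶠ k : ℕ in atTop, (k : ℝ) / 2 < X k ω e) ↔ η e)})) := by
  classical
  have hm : MeasurableSet
      {ω | ∀ e ∈ A, ((∀ᶠ k : ℕ in atTop, (k : ℝ) / 2 < X k ω e) ↔ η e)} := by
    have : {ω | ∀ e ∈ A, ((∀ᶠ k : ℕ in atTop, (k : ℝ) / 2 < X k ω e) ↔ η e)} =
        ⋂ e ∈ A, {ω | ((∀ᶠ k : ℕ in atTop, (k : ℝ) / 2 < X k ω e) ↔ η e)} := by
      ext ω; simp
    rw [this]
    refine Finset.measurableSet_biInter _ fun e _ => ?_
    by_cases h : η e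
    · simp only [h, iff_true]
      exact measurableSet_ev (fun k ω => X k ω e) (fun k => hXm k e)
    · simp only [h, iff_false]
      exact (measurableSet_ev (fun k ω => X k ω e) (fun k => hXm k e)).compl
  rw [← integral_indicator_one hm]
  refine tendsto_integral_of_dominated_convergence (fun _ => (1 : ℝ)) (fun k => ?_)
    (integrable_const _) (fun k => ae_of_all _ fun ω => ?_) ?_
  · exact ((continuous_tst (fun e : A => η e) k).measurable.comp
      (measurable_pi_iff.2 fun e => hXm k e)).aestronglyMeasurable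
  · rw [Real.norm_eq_abs, abs_of_nonneg (tst_nonneg _ _ _)]; exact tst_le_one _ _ _
  · have hall : ∀ᵐ ω ∂P, ∀ e : A, ∀ᶠ k : ℕ in atTop,
        ¬ ((k : ℝ) / 4 ≤ X k ω e ∧ X k ω e ≤ 3 * k / 4) :=
      ae_all_iff.2 fun e => hav e e.2
    filter_upwards [hall] with ω hω
    exact round_pt A (fun k e => X k ω e) (fun k e => hX k ω e) η hω _

omit hξi hξ2 in
/-- The rounding theorem. -/
theorem round_law_gen (hξ : ∀ e, P.map (fun ω => ξ ω e) = gaussianReal 0 1)
    (X : ℝ → Ω → E → ℝ) (hXm : ∀ s, 0 ≤ s → ∀ e, Measurable fun ω => X s ω e)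
    (hX : ∀ s t, 0 ≤ s → s ≤ t → ∀ ω e, 0 ≤ X t ω e - X s ω e ∧ X t ω e - X s ω e ≤ t - s)
    (Xn : ℕ → ℝ → Ω → E → ℝ) (hXnm : ∀ n s, 0 ≤ s → ∀ e, Measurable fun ω => Xn n s ω e)
    (hlim : ∀ s, 0 ≤ s → ∀ ω e, Tendsto (fun n => Xn n s ω e) atTop (𝓝 (X s ω e)))
    (𝒯 : ℕ → Finset (Finset E)) (h𝒯 : ∀ n, (𝒯 n).Nonempty)
    (hlaw : ∀ n s, 0 ≤ s → ∀ (B : Finset E) (f : (B → ℝ) → ℝ), Continuous f →
      (∃ C, ∀ z, |f z| ≤ C) → ∫ ω, f (fun e : B => Xn n s ω e) ∂P =
        (1 / ((𝒯 n).card : ℝ)) * ∑ T ∈ 𝒯 n,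
          ∫ ω, f (fun e : B => ξ ω e + if (e : E) ∈ T then s else 0) ∂P)
    (η : E → Prop) [DecidablePred η] :
    Tendsto (fun n => (((𝒯 n).filter (fun T => ∀ e ∈ A, (e ∈ T ↔ η e))).card : ℝ) /
      ((𝒯 n).card : ℝ)) atTop
      (𝓝 (P.real {ω | ∀ e ∈ A, ((∀ᶠ k : ℕ in atTop, (k : ℝ) / 2 < X k ω e) ↔ η e)})) := by
  have hξi : ∀ e, Integrable (fun ω => (ξ ω e) ^ 2) P :=
    fun e => integrable_sq_of_map P _ (hξm e) (hξ e)
  have hξ2 : ∀ e, ∫ ω, (ξ ω e) ^ 2 ∂P = 1 := fun e => integral_sq_of_map P _ (hξm e) (hξ e)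
  have hk0 : ∀ k : ℕ, (0 : ℝ) ≤ k := fun k => Nat.cast_nonneg k
  have hlaw' : ∀ n (k : ℕ) (B : Finset E) (f : (B → ℝ) → ℝ), Continuous f → (∀ y, 0 ≤ f y) →
      (∀ y, f y ≤ 1) → ∫ ω, f (fun e : B => Xn n k ω e) ∂P =
        (∑ T ∈ 𝒯 n, ∫ ω, f (fun e : B => ξ ω e + k * (if (e : E) ∈ T then 1 else 0)) ∂P) /
          ((𝒯 n).card : ℝ) := by
    intro n k B f hf hf0 hf1
    rw [hlaw n k (hk0 k) B f hf ⟨1, fun z => by rw [abs_of_nonneg (hf0 z)]; exact hf1 z⟩]
    rw [one_div, div_eq_inv_mul]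
    simp only [mul_ite, mul_one, mul_zero]
  have hlimn : ∀ (k : ℕ) (B : Finset E) (f : (B → ℝ) → ℝ), Continuous f → (∀ y, 0 ≤ f y) →
      (∀ y, f y ≤ 1) → Tendsto (fun n => ∫ ω, f (fun e : B => Xn n k ω e) ∂P) atTop
      (𝓝 (∫ ω, f (fun e : B => X k ω e) ∂P)) := fun k B f hf hf0 hf1 =>
    round_limn P B (X k) (fun n => Xn n k) (fun n e => hXnm n k (hk0 k) e)
      (fun ω e => hlim k (hk0 k) ω e) f hf hf0 hf1
  have hav : ∀ e ∈ A, ∀ᵐ ω ∂P, ∀ᶠ k : ℕ in atTop,
      ¬ ((k : ℝ) / 4 ≤ X k ω e ∧ X k ω e ≤ 3 * k / 4) := by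
    intro e he
    refine round_avoid P (fun k ω => X k ω e) (fun k => hXm k (hk0 k) e) fun k hk => ?_
    have hc : Continuous (fun y : A → ℝ => bump (y ⟨e, he⟩ / k)) :=
      continuous_bump.comp (by fun_prop)
    refine le_of_tendsto (hlimn k A (fun y => bump (y ⟨e, he⟩ / k)) hc
      (fun _ => bump_nonneg _) (fun _ => bump_le_one _)) (Eventually.of_forall fun n => ?_)
    rw [hlaw' n k A (fun y => bump (y ⟨e, he⟩ / k)) hc (fun _ => bump_nonneg _)
      (fun _ => bump_le_one _)]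
    exact round_bump P ξ hξi hξ2 (𝒯 n) (h𝒯 n) e k hk
  have hXt := round_limk P A (fun k => X k) (fun k e => hXm k (hk0 k) e)
    (fun k ω e => by
      have := hX k (k + 1 : ℕ) (hk0 k) (by exact_mod_cast Nat.le_succ k) ω e
      push_cast at this ⊢
      refine ⟨this.1, this.2.trans (by linarith)⟩) hav η
  rw [Metric.tendsto_atTop]
  intro ε hε
  have hsmall : Tendsto (fun k : ℕ => 16 * (A.card : ℝ) / (k : ℝ) ^ 2) atTop (𝓝 0) := by
    refine Tendsto.div_atTop tendsto_const_nhds ?_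
    exact (tendsto_pow_atTop (by norm_num)).comp tendsto_natCast_atTop_atTop
  obtain ⟨k, hkp, hk1, hk2⟩ := ((eventually_gt_atTop 0).and
    ((hsmall.eventually (gt_mem_nhds (by positivity : (0 : ℝ) < ε / 3))).and
    (Metric.tendsto_nhds.1 hXt (ε / 3) (by positivity)))).exists
  have hlimk := Metric.tendsto_nhds.1 (hlimn k A (tst (fun e : A => η e) k)
    (continuous_tst (fun e : A => η e) k) (tst_nonneg (fun e : A => η e) k)
    (tst_le_one (fun e : A => η e) k)) (ε / 3) (by positivity)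
  obtain ⟨N, hN⟩ := eventually_atTop.1 hlimk
  refine ⟨N, fun n hn => ?_⟩
  have h2 := hN n hn
  have h1 := round_test P A ξ hξm hξi hξ2 (𝒯 n) (h𝒯 n) η k hkp
  rw [← hlaw' n k A (tst (fun e : A => η e) k)
    (continuous_tst (fun e : A => η e) k) (tst_nonneg (fun e : A => η e) k)
    (tst_le_one (fun e : A => η e) k)] at h1
  rw [Real.dist_eq] at h2 hk2 ⊢
  obtain ⟨e1, e1'⟩ := abs_le.1 h1
  obtain ⟨e2, e2'⟩ := abs_lt.1 h2
  obtain ⟨e3, e3'⟩ := abs_lt.1 hk2
  rw [abs_lt]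
  constructor
  · linarith
  · linarith

end main

open Classical in
/-- The rounding theorem, in the form used in `Core`. -/
theorem round_law {E Ω : Type*} [MeasurableSpace Ω] (γ : Measure Ω) [IsProbabilityMeasure γ]
    (ξ : Ω → E → ℝ) (hξm : ∀ e, Measurable fun ω => ξ ω e)
    (hξ : ∀ e, γ.map (fun ω => ξ ω e) = gaussianReal 0 1)
    (X : ℝ → Ω → E → ℝ) (hXm : ∀ s, 0 ≤ s → ∀ e, Measurable fun ω => X s ω e)
    (hX : ∀ s t, 0 ≤ s → s ≤ t → ∀ ω e, 0 ≤ X t ω e - X s ω e ∧ X t ω e - X s ω e ≤ t - s)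
    (Xn : ℕ → ℝ → Ω → E → ℝ) (hXnm : ∀ n s, 0 ≤ s → ∀ e, Measurable fun ω => Xn n s ω e)
    (hlim : ∀ s, 0 ≤ s → ∀ ω e, Tendsto (fun n => Xn n s ω e) atTop (𝓝 (X s ω e)))
    (𝒯 : ℕ → Finset (Finset E)) (h𝒯 : ∀ n, (𝒯 n).Nonempty)
    (hlaw : ∀ n s, 0 ≤ s → ∀ (B : Finset E) (f : (B → ℝ) → ℝ), Continuous f →
      (∃ C, ∀ z, |f z| ≤ C) → ∫ ω, f (fun e : B => Xn n s ω e) ∂γ =
        (1 / ((𝒯 n).card : ℝ)) * ∑ T ∈ 𝒯 n,
          ∫ ω, f (fun e : B => ξ ω e + if (e : E) ∈ T then s else 0) ∂γ)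
    (B A : Finset E) :
    Tendsto (fun n => (((𝒯 n).filter (fun T => ∀ e ∈ B, (e ∈ T ↔ e ∈ A))).card : ℝ) /
      ((𝒯 n).card : ℝ)) atTop
      (𝓝 (γ.real {ω | ∀ e ∈ B, ((∀ᶠ k : ℕ in atTop, (k : ℝ) / 2 < X k ω e) ↔ e ∈ A)})) := by
  have h := round_law_gen γ B ξ hξm hξ X hXm hX Xn hXnm hlim 𝒯 h𝒯 hlaw (fun e => e ∈ A)
  convert h

end P143
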