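import Vale.Agent.P143.FinLaw
import Vale.Agent.P143.Round
import Vale.Agent.P143.KirchA
import Vale.Agent.P143.Bridge
import Vale.Agent.P143.Picard
import Vale.Agent.P143.Exhaust
import Vale.Agent.P143.FinalOf

/-!
# P143: the core theorem (assembly of the modules)
-/

open MeasureTheory ProbabilityTheory Filter Topology unitInterval
open scoped ENNReal

namespace P143

/-! ### Bridge from the finite-dimensional law to the solution -/

section bridge
variable {E : Type*}

theorem mfun_congr {TT : Finset (Finset E)} {S : Finset E} (hsub : ∀ T ∈ TT, T ⊆ S)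
    {h h' : E → ℝ} (hh : ∀ g ∈ S, h g = h' g) (e : E) : mfun TT h e = mfun TT h' e := by
  classical
  unfold mfun
  have key : ∀ T ∈ TT, Real.exp (∑ g ∈ T, h g) = Real.exp (∑ g ∈ T, h' g) := by
    intro T hT
    congr 1
    exact Finset.sum_congr rfl fun g hg => hh g (hsub T hT hg)
  congr 1
  · exact Finset.sum_congr rfl fun T hT => by rw [key T hT]
  · exact Finset.sum_congr rfl key

/-- The trace of a finset on a bigger finset, as a finset of the subtype. -/
noncomputable def sub (K : Finset E) (T : Finset E) : Finset K := by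
  classical exact T.subtype (· ∈ K)

theorem mem_sub {K T : Finset E} {e : K} : e ∈ sub K T ↔ (e : E) ∈ T := by
  classical
  simp [sub]

theorem sum_sub {K T : Finset E} (hT : T ⊆ K) (h : E → ℝ) :
    ∑ g ∈ sub K T, h (g : E) = ∑ g ∈ T, h g := by
  classical
  unfold sub
  exact Finset.sum_subtype_of_mem h fun x hx => hT hx

theorem card_sub {K T : Finset E} (hT : T ⊆ K) : (sub K T).card = T.card := by
  classical
  have := sum_sub hT (fun _ => (1 : ℝ))
  simpa using this

theorem sub_inj {K T T' : Finset E} (hT : T ⊆ K) (hT' : T' ⊆ K) (h : sub K T = sub K T') :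
    T = T' := by
  ext e
  constructor
  · intro he
    have : (⟨e, hT he⟩ : K) ∈ sub K T := mem_sub.2 he
    rw [h] at this
    exact mem_sub.1 this
  · intro he
    have : (⟨e, hT' he⟩ : K) ∈ sub K T' := mem_sub.2 he
    rw [← h] at this
    exact mem_sub.1 this

open scoped Classical in
/-- The family of traces. -/
noncomputable def subs (K : Finset E) (TT : Finset (Finset E)) : Finset (Finset K) :=
  TT.image (sub K)

open scoped Classical in
theorem sum_subs {K : Finset E} {TT : Finset (Finset E)} (hsub : ∀ T ∈ TT, T ⊆ K)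
    (F : Finset K → ℝ) : ∑ T ∈ subs K TT, F T = ∑ T ∈ TT, F (sub K T) := by
  unfold subs
  exact Finset.sum_image fun T hT T' hT' h => sub_inj (hsub T hT) (hsub T' hT') h

open scoped Classical in
theorem card_subs {K : Finset E} {TT : Finset (Finset E)} (hsub : ∀ T ∈ TT, T ⊆ K) :
    (subs K TT).card = TT.card := by
  unfold subs
  exact Finset.card_image_of_injOn fun T hT T' hT' h => sub_inj (hsub T hT) (hsub T' hT') h

theorem mfun_subs {K : Finset E} {TT : Finset (Finset E)} (hsub : ∀ T ∈ TT, T ⊆ K)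
    (h : E → ℝ) (e : K) : mfun (subs K TT) (fun g : K => h g) e = mfun TT h e := by
  classical
  unfold mfun
  congr 1
  · rw [sum_subs hsub]
    refine Finset.sum_congr rfl fun T hT => ?_
    have h1 : (e ∈ sub K T) ↔ (e : E) ∈ T := mem_sub
    have h2 : ∑ g ∈ sub K T, h (g : E) = ∑ g ∈ T, h g := sum_sub (hsub T hT) h
    by_cases he : (e : E) ∈ T
    · rw [if_pos (h1.2 he), if_pos he, h2]
    · rw [if_neg (fun hh => he (h1.1 hh)), if_neg he]
  · rw [sum_subs hsub]
    refine Finset.sum_congr rfl fun T hT => ?_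
    rw [sum_sub (hsub T hT) h]

/-- extension by zero -/
noncomputable def ext0 (K : Finset E) (η : K → ℝ) : E → ℝ := fun g => by
  classical exact if h : g ∈ K then η ⟨g, h⟩ else 0

theorem ext0_mem {K : Finset E} (η : K → ℝ) (g : K) : ext0 K η g = η g := by
  classical
  unfold ext0
  simp

theorem measurable_ext0 (K : Finset E) : Measurable (ext0 K) := by
  classical
  rw [measurable_pi_iff]
  intro g
  unfold ext0
  by_cases h : g ∈ K
  · simp only [h, dite_true]
    exact measurable_pi_apply _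
  · simp only [h, dite_false]
    exact measurable_const

open scoped Classical in
theorem law_bridge [Countable E] {m : (E → ℝ) → E → ℝ} (hm : Drift m) {S : Finset E}
    {TT : Finset (Finset E)} (hne : TT.Nonempty) {c : ℕ} (hc : ∀ T ∈ TT, T.card = c)
    (hsub : ∀ T ∈ TT, T ⊆ S) (hmf : ∀ h e, m h e = mfun TT h e) {s : ℝ} (hs : 0 ≤ s)
    (B : Finset E) (f : (B → ℝ) → ℝ) (hf : Continuous f) (hfb : ∃ C, ∀ z, |f z| ≤ C) :
    ∫ ω, f (fun e : B => picX m ω s e) ∂(Measure.infinitePi fun _ : E => gaussianReal 0 1) =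
      (1 / (TT.card : ℝ)) * ∑ T ∈ TT, ∫ ω, f (fun e : B => ω e + if (e : E) ∈ T then s else 0)
        ∂(Measure.infinitePi fun _ : E => gaussianReal 0 1) := by
  set K : Finset E := S ∪ B with hK
  have hSK : S ⊆ K := Finset.subset_union_left
  have hBK : B ⊆ K := Finset.subset_union_right
  have hsubK : ∀ T ∈ TT, T ⊆ K := fun T hT => (hsub T hT).trans hSK
  have hloc : ∀ h h' : E → ℝ, (∀ g ∈ (S : Set E), h g = h' g) → m h = m h' := by
    intro h h' hh
    funext e
    rw [hmf, hmf]
    exact mfun_congr hsub (fun g hg => hh g hg) e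
  -- the finite dimensional solution
  set x : (K → ℝ) → ℝ → K → ℝ := fun η s e => picX m (ext0 K η) s e with hx
  have hx1 : ∀ η s, 0 ≤ s → ∀ e, x η s e = η e +
      ∫ r in (0 : ℝ)..s, mfun (subs K TT) (fun g => r * x η r g) e := by
    intro η s hs e
    show picX m (ext0 K η) s e = _
    rw [hm.picX_eq _ _ hs, ext0_mem]
    congr 1
    refine intervalIntegral.integral_congr fun r _ => ?_
    show m (fun g => r * picX m (ext0 K η) r g) e = _
    rw [hmf, ← mfun_subs hsubK]
  have hmeasK : ∀ s, 0 ≤ s → Measurable (fun η => x η s) := by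
    intro s hs
    rw [measurable_pi_iff]
    intro e
    exact (hm.measurable_picX_init s (e : E)).comp (measurable_ext0 K)
  have hcontK : ∀ η e, ContinuousOn (fun r => x η r e) (Set.Icc 0 s) := by
    intro η e
    exact (hm.continuous_picX (ext0 K η) (e : E)).continuousOn
  -- restriction maps
  set rB : (K → ℝ) → (B → ℝ) := fun z e => z ⟨e, hBK e.2⟩ with hrB
  have hrBc : Continuous rB := continuous_pi fun e => continuous_apply _
  obtain ⟨C, hC⟩ := hfb
  have hne' : (subs K TT).Nonempty := by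
    unfold subs
    exact hne.image _
  have hc' : ∀ T ∈ subs K TT, T.card = c := by
    intro T hT
    unfold subs at hT
    obtain ⟨T', hT', rfl⟩ := Finset.mem_image.1 hT
    rw [card_sub (hsubK T' hT'), hc T' hT']
  have main := fin_law_trees hne' hc' hs x hcontK (fun ξ s hs e => hx1 ξ s hs.1 e)
    (f := f ∘ rB) (hf.comp hrBc) (fun z => hC _)
  have hmap : (Measure.infinitePi fun _ : E => gaussianReal 0 1).map (K.restrict) =
      Measure.pi fun _ : K => gaussianReal 0 1 := Measure.infinitePi_map_restrict _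
  have hres : Measurable (K.restrict : (E → ℝ) → (K → ℝ)) := Finset.measurable_restrict _
  have hpush : ∀ F : (K → ℝ) → ℝ, Measurable F →
      ∫ ω, F (K.restrict ω) ∂(Measure.infinitePi fun _ : E => gaussianReal 0 1) =
        ∫ η, F η ∂(Measure.pi fun _ : K => gaussianReal 0 1) := by
    intro F hF
    rw [← hmap, integral_map hres.aemeasurable hF.aestronglyMeasurable]
  have hfm : Measurable f := hf.measurable
  have lhs : ∫ ω, f (fun e : B => picX m ω s e) ∂(Measure.infinitePi fun _ : E => gaussianReal 0 1)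
      = ∫ η, (f ∘ rB) (x η s) ∂(Measure.pi fun _ : K => gaussianReal 0 1) := by
    rw [← hpush (fun η => (f ∘ rB) (x η s)) ((hfm.comp hrBc.measurable).comp (hmeasK s hs))]
    refine integral_congr_ae (ae_of_all _ fun ω => ?_)
    simp only [Function.comp]
    congr 1
    funext e
    show picX m ω s e = picX m (ext0 K (K.restrict ω)) s e
    refine picX_congr (S : Set E) hloc ?_ s ?_
    · intro g hg
      exact (ext0_mem (K.restrict ω) ⟨g, hSK hg⟩).symm
    · exact (ext0_mem (K.restrict ω) ⟨e, hBK e.2⟩).symm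
  rw [lhs, main, card_subs hsubK, sum_subs hsubK, one_div, inv_mul_eq_div]
  congr 1
  refine Finset.sum_congr rfl fun T hT => ?_
  rw [← hpush (fun ξ => (f ∘ rB) (ξ + s • indv (sub K T)))]
  · refine integral_congr_ae (ae_of_all _ fun ω => ?_)
    simp only [Function.comp]
    congr 1
    funext e
    simp only [hrB, indv, mem_sub, Pi.add_apply, Pi.smul_apply, smul_eq_mul, mul_ite, mul_one,
      mul_zero]
    rfl
  · refine (hfm.comp hrBc.measurable).comp ?_
    rw [measurable_pi_iff]
    intro e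
    exact (measurable_pi_apply e).add_const _

end bridge

/-! ### The factor map -/

/-- The standard Gaussian noise on pairs. -/
noncomputable abbrev gam : Measure (Sym2 ℕ → ℝ) := Measure.infinitePi fun _ => gaussianReal 0 1

/-- The factor map in terms of the edge noise. -/
noncomputable def FF (G : SimpleGraph ℕ) (ξ : Sym2 ℕ → ℝ) : Set (Sym2 ℕ) :=
  {e | ∀ᶠ k : ℕ in atTop, (k : ℝ) / 2 < picX (mG G) ξ k e}

theorem drift_mG (G : SimpleGraph ℕ) : Drift (mG G) where
  nonneg := mG_nonneg G
  le_one := mG_le_one G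
  lip _ _ _ hd e := mG_lip ((abs_nonneg _).trans (hd e)) (fun g _ => hd g)
  meas := measurable_mG G

theorem drift_mS (S : Finset (Sym2 ℕ)) : Drift (mS S) where
  nonneg := mS_nonneg S
  le_one := mS_le_one S
  lip _ _ _ hd e := mS_lip ((abs_nonneg _).trans (hd e)) (fun g _ => hd g)
  meas := measurable_mS S

/-- Kirchhoff's formula: the finite volume drift is the weighted spanning tree marginal. -/
theorem mS_eq_gibbs {V : Type*} {G : SimpleGraph V} (H : G.Subgraph) (hf : H.verts.Finite)
    (hc : H.Connected) (h : Sym2 V → ℝ) (e : Sym2 V) :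
    mS (edgesOf H) h e = gibbs (trees H) h e := by
  classical
  by_cases he : e ∈ edgesOf H
  · have : Fintype H.verts := hf.fintype
    have heH : e ∈ H.edgeSet := (mem_edgesOf H hf e).1 he
    induction e with
    | _ x y =>
      have hxy : H.Adj x y := heH
      have hK : H.coe.Connected := hc.coe
      have h1 := mS_kirchhoff H.coe hK (Subtype.val : H.verts → V) Subtype.val_injective
        (edgesOf H) (fun g => ?_) h ⟨x, H.edge_vert hxy⟩ ⟨y, H.edge_vert hxy.symm⟩ hxy
      · have h2 := gibbs_trees H hf h ⟨x, H.edge_vert hxy⟩ ⟨y, H.edge_vert hxy.symm⟩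
        refine h1.trans (Eq.trans ?_ h2.symm)
        congr!
      · have h3 := edgesOf_eq_image H hf
        have : g ∈ (edgesOf H : Set (Sym2 V)) ↔ g ∈ Sym2.map Subtype.val '' H.coe.edgeSet := by
          rw [h3]
        exact this
  · rw [mS_of_notMem he]
    unfold gibbs
    rw [Finset.sum_eq_zero, zero_div]
    intro T hT
    rw [if_neg]
    exact fun h1 => he (trees_subset H T hT h1)

theorem mS_map {V V' : Type*} (φ : V' ≃ V) (S : Finset (Sym2 V')) (h : Sym2 V → ℝ)
    (e : Sym2 V') : mS S (fun g => h (Sym2.map φ g)) e =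
      mS (S.map ⟨Sym2.map φ, Sym2.map.injective φ.injective⟩) h (Sym2.map φ e) := by
  classical
  have hinj := Sym2.map.injective φ.injective
  have hsq : ∀ (f : V → ℝ) (g : Sym2 V'), sqd f (Sym2.map φ g) = sqd (fun v => f (φ v)) g := by
    intro f g
    induction g with
    | _ x y => rfl
  have hmem : Sym2.map φ e ∈ S.map ⟨Sym2.map φ, hinj⟩ ↔ e ∈ S := by
    simp only [Finset.mem_map, Function.Embedding.coeFn_mk]
    constructor
    · rintro ⟨g, hg, hge⟩
      rw [← hinj hge]; exact hg
    · exact fun h => ⟨e, h, rfl⟩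
  have hen : ∀ f : V → ℝ, energy (S.map ⟨Sym2.map φ, hinj⟩) (fun g => Real.exp (h g)) f =
      energy S (fun g => Real.exp (h (Sym2.map φ g))) (fun v => f (φ v)) := by
    intro f
    unfold energy
    rw [Finset.sum_map]
    refine Finset.sum_congr rfl fun g _ => ?_
    simp only [Function.Embedding.coeFn_mk, hsq]
  have hcnd : cnd (S.map ⟨Sym2.map φ, hinj⟩) (fun g => Real.exp (h g)) (Sym2.map φ e) =
      cnd S (fun g => Real.exp (h (Sym2.map φ g))) e := by
    unfold cnd
    let E : {f : V → ℝ // sqd f (Sym2.map φ e) = 1} ≃ {f : V' → ℝ // sqd f e = 1} :=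
      { toFun := fun f => ⟨fun v => f.1 (φ v), by rw [← hsq]; exact f.2⟩
        invFun := fun f => ⟨fun v => f.1 (φ.symm v), by
          rw [hsq]
          have : (fun v => (fun v => f.1 (φ.symm v)) (φ v)) = f.1 := by
            funext v; simp
          rw [this]; exact f.2⟩
        left_inv := fun f => by ext v; simp
        right_inv := fun f => by ext v; simp }
    refine Equiv.iInf_congr E fun f => ?_
    exact (hen f.1).symm
  by_cases he : e ∈ S
  · rw [mS_of_mem he, mS_of_mem (hmem.2 he), hcnd]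
  · rw [mS_of_notMem he, mS_of_notMem (fun h1 => he (hmem.1 h1))]

theorem mG_comap {V V' : Type*} (φ : V' ≃ V) (G : SimpleGraph V) (h : Sym2 V → ℝ) (e : Sym2 V') :
    mG (G.comap φ) (fun g => h (Sym2.map φ g)) e = mG G h (Sym2.map φ e) := by
  classical
  have hinj := Sym2.map.injective φ.injective
  have hE : ∀ g : Sym2 V', g ∈ (G.comap φ).edgeSet ↔ Sym2.map φ g ∈ G.edgeSet := by
    intro g
    induction g with
    | _ x y => rfl
  by_cases he : Sym2.map φ e ∈ G.edgeSet
  · have he' := (hE e).2 he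
    refine le_antisymm ?_ ?_
    · refine le_mG he fun S hS heS => ?_
      have hpre : ∀ g ∈ S, ∃ g', Sym2.map φ g' = g := fun g _ =>
        ⟨Sym2.map φ.symm g, by rw [Sym2.map_map]; simp⟩
      obtain ⟨S', hS'⟩ : ∃ S' : Finset (Sym2 V'), S'.map ⟨Sym2.map φ, hinj⟩ = S := by
        refine ⟨S.preimage (Sym2.map φ) hinj.injOn, ?_⟩
        ext g
        simp only [Finset.mem_map, Finset.mem_preimage, Function.Embedding.coeFn_mk]
        constructor
        · rintro ⟨g', hg', rfl⟩; exact hg'
        · intro hg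
          obtain ⟨g', rfl⟩ := hpre g hg
          exact ⟨g', hg, rfl⟩
      subst hS'
      rw [← mS_map φ S' h e]
      refine mG_le_mS (fun g hg => (hE g).2 (hS ?_)) ?_
      · simp only [Finset.coe_map, Function.Embedding.coeFn_mk]
        exact ⟨g, hg, rfl⟩
      · simp only [Finset.mem_map, Function.Embedding.coeFn_mk] at heS
        obtain ⟨g', hg', hge⟩ := heS
        rw [← hinj hge]; exact hg'
    · refine le_mG he' fun S hS heS => ?_
      rw [mS_map φ S h e]
      refine mG_le_mS (fun g hg => ?_) ?_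
      · simp only [Finset.coe_map, Function.Embedding.coeFn_mk] at hg
        obtain ⟨g', hg', rfl⟩ := hg
        exact (hE g').1 (hS hg')
      · simp only [Finset.mem_map, Function.Embedding.coeFn_mk]
        exact ⟨e, heS, rfl⟩
  · rw [mG_of_notMem he, mG_of_notMem (fun h1 => he ((hE e).1 h1))]

theorem measurable_mG_joint (e : Sym2 ℕ) :
    Measurable (fun p : SimpleGraph ℕ × (Sym2 ℕ → ℝ) => mG p.1 p.2 e) := by
  refine measurable_mG_param (fun p : SimpleGraph ℕ × (Sym2 ℕ → ℝ) => p.1) (fun g => ?_)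
    (fun p => p.2) (fun g => (measurable_pi_apply g).comp measurable_snd) e
  have : Measurable (fun p : SimpleGraph ℕ × (Sym2 ℕ → ℝ) => p.1.edgeSet) :=
    SimpleGraph.measurable_edgeSet.comp measurable_fst
  exact (measurable_set_iff.1 this g).setOf

theorem measurable_FF : Measurable fun p : SimpleGraph ℕ × (Sym2 ℕ → ℝ) => FF p.1 p.2 := by
  rw [measurable_set_iff]
  intro e
  have h := measurable_picX_param (Ω := SimpleGraph ℕ × (Sym2 ℕ → ℝ))
    (m := fun p => mG p.1) (ξ := fun p => p.2)
    (fun e => (measurable_mG_joint e).comp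
      ((measurable_fst.comp measurable_fst).prodMk measurable_snd))
    measurable_snd e
  have hk : ∀ k : ℕ, MeasurableSet {p : SimpleGraph ℕ × (Sym2 ℕ → ℝ) |
      (k : ℝ) / 2 < picX (mG p.1) p.2 k e} := by
    intro k
    exact measurableSet_lt measurable_const (h.comp (measurable_id.prodMk measurable_const))
  have : MeasurableSet {p : SimpleGraph ℕ × (Sym2 ℕ → ℝ) | e ∈ FF p.1 p.2} := by
    have h2 : {p : SimpleGraph ℕ × (Sym2 ℕ → ℝ) | e ∈ FF p.1 p.2} =
        ⋃ N : ℕ, ⋂ k ≥ N, {p : SimpleGraph ℕ × (Sym2 ℕ → ℝ) |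
          (k : ℝ) / 2 < picX (mG p.1) p.2 k e} := by
      ext p
      simp [FF, eventually_atTop]
    rw [h2]
    exact MeasurableSet.iUnion fun N => MeasurableSet.iInter fun k => MeasurableSet.iInter
      fun _ => hk k
  exact measurable_mem.2 this

theorem FF_equi (τ : Equiv.Perm ℕ) (G : SimpleGraph ℕ) (ξ : Sym2 ℕ → ℝ) :
    FF (rG τ G) (fun e => ξ (Sym2.map τ.symm e)) = {e | Sym2.map τ.symm e ∈ FF G ξ} := by
  ext e
  simp only [FF, Set.mem_ofPred_eq]
  have key : ∀ s : ℝ, picX (mG (rG τ G)) (fun e => ξ (Sym2.map τ.symm e)) s e =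
      picX (mG G) ξ s (Sym2.map τ.symm e) := by
    intro s
    have := picX_comp (Sym2.map τ.symm) (m' := mG (rG τ G)) (m := mG G) (fun h => ?_) ξ s
    · exact congrFun this e
    · funext e
      exact mG_comap τ.symm G h e
  simp only [key]

theorem FF_sub (G : SimpleGraph ℕ) (ξ : Sym2 ℕ → ℝ) : FF G ξ ⊆ G.edgeSet := by
  intro e he
  by_contra hne
  have h0 : ∀ k : ℕ, picX (mG G) ξ k e = ξ e := by
    intro k
    rw [(drift_mG G).picX_eq ξ k (Nat.cast_nonneg k)]
    simp only [mG_of_notMem hne, intervalIntegral.integral_zero, add_zero]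
  simp only [FF, Set.mem_ofPred_eq, h0] at he
  obtain ⟨N, hN⟩ := eventually_atTop.1 he
  obtain ⟨k, hk⟩ := exists_nat_gt (2 * |ξ e|)
  have h1 := hN (max N k) (le_max_left _ _)
  have h2 : (k : ℝ) ≤ ((max N k : ℕ) : ℝ) := by exact_mod_cast le_max_right _ _
  have h3 := le_abs_self (ξ e)
  linarith

theorem FF_congr (G : SimpleGraph ℕ) (ξ ξ' : Sym2 ℕ → ℝ) (h : ∀ e ∈ G.edgeSet, ξ e = ξ' e) :
    FF G ξ = FF G ξ' := by
  have key : ∀ ξ ξ' : Sym2 ℕ → ℝ, (∀ e ∈ G.edgeSet, ξ e = ξ' e) → FF G ξ ⊆ FF G ξ' := by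
    intro ξ ξ' h e he
    have heG := FF_sub G ξ he
    simp only [FF, Set.mem_ofPred_eq] at he ⊢
    refine he.mono fun k hk => ?_
    have h1 := picX_congr (m := mG G) G.edgeSet
      (fun h h' hh => funext fun e => mG_congr hh) h (k : ℝ) (h e heG)
    rwa [h1] at hk
  exact Set.Subset.antisymm (key _ _ h) (key _ _ fun e he => (h e he).symm)

theorem FF_law (G : SimpleGraph ℕ) (hex : ∃ H : ℕ → G.Subgraph, IsExhaustion G H) :
    IsFUSF G (gam.map (FF G)) := by
  classical
  have hmeas : Measurable (FF G) := by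
    exact measurable_FF.comp (measurable_const.prodMk measurable_id)
  refine ⟨Measure.isProbabilityMeasure_map hmeas.aemeasurable, hex, fun H hH B A => ?_⟩
  have hfin := hH.fin
  have hcyl : MeasurableSet (cyl B A) := by
    have : cyl B A = ⋂ e ∈ B, {T : Set (Sym2 ℕ) | e ∈ T ↔ e ∈ A} := by
      ext T; simp [cyl]
    rw [this]
    refine Finset.measurableSet_biInter _ fun e _ => ?_
    by_cases heA : e ∈ A
    · simp only [heA, iff_true]
      exact measurable_mem.1 (measurable_set_iff.1 measurable_id e)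
    · simp only [heA, iff_false]
      exact (measurable_mem.1 (measurable_set_iff.1 measurable_id e)).compl
  have hconv : PDriftConv (fun n => mS (edgesOf (H n))) (mG G) := by
    intro hn h b hb hc e
    exact tendsto_mS (fun n => edgesOf (H n)) (fun n => edgesOf_subset (H n))
      (fun F hF => hH.eventually_subset F hF) hn b (fun n g _ => hb n g) (fun g _ => hc g) e
  have hX1 : ∀ s, 0 ≤ s → ∀ e, Measurable (fun ω : Sym2 ℕ → ℝ => picX (mG G) ω s e) :=
    fun s _ e => (drift_mG G).measurable_picX_init s e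
  have hX2 : ∀ s t, 0 ≤ s → s ≤ t → ∀ (ω : Sym2 ℕ → ℝ) (e : Sym2 ℕ),
      0 ≤ picX (mG G) ω t e - picX (mG G) ω s e ∧
        picX (mG G) ω t e - picX (mG G) ω s e ≤ t - s :=
    fun s t hs hst ω e => (drift_mG G).picX_incr ω hs hst e
  have hX3 : ∀ (n : ℕ) (s : ℝ), 0 ≤ s → ∀ e, Measurable
      (fun ω : Sym2 ℕ → ℝ => picX (mS (edgesOf (H n))) ω s e) :=
    fun n s _ e => (drift_mS _).measurable_picX_init s e
  have hX4 : ∀ s : ℝ, 0 ≤ s → ∀ (ω : Sym2 ℕ → ℝ) (e : Sym2 ℕ),
      Tendsto (fun n => picX (mS (edgesOf (H n))) ω s e) atTop (𝓝 (picX (mG G) ω s e)) :=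
    fun s _ ω e => tendsto_picX_of_conv (drift_mG G) (fun n => drift_mS _) hconv ω s e
  have hne : ∀ n, (trees (H n)).Nonempty := fun n => trees_nonempty _ (hfin n) (hH.conn n)
  have hmf : ∀ (n : ℕ) (h : Sym2 ℕ → ℝ) (e : Sym2 ℕ),
      mS (edgesOf (H n)) h e = mfun (trees (H n)) h e :=
    fun n h e => mS_eq_gibbs _ (hfin n) (hH.conn n) h e
  have hlaw := fun (n : ℕ) (s : ℝ) (hs : 0 ≤ s) (B : Finset (Sym2 ℕ)) (f : (B → ℝ) → ℝ)
      (hf : Continuous f) (hfb : ∃ C, ∀ z, |f z| ≤ C) =>
    law_bridge (drift_mS (edgesOf (H n))) (hne n) (trees_card (H n) (hfin n)).choose_spec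
      (trees_subset (H n)) (hmf n) hs B f hf hfb
  have h2 := round_law gam (fun ω e => ω e) (fun e => measurable_pi_apply e)
    (fun e => Measure.infinitePi_map_eval _ e)
    (fun s ω e => picX (mG G) ω s e) hX1 hX2 (fun n s ω e => picX (mS (edgesOf (H n))) ω s e)
    hX3 hX4 (fun n => trees (H n)) hne hlaw B A
  have h3 : (gam.map (FF G)).real (cyl B A) = gam.real {ω | ∀ e ∈ B,
      ((∀ᶠ k : ℕ in atTop, (k : ℝ) / 2 < picX (mG G) ω k e) ↔ e ∈ A)} := by
    rw [measureReal_def, Measure.map_apply hmeas hcyl, measureReal_def]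
    rfl
  rw [h3]
  refine h2.congr fun n => ?_
  rw [ustProb_cyl (H n) (hfin n) B A]
  congr 2
  refine congrArg Finset.card ?_
  ext T
  simp only [Finset.mem_filter]

/-- **The core theorem.** -/
theorem core : CoreStatement :=
  ⟨FF, measurable_FF, fun τ G ξ _ => FF_equi τ G ξ, FF_congr, fun G hG =>
    FF_law G (exists_exhaustion G hG.1)⟩

end P143
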