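import Mathlib

/-!
# Edge labels from vertex labels

`x v 0` is an order key of the vertex `v`, `x v (j+1)` are its spare labels.  The edge `{u,v}`
with `x u 0 < x v 0` receives the spare label of `u` whose index is the rank of `v` among the
neighbours of `u`.
-/

namespace P143
namespace Lab

open MeasureTheory ProbabilityTheory
open scoped ENNReal

variable {V : Type*}

open Classical in
/-- rank of `v` among the `G`-neighbours of `u` with respect to the key `L`. -/
noncomputable def rk (G : SimpleGraph V) (L : V → ℝ) (u v : V) : ℕ :=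
  ⌊(∑' w : V, (if G.Adj u w ∧ L w < L v then (1 : ℝ≥0∞) else 0)).toReal⌋₊

/-- label of the oriented edge `(u,v)`. -/
noncomputable def dirLab (G : SimpleGraph V) (x : V → ℕ → ℝ) (u v : V) : ℝ :=
  x u (rk G (fun w => x w 0) u v + 1)

/-- label of the unordered pair. -/
noncomputable def edgeLab (G : SimpleGraph V) (x : V → ℕ → ℝ) : Sym2 V → ℝ :=
  Sym2.lift ⟨fun a b => if x a 0 < x b 0 then dirLab G x a b
      else if x b 0 < x a 0 then dirLab G x b a else 0, by
    intro a b
    by_cases h1 : x a 0 < x b 0
    · simp [h1, not_lt.mpr h1.le]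
    · by_cases h2 : x b 0 < x a 0
      · simp [h2, not_lt.mpr h2.le]
      · simp [h1, h2]⟩

@[simp] lemma edgeLab_mk (G : SimpleGraph V) (x : V → ℕ → ℝ) (a b : V) :
    edgeLab G x s(a, b) = if x a 0 < x b 0 then dirLab G x a b
      else if x b 0 < x a 0 then dirLab G x b a else 0 := rfl

/-! ## The rank in the locally finite case -/

lemma rk_eq_ncard (G : SimpleGraph V) (L : V → ℝ) (u v : V) (hfin : (G.neighborSet u).Finite) :
    rk G L u v = {w | G.Adj u w ∧ L w < L v}.ncard := by
  classical
  have hsub : {w | G.Adj u w ∧ L w < L v} ⊆ G.neighborSet u := fun w hw => hw.1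
  have hf : {w | G.Adj u w ∧ L w < L v}.Finite := hfin.subset hsub
  have h1 : (∑' w : V, (if G.Adj u w ∧ L w < L v then (1 : ℝ≥0∞) else 0))
      = ((hf.toFinset.card : ℕ) : ℝ≥0∞) := by
    rw [tsum_eq_sum (s := hf.toFinset)]
    · rw [Finset.sum_congr rfl (g := fun _ => (1 : ℝ≥0∞))]
      · simp
      · intro w hw
        have : G.Adj u w ∧ L w < L v := by simpa using hw
        simp [this]
    · intro w hw
      have : ¬ (G.Adj u w ∧ L w < L v) := by simpa using hw
      simp only [this, if_false]
  unfold rk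
  have h2 : {w | G.Adj u w ∧ L w < L v}.ncard = hf.toFinset.card :=
    Set.ncard_eq_toFinset_card _ hf
  rw [h2]
  rw [show (∑' w : V, (if G.Adj u w ∧ L w < L v then (1 : ℝ≥0∞) else 0))
      = ((hf.toFinset.card : ℕ) : ℝ≥0∞) from h1]
  simp

lemma rk_lt (G : SimpleGraph V) (L : V → ℝ) (u v v' : V) (hfin : (G.neighborSet u).Finite)
    (hv : G.Adj u v) (h : L v < L v') : rk G L u v < rk G L u v' := by
  rw [rk_eq_ncard G L u v hfin, rk_eq_ncard G L u v' hfin]
  apply Set.ncard_lt_ncard
  · refine ⟨fun w hw => ⟨hw.1, hw.2.trans h⟩, fun hcon => ?_⟩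
    have := hcon (show v ∈ {w | G.Adj u w ∧ L w < L v'} from ⟨hv, h⟩)
    exact lt_irrefl _ this.2
  · exact hfin.subset fun w hw => hw.1

lemma rk_inj (G : SimpleGraph V) (L : V → ℝ) (hL : Function.Injective L) (u v v' : V)
    (hfin : (G.neighborSet u).Finite) (hv : G.Adj u v) (hv' : G.Adj u v')
    (h : rk G L u v = rk G L u v') : v = v' := by
  by_contra hne
  rcases lt_or_gt_of_ne (fun hh => hne (hL hh)) with h1 | h1
  · exact absurd h (rk_lt G L u v v' hfin hv h1).ne
  · exact absurd h (rk_lt G L u v' v hfin hv' h1).ne'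

/-! ## The coordinate selected by an edge -/

open Classical in
/-- The spare-label coordinate used by a pair. -/
noncomputable def sel (G : SimpleGraph V) (L : V → ℝ) : Sym2 V → V × ℕ :=
  Sym2.lift ⟨fun a b => if L a < L b then (a, rk G L a b)
      else if L b < L a then (b, rk G L b a)
      else if a = b then (a, 0) else (Classical.choice ⟨a⟩, 0), by
    intro a b
    by_cases h1 : L a < L b
    · simp [h1, not_lt.mpr h1.le]
    · by_cases h2 : L b < L a
      · simp [h2, not_lt.mpr h2.le]
      · by_cases h3 : a = b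
        · subst h3; simp
        · have h4 : ¬ b = a := fun h => h3 h.symm
          simp only [h1, h2, h3, h4, if_false]⟩

lemma sel_mk_lt (G : SimpleGraph V) (L : V → ℝ) (a b : V) (h : L a < L b) :
    sel G L s(a, b) = (a, rk G L a b) := by
  show (if L a < L b then _ else _) = _
  rw [if_pos h]

lemma exists_orient (L : V → ℝ) (hL : Function.Injective L) (G : SimpleGraph V)
    (e : Sym2 V) (he : e ∈ G.edgeSet) : ∃ a b, e = s(a, b) ∧ G.Adj a b ∧ L a < L b := by
  induction e using Sym2.ind with
  | _ a b =>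
    have hab : G.Adj a b := he
    rcases lt_or_gt_of_ne (fun hh => hab.ne (hL hh)) with h1 | h1
    · exact ⟨a, b, rfl, hab, h1⟩
    · exact ⟨b, a, Sym2.eq_swap, hab.symm, h1⟩

lemma sel_injOn (G : SimpleGraph V) (L : V → ℝ) (hL : Function.Injective L)
    (hfin : ∀ u, (G.neighborSet u).Finite) : Set.InjOn (sel G L) G.edgeSet := by
  intro e he e' he' h
  obtain ⟨a, b, rfl, hab, hlt⟩ := exists_orient L hL G e he
  obtain ⟨a', b', rfl, hab', hlt'⟩ := exists_orient L hL G e' he'
  rw [sel_mk_lt _ _ _ _ hlt, sel_mk_lt _ _ _ _ hlt', Prod.mk.injEq] at h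
  obtain ⟨rfl, h2⟩ := h
  rw [rk_inj G L hL a b b' (hfin a) hab hab' h2]

/-! ## Selecting coordinates of a product measure -/

section law
variable {ι κ X : Type*} [MeasurableSpace X]

lemma infinitePi_map_comp_injective (ν : Measure X) [IsProbabilityMeasure ν] (f : κ → ι)
    (hf : Function.Injective f) :
    (Measure.infinitePi (fun _ : ι => ν)).map (fun x k => x (f k))
      = Measure.infinitePi (fun _ : κ => ν) := by
  classical
  apply Measure.eq_infinitePi
  intro s t ht
  rw [Measure.map_apply (by fun_prop) (.pi s.countable_toSet fun _ _ => ht _)]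
  have hpre : (fun (x : ι → X) k => x (f k)) ⁻¹' ((s : Set κ).pi t)
      = ((s.image f : Finset ι) : Set ι).pi (fun i => if h : ∃ k, f k = i then t h.choose else Set.univ) := by
    ext x
    simp only [Set.mem_preimage, Set.mem_pi, Finset.coe_image, Set.mem_image, Finset.mem_coe,
      forall_exists_index, and_imp, forall_apply_eq_imp_iff₂]
    refine forall₂_congr fun k hk => ?_
    have h : ∃ k', f k' = f k := ⟨k, rfl⟩
    rw [dif_pos h, hf h.choose_spec]
  rw [hpre, Measure.infinitePi_pi]
  · rw [Finset.prod_image (fun a _ b _ h => hf h)]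
    refine Finset.prod_congr rfl fun k hk => ?_
    have h : ∃ k', f k' = f k := ⟨k, rfl⟩
    rw [dif_pos h, hf h.choose_spec]
  · intro i hi
    split_ifs with h
    · exact ht _
    · exact .univ

lemma infinitePi_map_sumElim (ν : Measure X) [IsProbabilityMeasure ν] :
    ((Measure.infinitePi (fun _ : ι => ν)).prod (Measure.infinitePi (fun _ : κ => ν))).map
      (fun p => (Sum.elim p.1 p.2 : ι ⊕ κ → X)) = Measure.infinitePi (fun _ : ι ⊕ κ => ν) := by
  classical
  have hmeas : Measurable (fun p : (ι → X) × (κ → X) => (Sum.elim p.1 p.2 : ι ⊕ κ → X)) := by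
    rw [measurable_pi_iff]
    rintro (i | k)
    · exact (measurable_pi_apply i).comp measurable_fst
    · exact (measurable_pi_apply k).comp measurable_snd
  apply Measure.eq_infinitePi
  intro s t ht
  rw [Measure.map_apply hmeas (.pi s.countable_toSet fun _ _ => ht _)]
  have hpre : (fun p : (ι → X) × (κ → X) => (Sum.elim p.1 p.2 : ι ⊕ κ → X)) ⁻¹' ((s : Set (ι ⊕ κ)).pi t)
      = ((s.toLeft : Set ι).pi (fun i => t (Sum.inl i))) ×ˢ
        ((s.toRight : Set κ).pi (fun k => t (Sum.inr k))) := by
    ext p
    simp only [Set.mem_preimage, Set.mem_pi, Finset.mem_coe, Set.mem_prod, Finset.mem_toLeft,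
      Finset.mem_toRight]
    constructor
    · intro h
      exact ⟨fun i hi => h (Sum.inl i) hi, fun k hk => h (Sum.inr k) hk⟩
    · rintro ⟨h1, h2⟩ (i | k) hi
      · exact h1 i hi
      · exact h2 k hi
  rw [hpre, Measure.prod_prod, Measure.infinitePi_pi _ (fun i _ => ht _),
    Measure.infinitePi_pi _ (fun i _ => ht _)]
  rw [← Finset.toLeft_disjSum_toRight (u := s), Finset.prod_disjSum]
  simp

lemma infinitePi_prod_curry (V : Type*) (ν : Measure X) [IsProbabilityMeasure ν] :
    ((Measure.infinitePi (fun _ : V => ν)).prod (Measure.infinitePi (fun _ : V × ℕ => ν))).map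
      (fun p => (fun v n => Nat.casesOn n (p.1 v) (fun j => p.2 (v, j)) : V → ℕ → X))
      = Measure.infinitePi (fun _ : V => Measure.infinitePi (fun _ : ℕ => ν)) := by
  let f : V × ℕ → V ⊕ (V × ℕ) := fun q => Nat.casesOn q.2 (Sum.inl q.1) (fun j => Sum.inr (q.1, j))
  have hf : Function.Injective f := by
    rintro ⟨v, n⟩ ⟨v', n'⟩ h
    cases n with
    | zero =>
      cases n' with
      | zero =>
        have h' : (Sum.inl v : V ⊕ (V × ℕ)) = Sum.inl v' := h
        rw [Sum.inl.inj h']
      | succ j' => simp [f] at h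
    | succ j =>
      cases n' with
      | zero => simp [f] at h
      | succ j' =>
        have h' : (Sum.inr (v, j) : V ⊕ (V × ℕ)) = Sum.inr (v', j') := h
        have h2 := Sum.inr.inj h'
        rw [Prod.mk.injEq] at h2
        rw [h2.1, h2.2]
  have hmeas : Measurable (fun p : (V → X) × (V × ℕ → X) =>
      (Sum.elim p.1 p.2 : V ⊕ (V × ℕ) → X)) := by
    rw [measurable_pi_iff]
    rintro (i | k)
    · exact (measurable_pi_apply i).comp measurable_fst
    · exact (measurable_pi_apply k).comp measurable_snd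
  have h1 := Measure.infinitePi_map_curry (ι := V) (κ := ℕ) (fun _ _ => ν)
  rw [← infinitePi_map_comp_injective ν f hf, ← infinitePi_map_sumElim ν,
    Measure.map_map (by fun_prop) hmeas,
    Measure.map_map (by fun_prop) (by fun_prop)] at h1
  rw [← h1]
  congr 1
  funext p v n
  cases n with
  | zero => rfl
  | succ j => rfl

end law

/-! ## Measurability -/

section meas
variable {Ω : Type*} [MeasurableSpace Ω] [Countable V]

lemma measurable_rk (G : Ω → SimpleGraph V) (hG : ∀ u v, MeasurableSet {ω | (G ω).Adj u v})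
    (L : Ω → V → ℝ) (hL : Measurable L) (u v : V) :
    Measurable (fun ω => rk (G ω) (L ω) u v) := by
  unfold rk
  refine Nat.measurable_floor.comp (ENNReal.measurable_toReal.comp ?_)
  refine Measurable.tsum fun w => ?_
  refine Measurable.ite ?_ measurable_const measurable_const
  refine (hG u w).inter ?_
  exact measurableSet_lt ((measurable_pi_apply w).comp hL) ((measurable_pi_apply v).comp hL)

lemma measurable_dirLab (G : Ω → SimpleGraph V) (hG : ∀ u v, MeasurableSet {ω | (G ω).Adj u v})
    (x : Ω → V → ℕ → ℝ) (hx : Measurable x) (u v : V) :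
    Measurable (fun ω => dirLab (G ω) (x ω) u v) := by
  have h1 : Measurable (fun p : (ℕ → ℝ) × ℕ => p.1 p.2) :=
    measurable_from_prod_countable_left fun n => measurable_pi_apply n
  have h2 : Measurable (fun ω => (x ω u, rk (G ω) (fun w => x ω w 0) u v + 1)) := by
    refine Measurable.prodMk ((measurable_pi_apply u).comp hx) ?_
    refine (measurable_rk G hG (fun ω w => x ω w 0) ?_ u v).add_const 1
    rw [measurable_pi_iff]
    intro w
    exact (measurable_pi_apply 0).comp ((measurable_pi_apply w).comp hx)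
  exact h1.comp h2

/-- joint measurability -/
theorem measurable_edgeLab_apply (G : Ω → SimpleGraph V)
    (hG : ∀ u v, MeasurableSet {ω | (G ω).Adj u v})
    (x : Ω → V → ℕ → ℝ) (hx : Measurable x) (e : Sym2 V) :
    Measurable (fun ω => edgeLab (G ω) (x ω) e) := by
  induction e using Sym2.ind with
  | _ a b =>
    simp only [edgeLab_mk]
    have ha : Measurable (fun ω => x ω a 0) :=
      (measurable_pi_apply 0).comp ((measurable_pi_apply a).comp hx)
    have hb : Measurable (fun ω => x ω b 0) :=
      (measurable_pi_apply 0).comp ((measurable_pi_apply b).comp hx)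
    refine Measurable.ite (measurableSet_lt ha hb) (measurable_dirLab G hG x hx a b) ?_
    exact Measurable.ite (measurableSet_lt hb ha) (measurable_dirLab G hG x hx b a) measurable_const

theorem measurable_edgeLab (G : Ω → SimpleGraph V)
    (hG : ∀ u v, MeasurableSet {ω | (G ω).Adj u v})
    (x : Ω → V → ℕ → ℝ) (hx : Measurable x) :
    Measurable (fun ω => edgeLab (G ω) (x ω)) :=
  measurable_pi_iff.mpr fun e => measurable_edgeLab_apply G hG x hx e

theorem measurable_edgeLab_fixed (G : SimpleGraph V) :
    Measurable (fun x : V → ℕ → ℝ => edgeLab G x) :=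
  measurable_edgeLab (fun _ => G) (fun _ _ => .const _) _ measurable_id

end meas

/-! ## Equivariance -/

section equiv
variable {W : Type*}

lemma rk_equiv (φ : V ≃ W) (G : SimpleGraph V) (G' : SimpleGraph W)
    (h : ∀ a b, G'.Adj (φ a) (φ b) ↔ G.Adj a b) (L : V → ℝ) (L' : W → ℝ)
    (hL : ∀ v, L' (φ v) = L v) (u v : V) : rk G' L' (φ u) (φ v) = rk G L u v := by
  classical
  unfold rk
  have h1 : (∑' w : W, (if G'.Adj (φ u) w ∧ L' w < L' (φ v) then (1 : ℝ≥0∞) else 0))
      = ∑' w : V, (if G.Adj u w ∧ L w < L v then (1 : ℝ≥0∞) else 0) := by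
    rw [← φ.tsum_eq]
    refine tsum_congr fun w => ?_
    simp only [h, hL]
  have h2 := congrArg (fun t : ℝ≥0∞ => ⌊t.toReal⌋₊) h1
  convert! h2

lemma dirLab_equiv (φ : V ≃ W) (G : SimpleGraph V) (G' : SimpleGraph W)
    (h : ∀ a b, G'.Adj (φ a) (φ b) ↔ G.Adj a b) (x : V → ℕ → ℝ) (x' : W → ℕ → ℝ)
    (hx : ∀ v, x' (φ v) = x v) (u v : V) :
    dirLab G' x' (φ u) (φ v) = dirLab G x u v := by
  unfold dirLab
  rw [hx, rk_equiv φ G G' h (fun w => x w 0) (fun w => x' w 0) (fun v => by rw [hx])]

/-- equivariance under relabelling of the vertices -/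
theorem edgeLab_equiv (φ : V ≃ W) (G : SimpleGraph V) (G' : SimpleGraph W)
    (h : ∀ a b, G'.Adj (φ a) (φ b) ↔ G.Adj a b) (x : V → ℕ → ℝ) (x' : W → ℕ → ℝ)
    (hx : ∀ v, x' (φ v) = x v) (e : Sym2 V) :
    edgeLab G' x' (e.map φ) = edgeLab G x e := by
  induction e using Sym2.ind with
  | _ a b =>
    rw [Sym2.map_mk, edgeLab_mk, edgeLab_mk, dirLab_equiv φ G G' h x x' hx,
      dirLab_equiv φ G G' h x x' hx, hx, hx]

end equiv

/-! ## The law -/

lemma edgeLab_eq_sel (G : SimpleGraph V) (x : V → ℕ → ℝ)
    (hL : Function.Injective (fun v => x v 0)) (e : Sym2 V) (he : e ∈ G.edgeSet) :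
    edgeLab G x e = x (sel G (fun v => x v 0) e).1 ((sel G (fun v => x v 0) e).2 + 1) := by
  obtain ⟨a, b, rfl, hab, hlt⟩ := exists_orient (fun v => x v 0) hL G e he
  rw [edgeLab_mk, if_pos hlt, sel_mk_lt _ _ _ _ hlt]
  rfl

lemma ae_injective [Countable V] (ν : Measure ℝ) [IsProbabilityMeasure ν] [NullSingletonClass ν] :
    ∀ᵐ L ∂(Measure.infinitePi (fun _ : V => ν)), Function.Injective L := by
  have h1 : ∀ a b : V, a ≠ b → ∀ᵐ L ∂(Measure.infinitePi (fun _ : V => ν)), L a ≠ L b := by
    intro a b hab
    let f : Unit ⊕ Unit → V := Sum.elim (fun _ => a) (fun _ => b)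
    have hf : Function.Injective f := by
      rintro (i | i) (j | j) h
      · rfl
      · exact absurd h hab
      · exact absurd h hab.symm
      · rfl
    have h2 : (Measure.infinitePi (fun _ : V => ν)).map (fun L => (L a, L b)) = ν.prod ν := by
      have h3 := infinitePi_map_comp_injective ν f hf
      have h4 := infinitePi_map_sumElim (ι := Unit) (κ := Unit) ν
      have hmeas : Measurable (fun p : (Unit → ℝ) × (Unit → ℝ) =>
          (Sum.elim p.1 p.2 : Unit ⊕ Unit → ℝ)) := by
        rw [measurable_pi_iff]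
        rintro (i | k)
        · exact (measurable_pi_apply i).comp measurable_fst
        · exact (measurable_pi_apply k).comp measurable_snd
      have hm2 : Measurable (fun y : Unit ⊕ Unit → ℝ => (y (Sum.inl ()), y (Sum.inr ()))) := by
        fun_prop
      have h5 := congrArg (Measure.map (fun y : Unit ⊕ Unit → ℝ => (y (Sum.inl ()), y (Sum.inr ()))))
        (h3.trans h4.symm)
      rw [Measure.map_map hm2 (by fun_prop), Measure.map_map hm2 hmeas] at h5
      have h6 : (Measure.infinitePi (fun _ : V => ν)).map (fun L => (L a, L b))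
          = ((Measure.infinitePi (fun _ : Unit => ν)).prod
              (Measure.infinitePi (fun _ : Unit => ν))).map
              (Prod.map (fun y => y ()) (fun y => y ())) := h5
      rw [h6, ← Measure.map_prod_map _ _ (by fun_prop) (by fun_prop),
        Measure.infinitePi_map_eval]
    have hd : MeasurableSet {p : ℝ × ℝ | p.1 = p.2} :=
      measurableSet_eq_fun measurable_fst measurable_snd
    have h7 : (ν.prod ν) {p : ℝ × ℝ | p.1 = p.2} = 0 := by
      rw [Measure.measure_prod_null hd]
      refine Filter.Eventually.of_forall fun y => ?_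
      have h8 : Prod.mk y ⁻¹' {p : ℝ × ℝ | p.1 = p.2} = {y} := by
        ext z; simp [eq_comm]
      show ν (Prod.mk y ⁻¹' {p : ℝ × ℝ | p.1 = p.2}) = 0
      rw [h8]
      simp
    rw [← h2, Measure.map_apply (by fun_prop) hd] at h7
    rw [ae_iff]
    simpa using h7
  have h8 : ∀ᵐ L ∂(Measure.infinitePi (fun _ : V => ν)), ∀ a b : V, a ≠ b → L a ≠ L b := by
    rw [ae_all_iff]; intro a
    rw [ae_all_iff]; intro b
    by_cases hab : a = b
    · exact Filter.Eventually.of_forall fun L h => absurd hab h
    · filter_upwards [h1 a b hab] with L hL _ using hL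
  filter_upwards [h8] with L hL a b hab
  by_contra hne
  exact hL a b hne hab

/-- (F1) the labels of the edges are iid. -/
theorem map_edgeLab [Countable V] (G : SimpleGraph V) (hfin : ∀ u, (G.neighborSet u).Finite)
    (ν : Measure ℝ) [IsProbabilityMeasure ν] [NullSingletonClass ν] :
    (Measure.infinitePi (fun _ : V => Measure.infinitePi (fun _ : ℕ => ν))).map
      (fun x (e : G.edgeSet) => edgeLab G x e) = Measure.infinitePi (fun _ : G.edgeSet => ν) := by
  have hm1 : Measurable (fun (x : V → ℕ → ℝ) (e : G.edgeSet) => edgeLab G x e) :=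
    measurable_pi_iff.mpr fun e =>
      measurable_edgeLab_apply (fun _ => G) (fun _ _ => .const _) _ measurable_id _
  have hm2 : Measurable (fun p : (V → ℝ) × (V × ℕ → ℝ) =>
      (fun v n => Nat.casesOn n (p.1 v) (fun j => p.2 (v, j)) : V → ℕ → ℝ)) := by
    rw [measurable_pi_iff]; intro v
    rw [measurable_pi_iff]; intro n
    cases n with
    | zero => exact (measurable_pi_apply v).comp measurable_fst
    | succ j => exact (measurable_pi_apply (v, j)).comp measurable_snd
  rw [← infinitePi_prod_curry V ν, Measure.map_map hm1 hm2]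
  ext A hA
  rw [Measure.map_apply (hm1.comp hm2) hA, Measure.prod_apply ((hm1.comp hm2) hA)]
  have h1 : ∀ᵐ L ∂(Measure.infinitePi (fun _ : V => ν)),
      (Measure.infinitePi (fun _ : V × ℕ => ν)) (Prod.mk L ⁻¹'
        (((fun (x : V → ℕ → ℝ) (e : G.edgeSet) => edgeLab G x e) ∘
          (fun p : (V → ℝ) × (V × ℕ → ℝ) =>
      (fun v n => Nat.casesOn n (p.1 v) (fun j => p.2 (v, j)) : V → ℕ → ℝ))) ⁻¹' A))
      = Measure.infinitePi (fun _ : G.edgeSet => ν) A := by
    filter_upwards [ae_injective (V := V) ν] with L hL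
    have h2 : Function.Injective (fun e : G.edgeSet => sel G L e) := by
      intro e e' h
      exact Subtype.ext (sel_injOn G L hL hfin e.2 e'.2 h)
    rw [← infinitePi_map_comp_injective ν _ h2, Measure.map_apply (by fun_prop) hA]
    congr 1
    ext g
    simp only [Set.mem_preimage, Function.comp_apply]
    have h3 : (fun e : G.edgeSet => edgeLab G
        (fun v n => Nat.casesOn n (L v) (fun j => g (v, j)) : V → ℕ → ℝ) e)
        = fun e : G.edgeSet => g (sel G L e) := by
      funext e
      exact edgeLab_eq_sel G _ hL e e.2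
    rw [h3]
  rw [lintegral_congr_ae h1]
  simp

/-- (F1b) a functional of pair labels which only looks at the edges has the same law under
`edgeLab` as under iid pair labels. -/
theorem map_comp_edgeLab [Countable V] {α : Type*} [MeasurableSpace α] (G : SimpleGraph V)
    (hfin : ∀ u, (G.neighborSet u).Finite)
    (ν : Measure ℝ) [IsProbabilityMeasure ν] [NullSingletonClass ν] (F : (Sym2 V → ℝ) → α)
    (hF : Measurable F)
    (hloc : ∀ ξ ξ' : Sym2 V → ℝ, (∀ e ∈ G.edgeSet, ξ e = ξ' e) → F ξ = F ξ') :
    (Measure.infinitePi (fun _ : V => Measure.infinitePi (fun _ : ℕ => ν))).map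
      (fun x => F (edgeLab G x)) = (Measure.infinitePi (fun _ : Sym2 V => ν)).map F := by
  classical
  let ext0 : (G.edgeSet → ℝ) → (Sym2 V → ℝ) :=
    fun y e => if h : e ∈ G.edgeSet then y ⟨e, h⟩ else 0
  have hext : Measurable ext0 := by
    rw [measurable_pi_iff]; intro e
    by_cases h : e ∈ G.edgeSet
    · simp only [ext0, h, dif_pos]; exact measurable_pi_apply _
    · simp only [ext0, h, dif_neg, not_false_eq_true]; exact measurable_const
  have hm1 : Measurable (fun (x : V → ℕ → ℝ) (e : G.edgeSet) => edgeLab G x e) :=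
    measurable_pi_iff.mpr fun e =>
      measurable_edgeLab_apply (fun _ => G) (fun _ _ => .const _) _ measurable_id _
  have h1 : (fun x : V → ℕ → ℝ => F (edgeLab G x))
      = (F ∘ ext0) ∘ (fun (x : V → ℕ → ℝ) (e : G.edgeSet) => edgeLab G x e) := by
    funext x
    refine hloc _ _ fun e he => ?_
    simp only [ext0, he, dif_pos]
  have h2 : F = (F ∘ ext0) ∘ (fun (ξ : Sym2 V → ℝ) (e : G.edgeSet) => ξ e) := by
    funext ξ
    refine hloc _ _ fun e he => ?_
    simp only [ext0, he, dif_pos]
  rw [h1, ← Measure.map_map (hF.comp hext) hm1, map_edgeLab G hfin ν]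
  conv_rhs => rw [h2]
  rw [← Measure.map_map (hF.comp hext) (by fun_prop),
    infinitePi_map_comp_injective ν (fun e : G.edgeSet => (e : Sym2 V)) Subtype.val_injective]

/-! ## Version with one uniform label per vertex -/

/-- edge labels obtained from one `[0,1]`-label per vertex through `ψ : [0,1] → ℝ^ℕ`. -/
noncomputable def uLab (ψ : unitInterval → ℕ → ℝ) (G : SimpleGraph V) (U : V → unitInterval) :
    Sym2 V → ℝ := edgeLab G (fun v => ψ (U v))

/-- law (version for uniform vertex labels) -/
theorem map_comp_uLab [Countable V] {α : Type*} [MeasurableSpace α] (G : SimpleGraph V)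
    (hfin : ∀ u, (G.neighborSet u).Finite)
    (ν : Measure ℝ) [IsProbabilityMeasure ν] [NullSingletonClass ν]
    (ψ : unitInterval → ℕ → ℝ) (hψ : Measurable ψ)
    (hlaw : (volume : Measure unitInterval).map ψ = Measure.infinitePi (fun _ : ℕ => ν))
    (F : (Sym2 V → ℝ) → α) (hF : Measurable F)
    (hloc : ∀ ξ ξ' : Sym2 V → ℝ, (∀ e ∈ G.edgeSet, ξ e = ξ' e) → F ξ = F ξ') :
    (Measure.infinitePi (fun _ : V => (volume : Measure unitInterval))).map
      (fun U => F (uLab ψ G U)) = (Measure.infinitePi (fun _ : Sym2 V => ν)).map F := by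
  rw [← map_comp_edgeLab G hfin ν F hF hloc]
  have h1 := Measure.infinitePi_map_pi (fun _ : V => (volume : Measure unitInterval))
    (f := fun _ => ψ) (fun _ => hψ)
  simp only [hlaw] at h1
  rw [← h1]
  have h2 : Measurable (fun x : V → ℕ → ℝ => F (edgeLab G x)) :=
    hF.comp (measurable_edgeLab_fixed G)
  have h3 : Measurable (fun (U : V → unitInterval) (v : V) => ψ (U v)) := by
    rw [measurable_pi_iff]
    intro v
    exact hψ.comp (measurable_pi_apply v)
  exact (Measure.map_map h2 h3).symm

/-- measurability, jointly with the graph (version for uniform vertex labels) -/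
theorem measurable_uLab [Countable V] {Ω : Type*} [MeasurableSpace Ω]
    (ψ : unitInterval → ℕ → ℝ) (hψ : Measurable ψ) (G : Ω → SimpleGraph V)
    (hG : ∀ u v, MeasurableSet {ω | (G ω).Adj u v})
    (U : Ω → V → unitInterval) (hU : Measurable U) :
    Measurable (fun ω => uLab ψ (G ω) (U ω)) := by
  refine measurable_edgeLab G hG (fun ω v => ψ (U ω v)) ?_
  rw [measurable_pi_iff]
  intro v
  exact hψ.comp ((measurable_pi_apply v).comp hU)

/-- equivariance (version for uniform vertex labels) -/
theorem uLab_equiv {W : Type*} (ψ : unitInterval → ℕ → ℝ) (φ : V ≃ W) (G : SimpleGraph V)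
    (G' : SimpleGraph W) (h : ∀ a b, G'.Adj (φ a) (φ b) ↔ G.Adj a b) (U : V → unitInterval)
    (U' : W → unitInterval) (hU : ∀ v, U' (φ v) = U v) (e : Sym2 V) :
    uLab ψ G' U' (e.map φ) = uLab ψ G U e :=
  edgeLab_equiv φ G G' h _ _ (fun v => by rw [hU]) e

/-- existence of `ψ` for the Gaussian law -/
theorem exists_psi_gaussian : ∃ ψ : unitInterval → (ℕ → ℝ), Measurable ψ ∧
    (volume : Measure unitInterval).map ψ
      = Measure.infinitePi fun _ : ℕ => gaussianReal 0 1 :=
  MeasureTheory.Measure.exists_measurable_map_eq _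

instance nullSingleton_gaussian : NullSingletonClass (gaussianReal 0 1) :=
  ProbabilityTheory.nullSingletonClass_gaussianReal one_ne_zero

end Lab
end P143
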