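import Mathlib

/-! Independent Gaussian labels on the edges from independent labels on the vertices. -/

open MeasureTheory ProbabilityTheory Set

namespace P143.H1

variable {V : Type*}

/-- Rank of `v` among the neighbours of `u` for the vertex labels `L`. -/
noncomputable def rk (G : SimpleGraph V) (L : V → ℝ) (u v : V) : ℕ :=
  {w | G.Adj u w ∧ L w < L v}.ncard

/-- The label of the pair `u, v` from the array `x`. -/
noncomputable def lab (G : SimpleGraph V) (x : V × ℕ → ℝ) (u v : V) : ℝ := by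
  classical
  exact if x (u, 0) < x (v, 0) then x (u, rk G (fun w => x (w, 0)) u v + 1)
    else if x (v, 0) < x (u, 0) then x (v, rk G (fun w => x (w, 0)) v u + 1) else 0

theorem lab_symm (G : SimpleGraph V) (x : V × ℕ → ℝ) (u v : V) : lab G x u v = lab G x v u := by
  unfold lab
  rcases lt_trichotomy (x (u, 0)) (x (v, 0)) with h | h | h
  · rw [if_pos h, if_neg (not_lt.2 h.le), if_pos h]
  · rw [if_neg (not_lt.2 h.ge), if_neg (not_lt.2 h.le), if_neg (not_lt.2 h.le),
      if_neg (not_lt.2 h.ge)]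
  · rw [if_neg (not_lt.2 h.le), if_pos h, if_pos h]

/-- The label of an unordered pair. -/
noncomputable def labE (G : SimpleGraph V) (x : V × ℕ → ℝ) (e : Sym2 V) : ℝ :=
  Sym2.lift ⟨lab G x, lab_symm G x⟩ e

theorem labE_mk (G : SimpleGraph V) (x : V × ℕ → ℝ) (u v : V) :
    labE G x s(u, v) = lab G x u v := rfl

/-! ### Equivariance -/

theorem rk_equiv {W : Type*} (φ : V ≃ W) (G : SimpleGraph V) (H : SimpleGraph W)
    (h : ∀ a b, H.Adj (φ a) (φ b) ↔ G.Adj a b) (L : W → ℝ) (u v : V) :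
    rk G (fun w => L (φ w)) u v = rk H L (φ u) (φ v) := by
  unfold rk
  have : {w | H.Adj (φ u) w ∧ L w < L (φ v)} = φ '' {w | G.Adj u w ∧ L (φ w) < L (φ v)} := by
    ext w
    constructor
    · rintro ⟨h1, h2⟩
      refine ⟨φ.symm w, ⟨?_, ?_⟩, by simp⟩
      · rw [← h]; simpa using h1
      · simpa using h2
    · rintro ⟨w, ⟨h1, h2⟩, rfl⟩
      exact ⟨(h _ _).2 h1, h2⟩
  rw [this, Set.ncard_image_of_injective _ φ.injective]

theorem lab_equiv {W : Type*} (φ : V ≃ W) (G : SimpleGraph V) (H : SimpleGraph W)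
    (h : ∀ a b, H.Adj (φ a) (φ b) ↔ G.Adj a b) (x : W × ℕ → ℝ) (u v : V) :
    lab G (fun p => x (φ p.1, p.2)) u v = lab H x (φ u) (φ v) := by
  unfold lab
  have r1 := rk_equiv φ G H h (fun w => x (w, 0)) u v
  have r2 := rk_equiv φ G H h (fun w => x (w, 0)) v u
  simp only [r1, r2]

theorem labE_equiv {W : Type*} (φ : V ≃ W) (G : SimpleGraph V) (H : SimpleGraph W)
    (h : ∀ a b, H.Adj (φ a) (φ b) ↔ G.Adj a b) (x : W × ℕ → ℝ) (e : Sym2 V) :
    labE G (fun p => x (φ p.1, p.2)) e = labE H x (Sym2.map φ e) := by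
  induction e using Sym2.ind with
  | _ u v => exact lab_equiv φ G H h x u v

/-! ### The law -/

/-- The array of labels made of the zeroth row `L` and the rest `g`. -/
def arr (p : (V → ℝ) × (V × ℕ → ℝ)) : V × ℕ → ℝ := fun q =>
  match q.2 with
  | 0 => p.1 q.1
  | (k + 1) => p.2 (q.1, k)

theorem arr_zero (p : (V → ℝ) × (V × ℕ → ℝ)) (v : V) : arr p (v, 0) = p.1 v := rfl

theorem arr_succ (p : (V → ℝ) × (V × ℕ → ℝ)) (v : V) (k : ℕ) : arr p (v, k + 1) = p.2 (v, k) := rfl

theorem measurable_arr : Measurable (arr : (V → ℝ) × (V × ℕ → ℝ) → V × ℕ → ℝ) := by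
  rw [measurable_pi_iff]
  rintro ⟨v, k⟩
  cases k with
  | zero => exact (measurable_pi_apply v).comp measurable_fst
  | succ k => exact (measurable_pi_apply (v, k)).comp measurable_snd

/-- The index of the entry used by the edge `s(u, v)`. -/
theorem exists_index (G : SimpleGraph V) (hG : ∀ v, (G.neighborSet v).Finite) (L : V → ℝ)
    (hL : Function.Injective L) :
    ∃ ι : G.edgeSet → V × ℕ, Function.Injective ι ∧
      ∀ (g : V × ℕ → ℝ) (e : G.edgeSet), labE G (arr (L, g)) e = g (ι e) := by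
  have hex : ∀ e : G.edgeSet, ∃ u v : V, (e : Sym2 V) = s(u, v) ∧ L u < L v ∧ G.Adj u v := by
    rintro ⟨e, he⟩
    induction e using Sym2.ind with
    | _ a b =>
      have hab : G.Adj a b := he
      have hne : L a ≠ L b := fun h => hab.ne (hL h)
      rcases lt_or_gt_of_ne hne with h | h
      · exact ⟨a, b, rfl, h, hab⟩
      · exact ⟨b, a, Sym2.eq_swap, h, hab.symm⟩
  choose U W hUW hlt hadj using hex
  refine ⟨fun e => (U e, rk G L (U e) (W e)), ?_, ?_⟩
  · intro e e' h
    have h1 : U e = U e' := congrArg Prod.fst h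
    have h2 : rk G L (U e) (W e) = rk G L (U e') (W e') := congrArg Prod.snd h
    rw [← h1] at h2
    have hmono : ∀ v v' : V, G.Adj (U e) v → L v < L v' → rk G L (U e) v < rk G L (U e) v' := by
      intro v v' hv hvv
      have hsub : {w | G.Adj (U e) w ∧ L w < L v} ⊆ {w | G.Adj (U e) w ∧ L w < L v'} :=
        fun w hw => ⟨hw.1, hw.2.trans hvv⟩
      apply Set.ncard_lt_ncard
      · rw [Set.ssubset_iff_of_subset hsub]
        exact ⟨v, ⟨hv, hvv⟩, fun hw => lt_irrefl _ hw.2⟩
      · exact (hG (U e)).subset fun w hw => hw.1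
    have h3 : L (W e) = L (W e') := by
      rcases lt_trichotomy (L (W e)) (L (W e')) with h | h | h
      · exact absurd h2 (hmono _ _ (hadj e) h).ne
      · exact h
      · exact absurd h2 (hmono _ _ (h1 ▸ hadj e') h).ne'
    apply Subtype.ext
    rw [hUW e, hUW e', h1, hL h3]
  · intro g e
    rw [hUW e, labE_mk]
    unfold lab
    have h0 : arr (L, g) (U e, 0) < arr (L, g) (W e, 0) := hlt e
    rw [if_pos h0, arr_succ]
    rfl

end P143.H1
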