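import Mathlib

/-!
# P143, module B: the finite-dimensional law of the drift flow
-/

namespace P143

open MeasureTheory ProbabilityTheory Finset Real

section CM

variable {E : Type*} [Fintype E]

/-- one-dimensional Cameron-Martin -/
theorem gaussian_shift_one (a : ℝ) :
    gaussianReal a 1 = (gaussianReal 0 1).withDensity
      (fun x => ENNReal.ofReal (exp (a * x - a ^ 2 / 2))) := by
  rw [gaussianReal_of_var_ne_zero _ one_ne_zero, gaussianReal_of_var_ne_zero _ one_ne_zero,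
    ← withDensity_mul _ (measurable_gaussianPDF _ _) (by fun_prop)]
  congr 1
  funext x
  simp only [Pi.mul_apply, gaussianPDF, gaussianPDFReal]
  rw [← ENNReal.ofReal_mul (by positivity)]
  congr 1
  rw [mul_assoc _ (rexp _) (rexp _), ← exp_add]
  congr 2
  simp only [NNReal.coe_one]
  ring

/-- finite-dimensional Cameron-Martin -/
theorem gaussian_shift (a : E → ℝ) :
    (Measure.pi (fun _ : E => gaussianReal 0 1)).map (fun x => x + a) =
      (Measure.pi (fun _ : E => gaussianReal 0 1)).withDensity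
        (fun x => ENNReal.ofReal (exp (∑ e, (a e * x e - a e ^ 2 / 2)))) := by
  have h1 : (Measure.pi (fun _ : E => gaussianReal 0 1)).map (fun x => x + a) =
      Measure.pi (fun e : E => gaussianReal (a e) 1) := by
    have := Measure.pi_map_pi (μ := fun _ : E => gaussianReal 0 1)
      (f := fun e x => x + a e) (fun e => by fun_prop)
    simp only [gaussianReal_map_add_const, zero_add] at this
    exact this
  rw [h1]
  apply Measure.pi_eq
  intro s hs
  rw [withDensity_apply _ (MeasurableSet.univ_pi hs), ← lintegral_indicator (MeasurableSet.univ_pi hs)]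
  have h2 : ∀ x : E → ℝ, (Set.univ.pi s).indicator
      (fun x => ENNReal.ofReal (exp (∑ e, (a e * x e - a e ^ 2 / 2)))) x =
      ∏ e, (s e).indicator (fun y => ENNReal.ofReal (exp (a e * y - a e ^ 2 / 2))) (x e) := by
    intro x
    by_cases hx : x ∈ Set.univ.pi s
    · rw [Set.indicator_of_mem hx, exp_sum, ENNReal.ofReal_prod_of_nonneg (fun _ _ => (exp_pos _).le)]
      apply Finset.prod_congr rfl
      intro e _
      rw [Set.indicator_of_mem (hx e trivial)]
    · rw [Set.indicator_of_notMem hx]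
      simp only [Set.mem_pi, Set.mem_univ, forall_const, not_forall] at hx
      obtain ⟨e, he⟩ := hx
      symm
      apply Finset.prod_eq_zero (Finset.mem_univ e)
      rw [Set.indicator_of_notMem he]
  rw [lintegral_congr h2]
  have hm : ∀ e, Measurable ((s e).indicator
      (fun y => ENNReal.ofReal (exp (a e * y - a e ^ 2 / 2)))) := by
    intro e
    apply Measurable.indicator _ (hs e)
    fun_prop
  rw [lintegral_prod_eq_prod_lintegral_of_indepFun Finset.univ
    (fun e (x : E → ℝ) => (s e).indicator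
      (fun y => ENNReal.ofReal (exp (a e * y - a e ^ 2 / 2))) (x e))
    (iIndepFun_pi (μ := fun _ : E => gaussianReal 0 1) (fun e => (hm e).aemeasurable))
    (fun e => (hm e).comp (measurable_pi_apply e))]
  apply Finset.prod_congr rfl
  intro e _
  rw [gaussian_shift_one (a e), withDensity_apply _ (hs e), ← lintegral_indicator (hs e)]
  exact (measurePreserving_eval (fun _ : E => gaussianReal 0 1) e).lintegral_comp (hm e)

/-- Cameron-Martin for integrals. -/
theorem integral_shift (a : E → ℝ) (g : (E → ℝ) → ℝ) :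
    ∫ x, g (x + a) ∂(Measure.pi (fun _ : E => gaussianReal 0 1)) =
      ∫ x, exp (∑ e, (a e * x e - a e ^ 2 / 2)) * g x
        ∂(Measure.pi (fun _ : E => gaussianReal 0 1)) := by
  have h1 : ∫ x, g (x + a) ∂(Measure.pi (fun _ : E => gaussianReal 0 1)) =
      ∫ x, g x ∂((Measure.pi (fun _ : E => gaussianReal 0 1)).map (fun x => x + a)) := by
    exact ((MeasurableEquiv.addRight a).measurableEmbedding.integral_map g).symm
  rw [h1, gaussian_shift, integral_withDensity_eq_integral_toReal_smul]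
  · apply integral_congr_ae
    filter_upwards with x
    rw [ENNReal.toReal_ofReal (exp_pos _).le, smul_eq_mul]
  · fun_prop
  · filter_upwards with x
    exact ENNReal.ofReal_lt_top

/-- Cameron-Martin, integrability. -/
theorem integrable_shift (a : E → ℝ) (g : (E → ℝ) → ℝ)
    (hg : Integrable (fun x => g (x + a)) (Measure.pi (fun _ : E => gaussianReal 0 1))) :
    Integrable (fun x => exp (∑ e, (a e * x e - a e ^ 2 / 2)) * g x)
        (Measure.pi (fun _ : E => gaussianReal 0 1)) := by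
  have h1 : Integrable g ((Measure.pi (fun _ : E => gaussianReal 0 1)).map (fun x => x + a)) := by
    exact ((MeasurableEquiv.addRight a).measurableEmbedding.integrable_map_iff).mpr hg
  rw [gaussian_shift, integrable_withDensity_iff_integrable_smul'] at h1
  · refine h1.congr ?_
    filter_upwards with x
    rw [ENNReal.toReal_ofReal (exp_pos _).le, smul_eq_mul]
  · fun_prop
  · filter_upwards with x
    exact ENNReal.ofReal_lt_top

end CM

section Law

variable {E ι : Type*} [Fintype E]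

/-- inner product -/
noncomputable def ip (a x : E → ℝ) : ℝ := ∑ e, a e * x e

/-- partition function -/
noncomputable def Zf (S : Finset ι) (a : ι → E → ℝ) (s : ℝ) (x : E → ℝ) : ℝ :=
  ∑ i ∈ S, exp (s * ip (a i) x)

/-- posterior probabilities -/
noncomputable def pif (S : Finset ι) (a : ι → E → ℝ) (s : ℝ) (x : E → ℝ) (i : ι) : ℝ :=
  exp (s * ip (a i) x) / Zf S a s x

/-- the drift -/
noncomputable def vf (S : Finset ι) (a : ι → E → ℝ) (s : ℝ) (x : E → ℝ) (e : E) : ℝ :=
  ∑ i ∈ S, pif S a s x i * a i e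

/-- the resampling operator -/
noncomputable def Pop (S : Finset ι) (a : ι → E → ℝ) (s d : ℝ) (f : (E → ℝ) → ℝ)
    (x : E → ℝ) : ℝ :=
  ∑ i ∈ S, pif S a s x i * f (x + d • a i)

/-- iterated resampling -/
noncomputable def Ex (S : Finset ι) (a : ι → E → ℝ) (d : ℝ) :
    ℕ → ((E → ℝ) → ℝ) → (E → ℝ) → ℝ
  | 0, f => f
  | k + 1, f => Ex S a d k (Pop S a (k * d) d f)

variable {S : Finset ι} {a : ι → E → ℝ}

theorem Zf_pos (hS : S.Nonempty) (s : ℝ) (x : E → ℝ) : 0 < Zf S a s x :=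
  Finset.sum_pos (fun _ _ => exp_pos _) hS

theorem pif_nonneg (hS : S.Nonempty) (s : ℝ) (x : E → ℝ) (i : ι) : 0 ≤ pif S a s x i :=
  div_nonneg (exp_pos _).le (Zf_pos hS s x).le

theorem sum_pif (hS : S.Nonempty) (s : ℝ) (x : E → ℝ) : ∑ i ∈ S, pif S a s x i = 1 := by
  simp only [pif]
  rw [← Finset.sum_div]
  exact div_self (Zf_pos hS s x).ne'

theorem pif_le_one (hS : S.Nonempty) (s : ℝ) (x : E → ℝ) {i : ι} (hi : i ∈ S) :
    pif S a s x i ≤ 1 := by
  rw [← sum_pif (a := a) hS s x]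
  exact Finset.single_le_sum (f := fun i => pif S a s x i) (fun j _ => pif_nonneg hS s x j) hi

theorem continuous_ip (b : E → ℝ) : Continuous (ip b) := by
  unfold ip
  fun_prop

theorem continuous_Zf (s : ℝ) : Continuous (Zf S a s) := by
  unfold Zf
  exact continuous_finsetSum _ fun i _ => (continuous_const.mul (continuous_ip _)).rexp

theorem continuous_pif (hS : S.Nonempty) (s : ℝ) (i : ι) :
    Continuous (fun x => pif S a s x i) := by
  unfold pif
  exact (continuous_const.mul (continuous_ip _)).rexp.div (continuous_Zf s)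
    (fun x => (Zf_pos hS s x).ne')

theorem continuous_Pop (hS : S.Nonempty) (s d : ℝ) {f : (E → ℝ) → ℝ} (hf : Continuous f) :
    Continuous (Pop S a s d f) := by
  unfold Pop
  exact continuous_finsetSum _ fun i _ => (continuous_pif hS s i).mul
    (hf.comp (continuous_id.add continuous_const))

theorem Pop_bound (hS : S.Nonempty) (s d : ℝ) {f : (E → ℝ) → ℝ} {M : ℝ} (hf : ∀ x, |f x| ≤ M)
    (x : E → ℝ) : |Pop S a s d f x| ≤ M := by
  unfold Pop
  calc |∑ i ∈ S, pif S a s x i * f (x + d • a i)|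
      ≤ ∑ i ∈ S, |pif S a s x i * f (x + d • a i)| := Finset.abs_sum_le_sum_abs _ _
    _ ≤ ∑ i ∈ S, pif S a s x i * M := by
        apply Finset.sum_le_sum
        intro i _
        rw [abs_mul, abs_of_nonneg (pif_nonneg hS s x i)]
        exact mul_le_mul_of_nonneg_left (hf _) (pif_nonneg hS s x i)
    _ = M := by rw [← Finset.sum_mul, sum_pif hS, one_mul]

theorem Pop_mono (hS : S.Nonempty) (s d : ℝ) {f g : (E → ℝ) → ℝ} (hfg : ∀ x, f x ≤ g x)
    (x : E → ℝ) : Pop S a s d f x ≤ Pop S a s d g x := by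
  unfold Pop
  apply Finset.sum_le_sum
  intro i _
  exact mul_le_mul_of_nonneg_left (hfg _) (pif_nonneg hS s x i)

theorem Pop_affine (hS : S.Nonempty) (s d : ℝ) (f : (E → ℝ) → ℝ) (A B : ℝ) :
    Pop S a s d (fun x => A + B * f x) = fun x => A + B * Pop S a s d f x := by
  funext x
  unfold Pop
  have : ∀ i ∈ S, pif S a s x i * (A + B * f (x + d • a i)) =
      pif S a s x i * A + B * (pif S a s x i * f (x + d • a i)) := by
    intro i _; ring
  rw [Finset.sum_congr rfl this, Finset.sum_add_distrib, ← Finset.sum_mul, sum_pif hS, one_mul,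
    ← Finset.mul_sum]

theorem continuous_Ex (hS : S.Nonempty) (d : ℝ) (k : ℕ) : ∀ {f : (E → ℝ) → ℝ}, Continuous f →
    Continuous (Ex S a d k f) := by
  induction k with
  | zero => intro f hf; exact hf
  | succ k ih => intro f hf; exact ih (continuous_Pop hS _ _ hf)

theorem Ex_bound (hS : S.Nonempty) (d : ℝ) (k : ℕ) : ∀ {f : (E → ℝ) → ℝ} {M : ℝ},
    (∀ x, |f x| ≤ M) → ∀ x, |Ex S a d k f x| ≤ M := by
  induction k with
  | zero => intro f M hf; exact hf
  | succ k ih => intro f M hf; exact ih (Pop_bound hS _ _ hf)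

theorem Ex_mono (hS : S.Nonempty) (d : ℝ) (k : ℕ) : ∀ {f g : (E → ℝ) → ℝ},
    (∀ x, f x ≤ g x) → ∀ x, Ex S a d k f x ≤ Ex S a d k g x := by
  induction k with
  | zero => intro f g hf; exact hf
  | succ k ih => intro f g hf; exact ih (Pop_mono hS _ _ hf)

theorem Ex_affine (hS : S.Nonempty) (d : ℝ) (k : ℕ) : ∀ (f : (E → ℝ) → ℝ) (A B : ℝ),
    Ex S a d k (fun x => A + B * f x) = fun x => A + B * Ex S a d k f x := by
  induction k with
  | zero => intro f A B; rfl
  | succ k ih =>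
    intro f A B
    change Ex S a d k (Pop S a (k * d) d _) = _
    rw [Pop_affine hS, ih]
    rfl

/-- the law of `s a_i + ξ` -/
noncomputable def Lf (S : Finset ι) (a : ι → E → ℝ) (s : ℝ) (f : (E → ℝ) → ℝ) : ℝ :=
  (∑ i ∈ S, ∫ x, f (x + s • a i) ∂(Measure.pi (fun _ : E => gaussianReal 0 1))) / S.card

theorem integrable_bdd {f : (E → ℝ) → ℝ} {M : ℝ} (hf : Continuous f) (hM : ∀ x, |f x| ≤ M) :
    Integrable f (Measure.pi (fun _ : E => gaussianReal 0 1)) := by
  refine Integrable.of_bound (C := M) hf.aestronglyMeasurable ?_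
  filter_upwards with x
  exact hM x

theorem Lf_step (hS : S.Nonempty) {q : ℝ} (hq : ∀ i ∈ S, ∑ e, (a i e) ^ 2 = q) (s d : ℝ)
    {f : (E → ℝ) → ℝ} {M : ℝ} (hf : Continuous f) (hM : ∀ x, |f x| ≤ M) :
    Lf S a s (Pop S a s d f) = Lf S a (s + d) f := by
  unfold Lf
  congr 1
  have hexp : ∀ i ∈ S, ∀ x : E → ℝ, exp (∑ e, ((s • a i) e * x e - (s • a i) e ^ 2 / 2)) =
      exp (-(s ^ 2 * q / 2)) * exp (s * ip (a i) x) := by
    intro i hi x
    rw [← exp_add]
    congr 1
    rw [Finset.sum_sub_distrib, ← Finset.sum_div]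
    simp only [Pi.smul_apply, smul_eq_mul, ip, Finset.mul_sum]
    rw [← hq i hi, Finset.mul_sum]
    simp only [mul_pow, mul_assoc]
    ring
  have hPb := Pop_bound (a := a) hS s d hM
  have hPc := continuous_Pop (a := a) hS s d hf
  have h1 : ∀ i ∈ S, ∫ x, Pop S a s d f (x + s • a i)
      ∂(Measure.pi (fun _ : E => gaussianReal 0 1)) =
      ∫ x, exp (-(s ^ 2 * q / 2)) * exp (s * ip (a i) x) * Pop S a s d f x
      ∂(Measure.pi (fun _ : E => gaussianReal 0 1)) := by
    intro i hi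
    rw [integral_shift]
    simp only [hexp i hi]
  have h2 : ∀ i ∈ S, ∫ x, f (x + (s + d) • a i)
      ∂(Measure.pi (fun _ : E => gaussianReal 0 1)) =
      ∫ x, exp (-(s ^ 2 * q / 2)) * exp (s * ip (a i) x) * f (x + d • a i)
      ∂(Measure.pi (fun _ : E => gaussianReal 0 1)) := by
    intro i hi
    have := integral_shift (s • a i) (fun x => f (x + d • a i))
    simp only [hexp i hi] at this
    rw [← this]
    congr 1
    funext x
    rw [add_smul, add_assoc]
  rw [Finset.sum_congr rfl h1, Finset.sum_congr rfl h2, ← integral_finsetSum, ← integral_finsetSum]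
  · congr 1
    funext x
    have hZ := (Zf_pos (a := a) hS s x).ne'
    rw [← Finset.sum_mul, ← Finset.mul_sum]
    change exp (-(s ^ 2 * q / 2)) * Zf S a s x * Pop S a s d f x = _
    unfold Pop pif
    rw [mul_assoc, Finset.mul_sum, Finset.mul_sum]
    apply Finset.sum_congr rfl
    intro i _
    field_simp
  · intro i hi
    have := integrable_shift (s • a i) (fun x => f (x + d • a i))
      (integrable_bdd (M := M) (by fun_prop) (fun x => hM _))
    simpa only [hexp i hi] using this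
  · intro i hi
    have := integrable_shift (s • a i) (Pop S a s d f)
      (integrable_bdd (M := M) (by fun_prop) (fun x => hPb _))
    simpa only [hexp i hi] using this

theorem integral_Ex (hS : S.Nonempty) {q : ℝ} (hq : ∀ i ∈ S, ∑ e, (a i e) ^ 2 = q) (d : ℝ)
    (k : ℕ) : ∀ {f : (E → ℝ) → ℝ} {M : ℝ}, Continuous f → (∀ x, |f x| ≤ M) →
    ∫ x, Ex S a d k f x ∂(Measure.pi (fun _ : E => gaussianReal 0 1)) = Lf S a (k * d) f := by
  induction k with
  | zero =>
    intro f M hf hM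
    unfold Lf Ex
    have : (S.card : ℝ) ≠ 0 := by
      simpa using hS.ne_empty
    simp only [Nat.cast_zero, zero_mul, zero_smul, add_zero, Finset.sum_const, nsmul_eq_mul]
    field_simp
  | succ k ih =>
    intro f M hf hM
    change ∫ x, Ex S a d k (Pop S a (k * d) d f) x ∂_ = _
    rw [ih (continuous_Pop hS _ _ hf) (Pop_bound hS _ _ hM), Lf_step hS hq _ _ hf hM]
    congr 1
    push_cast
    ring

theorem pif_sub_le (hS : S.Nonempty) {s : ℝ} {x y : E → ℝ} {η : ℝ}
    (h : ∀ i ∈ S, |s * ip (a i) x - s * ip (a i) y| ≤ η) {i : ι} (hi : i ∈ S) :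
    pif S a s x i - pif S a s y i ≤ 2 * η := by
  have hη : 0 ≤ η := (abs_nonneg _).trans (h i hi)
  have hZx := Zf_pos (a := a) hS s x
  have hZy := Zf_pos (a := a) hS s y
  have h1 : exp (-η) * exp (s * ip (a i) x) ≤ exp (s * ip (a i) y) := by
    rw [← exp_add]
    apply exp_le_exp.mpr
    have := (abs_le.mp (h i hi)).2
    linarith
  have h2 : Zf S a s y ≤ exp η * Zf S a s x := by
    unfold Zf
    rw [Finset.mul_sum]
    apply Finset.sum_le_sum
    intro j hj
    rw [← exp_add]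
    apply exp_le_exp.mpr
    have := (abs_le.mp (h j hj)).1
    linarith
  have h3 : exp (-(2 * η)) * pif S a s x i ≤ pif S a s y i := by
    unfold pif
    rw [mul_div_assoc', div_le_div_iff₀ hZx hZy]
    calc exp (-(2 * η)) * exp (s * ip (a i) x) * Zf S a s y
        ≤ exp (-(2 * η)) * exp (s * ip (a i) x) * (exp η * Zf S a s x) :=
          mul_le_mul_of_nonneg_left h2 (by positivity)
      _ = (exp (-η) * exp (s * ip (a i) x)) * Zf S a s x := by
          have : exp (-(2 * η)) * exp η = exp (-η) := by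
            rw [← exp_add]; congr 1; ring
          rw [← this]; ring
      _ ≤ exp (s * ip (a i) y) * Zf S a s x := mul_le_mul_of_nonneg_right h1 hZx.le
  have h4 : 1 - 2 * η ≤ exp (-(2 * η)) := by
    have := Real.add_one_le_exp (-(2 * η))
    linarith
  have h5 := pif_nonneg (a := a) hS s x i
  have h6 := pif_le_one (a := a) hS s x hi
  nlinarith

theorem abs_pif_sub_le (hS : S.Nonempty) {s : ℝ} {x y : E → ℝ} {η : ℝ}
    (h : ∀ i ∈ S, |s * ip (a i) x - s * ip (a i) y| ≤ η) {i : ι} (hi : i ∈ S) :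
    |pif S a s x i - pif S a s y i| ≤ 2 * η := by
  rw [abs_le]
  constructor
  · have h' : ∀ j ∈ S, |s * ip (a j) y - s * ip (a j) x| ≤ η := by
      intro j hj
      rw [abs_sub_comm]
      exact h j hj
    have := pif_sub_le (a := a) hS h' hi
    linarith
  · exact pif_sub_le hS h hi

theorem abs_vf_sub_le (hS : S.Nonempty) (ha : ∀ i ∈ S, ∀ e, |a i e| ≤ 1) {s : ℝ} (hs : 0 ≤ s)
    (x y : E → ℝ) (e : E) :
    |vf S a s x e - vf S a s y e| ≤ 2 * S.card * s * ∑ e, |x e - y e| := by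
  have h : ∀ i ∈ S, |s * ip (a i) x - s * ip (a i) y| ≤ s * ∑ e, |x e - y e| := by
    intro i hi
    rw [← mul_sub, abs_mul, abs_of_nonneg hs]
    apply mul_le_mul_of_nonneg_left _ hs
    unfold ip
    rw [← Finset.sum_sub_distrib]
    refine (Finset.abs_sum_le_sum_abs _ _).trans ?_
    apply Finset.sum_le_sum
    intro e _
    rw [← mul_sub, abs_mul]
    calc |a i e| * |x e - y e| ≤ 1 * |x e - y e| :=
          mul_le_mul_of_nonneg_right (ha i hi e) (abs_nonneg _)
      _ = _ := one_mul _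
  unfold vf
  rw [← Finset.sum_sub_distrib]
  refine (Finset.abs_sum_le_sum_abs _ _).trans ?_
  calc ∑ i ∈ S, |pif S a s x i * a i e - pif S a s y i * a i e|
      ≤ ∑ i ∈ S, 2 * (s * ∑ e, |x e - y e|) := by
        apply Finset.sum_le_sum
        intro i hi
        rw [← sub_mul, abs_mul]
        calc _ ≤ |pif S a s x i - pif S a s y i| * 1 :=
              mul_le_mul_of_nonneg_left (ha i hi e) (abs_nonneg _)
          _ ≤ _ := by rw [mul_one]; exact abs_pif_sub_le hS h hi
    _ = _ := by rw [Finset.sum_const, nsmul_eq_mul]; ring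

/-- squared Euclidean distance -/
noncomputable def sqdist (y x : E → ℝ) : ℝ := ∑ e, (x e - y e) ^ 2

theorem sqdist_nonneg (y x : E → ℝ) : 0 ≤ sqdist y x := Finset.sum_nonneg fun _ _ => sq_nonneg _

theorem vf_sq_lip (hS : S.Nonempty) (ha : ∀ i ∈ S, ∀ e, |a i e| ≤ 1) {s T : ℝ} (hs : 0 ≤ s)
    (hsT : s ≤ T) (x y : E → ℝ) :
    ∑ e, (vf S a s x e - vf S a s y e) ^ 2 ≤
      (4 * (Fintype.card E) ^ 2 * S.card ^ 2 * T ^ 2) * sqdist y x := by
  have h1 : ∀ e, (vf S a s x e - vf S a s y e) ^ 2 ≤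
      4 * S.card ^ 2 * T ^ 2 * (Fintype.card E * sqdist y x) := by
    intro e
    have h2 := abs_vf_sub_le hS ha hs x y e
    have h3 : (∑ e, |x e - y e|) ^ 2 ≤ Fintype.card E * sqdist y x := by
      have := sq_sum_le_card_mul_sum_sq (s := (Finset.univ : Finset E)) (f := fun e => |x e - y e|)
      simpa [sqdist, sq_abs] using this
    have h0 : (0 : ℝ) ≤ ∑ e, |x e - y e| := Finset.sum_nonneg fun _ _ => abs_nonneg _
    calc (vf S a s x e - vf S a s y e) ^ 2 = |vf S a s x e - vf S a s y e| ^ 2 := (sq_abs _).symm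
      _ ≤ (2 * S.card * s * ∑ e, |x e - y e|) ^ 2 := by
          apply pow_le_pow_left₀ (abs_nonneg _) h2
      _ = 4 * S.card ^ 2 * s ^ 2 * (∑ e, |x e - y e|) ^ 2 := by ring
      _ ≤ 4 * S.card ^ 2 * T ^ 2 * (∑ e, |x e - y e|) ^ 2 := by
          apply mul_le_mul_of_nonneg_right _ (sq_nonneg _)
          apply mul_le_mul_of_nonneg_left _ (by positivity)
          exact pow_le_pow_left₀ hs hsT 2
      _ ≤ _ := mul_le_mul_of_nonneg_left h3 (by positivity)
  refine (Finset.sum_le_sum fun e _ => h1 e).trans ?_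
  rw [Finset.sum_const, nsmul_eq_mul, Finset.card_univ]
  apply le_of_eq
  ring

/-- one step of the resampled chain -/
theorem Pop_sqdist (hS : S.Nonempty) {q : ℝ} (hq : ∀ i ∈ S, ∑ e, (a i e) ^ 2 = q) (s d : ℝ)
    (y z : E → ℝ) :
    Pop S a s d (sqdist y) z ≤ ∑ e, (z e + d * vf S a s z e - y e) ^ 2 + d ^ 2 * q := by
  have hsum := sum_pif (a := a) hS s z
  have h1 : Pop S a s d (sqdist y) z =
      ∑ e, ∑ i ∈ S, pif S a s z i * (z e + d * a i e - y e) ^ 2 := by
    unfold Pop sqdist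
    rw [Finset.sum_comm]
    apply Finset.sum_congr rfl
    intro i _
    rw [Finset.mul_sum]
    apply Finset.sum_congr rfl
    intro e _
    simp [Pi.add_apply, Pi.smul_apply, smul_eq_mul]
  have h2 : ∀ e, ∑ i ∈ S, pif S a s z i * (z e + d * a i e - y e) ^ 2 ≤
      (z e + d * vf S a s z e - y e) ^ 2 + d ^ 2 * ∑ i ∈ S, pif S a s z i * (a i e) ^ 2 := by
    intro e
    have h3 : ∑ i ∈ S, pif S a s z i * (z e + d * a i e - y e) ^ 2 =
        (z e - y e) ^ 2 * (∑ i ∈ S, pif S a s z i) + 2 * (z e - y e) * d * vf S a s z e +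
          d ^ 2 * ∑ i ∈ S, pif S a s z i * (a i e) ^ 2 := by
      unfold vf
      rw [Finset.mul_sum, Finset.mul_sum, Finset.mul_sum, ← Finset.sum_add_distrib,
        ← Finset.sum_add_distrib]
      apply Finset.sum_congr rfl
      intro i _
      ring
    rw [h3, hsum]
    nlinarith [sq_nonneg (d * vf S a s z e)]
  rw [h1]
  refine (Finset.sum_le_sum fun e _ => h2 e).trans ?_
  rw [Finset.sum_add_distrib, ← Finset.mul_sum, Finset.sum_comm]
  have h4 : ∑ i ∈ S, ∑ e, pif S a s z i * (a i e) ^ 2 = q := by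
    have : ∀ i ∈ S, ∑ e, pif S a s z i * (a i e) ^ 2 = pif S a s z i * q := by
      intro i hi
      rw [← Finset.mul_sum, hq i hi]
    rw [Finset.sum_congr rfl this, ← Finset.sum_mul, hsum, one_mul]
  rw [h4]

theorem Pop_sqdist_step (hS : S.Nonempty) {q : ℝ} (hq : ∀ i ∈ S, ∑ e, (a i e) ^ 2 = q)
    (ha : ∀ i ∈ S, ∀ e, |a i e| ≤ 1) {s T d ω : ℝ} (hs : 0 ≤ s) (hsT : s ≤ T) (hd : 0 ≤ d)
    (x0 x1 τ : E → ℝ) (h1 : ∀ e, x1 e = x0 e + d * vf S a s x0 e + d * τ e)
    (hτ : ∀ e, |τ e| ≤ ω) (z : E → ℝ) :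
    Pop S a s d (sqdist x1) z ≤
      ((1 + 2 * d) * (Fintype.card E * d * ω ^ 2) + d ^ 2 * q) +
      ((1 + 2 * d) * (1 + (4 * (Fintype.card E) ^ 2 * S.card ^ 2 * T ^ 2) * d)) * sqdist x0 z := by
  refine (Pop_sqdist hS hq s d x1 z).trans ?_
  have h2 : ∀ e, (z e + d * vf S a s z e - x1 e) ^ 2 ≤
      (1 + 2 * d) * ((z e - x0 e) ^ 2 + d * (vf S a s z e - vf S a s x0 e) ^ 2 + d * ω ^ 2) := by
    intro e
    rw [h1 e]
    have h3 : (1 + 2 * d) * ((z e - x0 e) ^ 2 + d * (vf S a s z e - vf S a s x0 e) ^ 2 +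
        d * (τ e) ^ 2) - (z e + d * vf S a s z e - (x0 e + d * vf S a s x0 e + d * τ e)) ^ 2 =
        d * ((z e - x0 e) - (vf S a s z e - vf S a s x0 e)) ^ 2 + d * ((z e - x0 e) + τ e) ^ 2 +
        d ^ 2 * ((vf S a s z e - vf S a s x0 e) + τ e) ^ 2 := by ring
    have h4 : (τ e) ^ 2 ≤ ω ^ 2 := by
      rw [← sq_abs]
      exact pow_le_pow_left₀ (abs_nonneg _) (hτ e) 2
    have h5 : 0 ≤ d * ((z e - x0 e) - (vf S a s z e - vf S a s x0 e)) ^ 2 +
        d * ((z e - x0 e) + τ e) ^ 2 +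
        d ^ 2 * ((vf S a s z e - vf S a s x0 e) + τ e) ^ 2 := by positivity
    have h6 : (1 + 2 * d) * (d * (τ e) ^ 2) ≤ (1 + 2 * d) * (d * ω ^ 2) := by
      apply mul_le_mul_of_nonneg_left _ (by linarith)
      exact mul_le_mul_of_nonneg_left h4 hd
    linarith
  have h7 : ∑ e, (z e + d * vf S a s z e - x1 e) ^ 2 ≤
      (1 + 2 * d) * (sqdist x0 z + d * ∑ e, (vf S a s z e - vf S a s x0 e) ^ 2 +
        Fintype.card E * (d * ω ^ 2)) := by
    refine (Finset.sum_le_sum fun e _ => h2 e).trans ?_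
    rw [← Finset.mul_sum, Finset.sum_add_distrib, Finset.sum_add_distrib, ← Finset.mul_sum,
      Finset.sum_const, nsmul_eq_mul, Finset.card_univ]
    rfl
  have h8 := vf_sq_lip hS ha hs hsT z x0
  have h9 : (1 + 2 * d) * (d * ∑ e, (vf S a s z e - vf S a s x0 e) ^ 2) ≤
      (1 + 2 * d) * (d * ((4 * (Fintype.card E) ^ 2 * S.card ^ 2 * T ^ 2) * sqdist x0 z)) := by
    apply mul_le_mul_of_nonneg_left _ (by linarith)
    exact mul_le_mul_of_nonneg_left h8 hd
  linarith

theorem Ex_sqd_bound (hS : S.Nonempty) {q : ℝ} (hq : ∀ i ∈ S, ∑ e, (a i e) ^ 2 = q)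
    (ha : ∀ i ∈ S, ∀ e, |a i e| ≤ 1) {T d ω : ℝ} (hd1 : 0 < d) {N : ℕ} (hN : N * d ≤ T)
    (ξ : E → ℝ) (x : ℕ → E → ℝ) (hx0 : x 0 = ξ)
    (hx : ∀ k < N, ∀ e, |x (k + 1) e - x k e - d * vf S a (k * d) (x k) e| ≤ d * ω) (k : ℕ)
    (hk : k ≤ N) :
    Ex S a d k (sqdist (x k)) ξ ≤ k * ((1 + 2 * d) * (Fintype.card E * d * ω ^ 2) + d ^ 2 * q) *
      ((1 + 2 * d) * (1 + (4 * (Fintype.card E) ^ 2 * S.card ^ 2 * T ^ 2) * d)) ^ k := by
  have hd := hd1.le
  have hq0 : 0 ≤ q := by
    obtain ⟨i, hi⟩ := hS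
    rw [← hq i hi]
    exact Finset.sum_nonneg fun _ _ => sq_nonneg _
  set B := (1 + 2 * d) * (Fintype.card E * d * ω ^ 2) + d ^ 2 * q with hB
  set Λ := (4 * ((Fintype.card E : ℝ)) ^ 2 * S.card ^ 2 * T ^ 2) with hΛ
  set A := (1 + 2 * d) * (1 + Λ * d) with hA
  have hB0 : 0 ≤ B := by positivity
  have hΛ0 : 0 ≤ Λ := by positivity
  have hA1 : 1 ≤ A := by
    rw [hA]
    nlinarith [mul_nonneg hΛ0 hd, mul_nonneg hd (mul_nonneg hΛ0 hd)]
  induction k with
  | zero =>
    simp only [Ex, Nat.cast_zero, zero_mul]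
    rw [hx0]
    simp [sqdist]
  | succ k ih =>
    have hkN : k < N := hk
    have ih' := ih hkN.le
    change Ex S a d k (Pop S a (k * d) d (sqdist (x (k + 1)))) ξ ≤ _
    have hstep : ∀ z, Pop S a (k * d) d (sqdist (x (k + 1))) z ≤ B + A * sqdist (x k) z := by
      intro z
      have hkd : (k : ℝ) * d ≤ T := by
        refine le_trans ?_ hN
        apply mul_le_mul_of_nonneg_right _ hd
        exact_mod_cast hkN.le
      apply Pop_sqdist_step hS hq ha (s := k * d) (T := T) (ω := ω) (by positivity) hkd hd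
        (x k) (x (k + 1))
        (fun e => (x (k + 1) e - x k e - d * vf S a (k * d) (x k) e) / d)
      · intro e
        field_simp
        ring
      · intro e
        rw [abs_div, abs_of_pos hd1, div_le_iff₀ hd1, mul_comm ω d]
        exact hx k hkN e
    have h1 := Ex_mono (a := a) hS d k hstep ξ
    rw [Ex_affine hS] at h1
    refine h1.trans ?_
    have h3 : A * Ex S a d k (sqdist (x k)) ξ ≤ A * (k * B * A ^ k) :=
      mul_le_mul_of_nonneg_left ih' (by linarith)
    have h4 : B ≤ B * A ^ (k + 1) := le_mul_of_one_le_right hB0 (one_le_pow₀ hA1)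
    calc B + A * Ex S a d k (sqdist (x k)) ξ ≤ B * A ^ (k + 1) + A * (k * B * A ^ k) :=
          add_le_add h4 h3
      _ = ((k + 1 : ℕ) : ℝ) * B * A ^ (k + 1) := by push_cast; ring

theorem continuous_vf (hS : S.Nonempty) (e : E) :
    Continuous (fun p : ℝ × (E → ℝ) => vf S a p.1 p.2 e) := by
  unfold vf pif Zf ip
  refine continuous_finsetSum _ fun i _ => Continuous.mul (Continuous.div ?_ ?_ ?_) ?_
  · fun_prop
  · exact continuous_finsetSum _ fun j _ => by fun_prop
  · intro p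
    exact (Zf_pos (a := a) hS p.1 p.2).ne'
  · fun_prop

theorem Ex_nonneg (hS : S.Nonempty) (d : ℝ) (k : ℕ) {f : (E → ℝ) → ℝ} (hf : ∀ x, 0 ≤ f x)
    (x : E → ℝ) : 0 ≤ Ex S a d k f x := by
  have h1 := Ex_mono (a := a) hS d k (f := fun x => 0 + 0 * f x) (g := f) (by simpa using hf) x
  rw [Ex_affine hS] at h1
  simpa using h1

theorem local_err (hS : S.Nonempty) {T : ℝ} (hT : 0 < T)
    (ξ : E → ℝ) (x : ℝ → E → ℝ) (hc : ∀ e, ContinuousOn (fun r => x r e) (Set.Icc 0 T))
    (hx : ∀ s ∈ Set.Icc 0 T, ∀ e, x s e = ξ e + ∫ r in (0 : ℝ)..s, vf S a r (x r) e)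
    {ω : ℝ} (hω : 0 < ω) :
    ∃ δ > 0, ∀ d, 0 < d → d < δ → ∀ N : ℕ, N * d ≤ T → ∀ k < N, ∀ e,
      |x (((k + 1 : ℕ) : ℝ) * d) e - x (k * d) e - d * vf S a (k * d) (x (k * d)) e| ≤ d * ω := by
  have hcv : ContinuousOn (fun r => (fun e => vf S a r (x r) e : E → ℝ)) (Set.Icc 0 T) := by
    apply continuousOn_pi.mpr
    intro e
    have h0 : ContinuousOn (fun r : ℝ => x r) (Set.Icc 0 T) := continuousOn_pi.mpr hc
    have h1 : ContinuousOn (fun r : ℝ => ((r, x r) : ℝ × (E → ℝ))) (Set.Icc 0 T) :=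
      continuousOn_id.prodMk h0
    have h2 := Continuous.comp_continuousOn (g := fun p : ℝ × (E → ℝ) => vf S a p.1 p.2 e)
      (f := fun r : ℝ => ((r, x r) : ℝ × (E → ℝ))) (continuous_vf (a := a) hS e) h1
    exact h2
  have huc := isCompact_Icc.uniformContinuousOn_of_continuous hcv
  rw [Metric.uniformContinuousOn_iff] at huc
  obtain ⟨δ, hδ, hδc⟩ := huc ω hω
  refine ⟨δ, hδ, fun d hd0 hdδ N hNd k hk e => ?_⟩
  have hk1 : (0 : ℝ) ≤ k * d := by positivity
  have hk2 : ((k + 1 : ℕ) : ℝ) * d ≤ T := by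
    refine le_trans ?_ hNd
    apply mul_le_mul_of_nonneg_right _ hd0.le
    exact_mod_cast hk
  have hk3' : ((k + 1 : ℕ) : ℝ) * d = k * d + d := by push_cast; ring
  have hk3 : (k : ℝ) * d ≤ ((k + 1 : ℕ) : ℝ) * d := by rw [hk3']; linarith
  have hk0 : (k : ℝ) * d ∈ Set.Icc 0 T := ⟨hk1, hk3.trans hk2⟩
  have hk0' : ((k + 1 : ℕ) : ℝ) * d ∈ Set.Icc 0 T := ⟨hk1.trans hk3, hk2⟩
  have hce : ContinuousOn (fun r => vf S a r (x r) e) (Set.Icc 0 T) :=
    (continuousOn_pi.mp hcv) e
  have hint : ∀ u v : ℝ, u ∈ Set.Icc 0 T → v ∈ Set.Icc 0 T →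
      IntervalIntegrable (fun r => vf S a r (x r) e) volume u v := by
    intro u v hu hv
    apply ContinuousOn.intervalIntegrable
    apply hce.mono
    exact Set.uIcc_subset_Icc hu hv
  have e1 := hx _ hk0 e
  have e2 := hx _ hk0' e
  generalize ((k + 1 : ℕ) : ℝ) * d = t at *
  generalize (k : ℝ) * d = s at *
  have h00 : (0 : ℝ) ∈ Set.Icc 0 T := ⟨le_refl _, hT.le⟩
  have e3 : x t e - x s e = ∫ r in s..t, vf S a r (x r) e := by
    rw [e1, e2]
    have := intervalIntegral.integral_interval_sub_left (hint 0 t h00 hk0') (hint 0 s h00 hk0)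
    linarith
  have e4 : d * vf S a s (x s) e = ∫ r in s..t, vf S a s (x s) e := by
    rw [intervalIntegral.integral_const, smul_eq_mul, hk3']
    ring
  have e5 : x t e - x s e - d * vf S a s (x s) e =
      ∫ r in s..t, (vf S a r (x r) e - vf S a s (x s) e) := by
    rw [intervalIntegral.integral_sub (hint _ _ hk0 hk0') intervalIntegrable_const, ← e4, ← e3]
  rw [e5]
  have e6 := intervalIntegral.norm_integral_le_of_norm_le_const
    (a := s) (b := t) (C := ω) (f := fun r => vf S a r (x r) e - vf S a s (x s) e) (by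
      intro r hr
      rw [Set.uIoc_of_le hk3] at hr
      have hr' : r ∈ Set.Icc 0 T := ⟨hk1.trans hr.1.le, hr.2.trans hk2⟩
      have hdist : dist r s < δ := by
        rw [Real.dist_eq, abs_of_nonneg (by linarith [hr.1])]
        have := hr.2
        linarith
      have := hδc r hr' _ hk0 hdist
      have h3 := (dist_pi_lt_iff hω).mp this e
      rw [Real.dist_eq] at h3
      exact h3.le)
  rw [Real.norm_eq_abs] at e6
  refine e6.trans (le_of_eq ?_)
  rw [abs_of_nonneg (by linarith), hk3']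
  ring

theorem calc_bound {n T d c Λ q K ε : ℝ} (hn0 : 0 ≤ n) (hT : 0 < T) (hd0 : 0 < d) (hdT : d ≤ T)
    (hc0 : 0 < c) (hΛ0 : 0 ≤ Λ) (hq0 : 0 ≤ q) {N : ℕ} (hNd : (N : ℝ) * d = T)
    (hK : K = exp ((2 + Λ) * T)) (h1 : ((1 + 2 * T) * n * T * K) * c ≤ ε / 2)
    (h2 : T * d * q * K < ε / 2) :
    N * ((1 + 2 * d) * (n * d * c) + d ^ 2 * q) * ((1 + 2 * d) * (1 + Λ * d)) ^ N < ε := by
  have hK0 : 0 < K := by rw [hK]; exact exp_pos _
  have hA : ((1 + 2 * d) * (1 + Λ * d)) ^ N ≤ K := by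
    have h1 : (1 + 2 * d) * (1 + Λ * d) ≤ exp ((2 + Λ) * d) := by
      have h2 : (2 + Λ) * d = 2 * d + Λ * d := by ring
      rw [h2, exp_add]
      apply mul_le_mul
      · linarith [Real.add_one_le_exp (2 * d)]
      · linarith [Real.add_one_le_exp (Λ * d)]
      · positivity
      · positivity
    calc ((1 + 2 * d) * (1 + Λ * d)) ^ N ≤ (exp ((2 + Λ) * d)) ^ N :=
          pow_le_pow_left₀ (by positivity) h1 N
      _ = K := by
          rw [← exp_nat_mul, hK, ← hNd]
          congr 1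
          ring
  have h3 : (N : ℝ) * ((1 + 2 * d) * (n * d * c) + d ^ 2 * q) =
      (1 + 2 * d) * n * T * c + T * d * q := by
    rw [← hNd]; ring
  rw [h3]
  have h4 : (1 + 2 * d) * n * T * c + T * d * q ≤ (1 + 2 * T) * n * T * c + T * d * q := by
    have : (1 + 2 * d) * (n * T * c) ≤ (1 + 2 * T) * (n * T * c) := by
      apply mul_le_mul_of_nonneg_right _ (by positivity)
      linarith
    linarith
  have h5 : 0 ≤ (1 + 2 * d) * n * T * c + T * d * q := by positivity
  calc ((1 + 2 * d) * n * T * c + T * d * q) * ((1 + 2 * d) * (1 + Λ * d)) ^ N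
      ≤ ((1 + 2 * T) * n * T * c + T * d * q) * K :=
        mul_le_mul h4 hA (by positivity) (h5.trans h4)
    _ = ((1 + 2 * T) * n * T * K) * c + T * d * q * K := by ring
    _ < ε / 2 + ε / 2 := add_lt_add_of_le_of_lt h1 h2
    _ = ε := by ring

theorem Ex_sqd_tendsto (hS : S.Nonempty) {q : ℝ} (hq : ∀ i ∈ S, ∑ e, (a i e) ^ 2 = q)
    (ha : ∀ i ∈ S, ∀ e, |a i e| ≤ 1) {T : ℝ} (hT : 0 < T)
    (ξ : E → ℝ) (x : ℝ → E → ℝ) (hc : ∀ e, ContinuousOn (fun r => x r e) (Set.Icc 0 T))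
    (hx : ∀ s ∈ Set.Icc 0 T, ∀ e, x s e = ξ e + ∫ r in (0 : ℝ)..s, vf S a r (x r) e) :
    Filter.Tendsto (fun N : ℕ => Ex S a (T / N) N (sqdist (x T)) ξ) Filter.atTop (nhds 0) := by
  have hq0 : 0 ≤ q := by
    obtain ⟨i, hi⟩ := hS
    rw [← hq i hi]
    exact Finset.sum_nonneg fun _ _ => sq_nonneg _
  have hx0 : x 0 = ξ := by
    funext e
    have := hx 0 ⟨le_refl _, hT.le⟩ e
    simpa using this
  obtain ⟨n, hn⟩ : ∃ n : ℝ, n = Fintype.card E := ⟨_, rfl⟩
  obtain ⟨Λ, hΛ⟩ : ∃ Λ : ℝ, Λ = (4 * (Fintype.card E : ℝ) ^ 2 * S.card ^ 2 * T ^ 2) := ⟨_, rfl⟩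
  obtain ⟨K, hK⟩ : ∃ K : ℝ, K = exp ((2 + Λ) * T) := ⟨_, rfl⟩
  have hn0 : 0 ≤ n := by rw [hn]; positivity
  have hΛ0 : 0 ≤ Λ := by rw [hΛ]; positivity
  have hK0 : 0 < K := by rw [hK]; exact exp_pos _
  rw [Metric.tendsto_atTop]
  intro ε hε
  have hden : 0 < 2 * ((1 + 2 * T) * n * T * K + 1) := by positivity
  obtain ⟨c, hc'⟩ : ∃ c : ℝ, c = ε / (2 * ((1 + 2 * T) * n * T * K + 1)) := ⟨_, rfl⟩
  have hc0 : 0 < c := by rw [hc']; exact div_pos hε hden
  have hc1 : ((1 + 2 * T) * n * T * K) * c ≤ ε / 2 := by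
    rw [hc', mul_div_assoc', div_le_div_iff₀ hden (by norm_num)]
    nlinarith
  obtain ⟨δ, hδ, hδc⟩ := local_err (a := a) hS hT ξ x hc hx (Real.sqrt_pos.mpr hc0)
  -- choose N large
  obtain ⟨N₀, hN₀⟩ := exists_nat_gt (max (max 1 (T / δ)) (2 * T * T * q * K / ε))
  refine ⟨N₀, fun N hN => ?_⟩
  have hN1 : max (max 1 (T / δ)) (2 * T * T * q * K / ε) < N :=
    hN₀.trans_le (by exact_mod_cast hN)
  have hN2 : (1 : ℝ) < N := ((le_max_left _ _).trans (le_max_left _ _)).trans_lt hN1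
  have hN3 : T / δ < N := ((le_max_right _ _).trans (le_max_left _ _)).trans_lt hN1
  have hN4 : 2 * T * T * q * K / ε < N := (le_max_right _ _).trans_lt hN1
  have hNpos : (0 : ℝ) < N := by linarith
  obtain ⟨d, hd⟩ : ∃ d : ℝ, d = T / N := ⟨_, rfl⟩
  rw [← hd]
  have hd0 : 0 < d := by rw [hd]; exact div_pos hT hNpos
  have hdT : d ≤ T := by
    rw [hd, div_le_iff₀ hNpos]
    nlinarith
  have hNd : (N : ℝ) * d = T := by rw [hd]; field_simp
  have hdδ : d < δ := by
    rw [hd, div_lt_iff₀ hNpos]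
    rw [div_lt_iff₀ hδ] at hN3
    linarith
  have hbound := Ex_sqd_bound (a := a) hS hq ha (T := T) (ω := √c) hd0 (N := N) hNd.le ξ
    (fun k => x (k * d)) (by simpa using hx0) (hδc d hd0 hdδ N hNd.le) N le_rfl
  have hsq : (√c) ^ 2 = c := Real.sq_sqrt hc0.le
  rw [hsq] at hbound
  simp only [hNd] at hbound
  rw [← hn] at hbound
  rw [← hn] at hΛ
  rw [← hΛ] at hbound
  have h2 : T * d * q * K < ε / 2 := by
    rw [div_lt_iff₀ hε] at hN4
    have h4 : T * d * q * K * N = T * T * q * K := by rw [hd]; field_simp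
    have h5 : T * d * q * K * N < ε / 2 * N := by
      rw [h4]; linarith
    exact lt_of_mul_lt_mul_right h5 hNpos.le
  have hfin := hbound.trans_lt (calc_bound hn0 hT hd0 hdT hc0 hΛ0 hq0 hNd hK hc1 h2)
  rw [Real.dist_eq, sub_zero, abs_of_nonneg (Ex_nonneg hS _ _ (sqdist_nonneg _) _)]
  exact hfin

/-- pointwise convergence of the resampled chain to the drift flow -/
theorem Ex_tendsto (hS : S.Nonempty) {q : ℝ} (hq : ∀ i ∈ S, ∑ e, (a i e) ^ 2 = q)
    (ha : ∀ i ∈ S, ∀ e, |a i e| ≤ 1) {T : ℝ} (hT : 0 < T)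
    (ξ : E → ℝ) (x : ℝ → E → ℝ) (hc : ∀ e, ContinuousOn (fun r => x r e) (Set.Icc 0 T))
    (hx : ∀ s ∈ Set.Icc 0 T, ∀ e, x s e = ξ e + ∫ r in (0 : ℝ)..s, vf S a r (x r) e)
    {f : (E → ℝ) → ℝ} {M : ℝ} (hf : Continuous f) (hM : ∀ x, |f x| ≤ M) :
    Filter.Tendsto (fun N : ℕ => Ex S a (T / N) N f ξ) Filter.atTop (nhds (f (x T))) := by
  -- comparison of `f` with the squared distance
  have hcomp : ∀ ε > 0, ∃ K > 0, ∀ z, |f z - f (x T)| ≤ ε + K * sqdist (x T) z := by
    intro ε hε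
    obtain ⟨ρ, hρ, hfρ⟩ := Metric.continuous_iff.mp hf (x T) ε hε
    have hM0 : 0 ≤ M := (abs_nonneg _).trans (hM (x T))
    refine ⟨(2 * M + 1) / ρ ^ 2, by positivity, fun z => ?_⟩
    by_cases hz : dist z (x T) < ρ
    · have h1 := hfρ z hz
      rw [Real.dist_eq] at h1
      have h2 : 0 ≤ (2 * M + 1) / ρ ^ 2 * sqdist (x T) z := mul_nonneg (by positivity) (sqdist_nonneg _ _)
      linarith
    · have h1 : ρ ^ 2 ≤ sqdist (x T) z := by
        rw [dist_pi_lt_iff hρ] at hz
        push Not at hz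
        obtain ⟨e, he⟩ := hz
        rw [Real.dist_eq] at he
        calc ρ ^ 2 ≤ |z e - x T e| ^ 2 := pow_le_pow_left₀ hρ.le he 2
          _ = (z e - x T e) ^ 2 := sq_abs _
          _ ≤ sqdist (x T) z := Finset.single_le_sum (f := fun e => (z e - x T e) ^ 2)
              (fun e _ => sq_nonneg _) (Finset.mem_univ e)
      have h2 : |f z - f (x T)| ≤ 2 * M := by
        have h3 := abs_le.mp (hM z)
        have h4 := abs_le.mp (hM (x T))
        rw [abs_le]
        constructor <;> linarith [h3.1, h3.2, h4.1, h4.2]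
      have h3 : 2 * M + 1 ≤ (2 * M + 1) / ρ ^ 2 * sqdist (x T) z := by
        rw [div_mul_eq_mul_div, le_div_iff₀ (by positivity)]
        exact mul_le_mul_of_nonneg_left h1 (by linarith)
      linarith
  have hsq := Ex_sqd_tendsto hS hq ha hT ξ x hc hx
  rw [Metric.tendsto_atTop]
  intro ε hε
  obtain ⟨K, hK, hKf⟩ := hcomp (ε / 2) (by linarith)
  rw [Metric.tendsto_atTop] at hsq
  obtain ⟨N₀, hN₀⟩ := hsq (ε / (2 * K)) (by positivity)
  refine ⟨N₀, fun N hN => ?_⟩
  have h1 := hN₀ N hN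
  rw [Real.dist_eq, sub_zero] at h1
  have h2 := (abs_lt.mp h1).2
  have hup : Ex S a (T / N) N f ξ ≤ (f (x T) + ε / 2) + K * Ex S a (T / N) N (sqdist (x T)) ξ := by
    have := Ex_mono (a := a) hS (T / N) N (f := f)
      (g := fun z => (f (x T) + ε / 2) + K * sqdist (x T) z) (fun z => by
        have := (abs_le.mp (hKf z)).2
        linarith) ξ
    rwa [Ex_affine hS] at this
  have hlo : (f (x T) - ε / 2) + (-K) * Ex S a (T / N) N (sqdist (x T)) ξ ≤
      Ex S a (T / N) N f ξ := by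
    have := Ex_mono (a := a) hS (T / N) N (g := f)
      (f := fun z => (f (x T) - ε / 2) + (-K) * sqdist (x T) z) (fun z => by
        have := (abs_le.mp (hKf z)).1
        linarith) ξ
    rwa [Ex_affine hS] at this
  have h3 : K * Ex S a (T / N) N (sqdist (x T)) ξ < ε / 2 := by
    calc K * Ex S a (T / N) N (sqdist (x T)) ξ < K * (ε / (2 * K)) := by
          exact mul_lt_mul_of_pos_left h2 hK
      _ = ε / 2 := by field_simp
  rw [Real.dist_eq, abs_lt]
  constructor <;> linarith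

/-- **The finite-dimensional law of the drift flow.** -/
theorem fin_law (hS : S.Nonempty) {q : ℝ} (hq : ∀ i ∈ S, ∑ e, (a i e) ^ 2 = q)
    (ha : ∀ i ∈ S, ∀ e, |a i e| ≤ 1) {T : ℝ} (hT : 0 ≤ T)
    (x : (E → ℝ) → ℝ → E → ℝ) (hc : ∀ ξ e, ContinuousOn (fun r => x ξ r e) (Set.Icc 0 T))
    (hx : ∀ ξ, ∀ s ∈ Set.Icc 0 T, ∀ e, x ξ s e = ξ e + ∫ r in (0 : ℝ)..s, vf S a r (x ξ r) e)
    {f : (E → ℝ) → ℝ} {M : ℝ} (hf : Continuous f) (hM : ∀ x, |f x| ≤ M) :
    ∫ ξ, f (x ξ T) ∂(Measure.pi (fun _ : E => gaussianReal 0 1)) = Lf S a T f := by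
  rcases hT.eq_or_lt with rfl | hT
  · have h0 : ∀ ξ, x ξ 0 = ξ := by
      intro ξ
      funext e
      have := hx ξ 0 ⟨le_refl _, le_refl _⟩ e
      simpa using this
    simp only [h0]
    have := integral_Ex (a := a) hS hq 0 0 hf hM
    simp only [Nat.cast_zero, mul_zero] at this
    exact this
  · have h1 : ∀ N : ℕ, 0 < N → ∫ ξ, Ex S a (T / N) N f ξ
        ∂(Measure.pi (fun _ : E => gaussianReal 0 1)) = Lf S a T f := by
      intro N hN
      rw [integral_Ex hS hq (T / N) N hf hM]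
      congr 1
      field_simp
    have h2 : Filter.Tendsto (fun N : ℕ => ∫ ξ, Ex S a (T / N) N f ξ
        ∂(Measure.pi (fun _ : E => gaussianReal 0 1))) Filter.atTop
        (nhds (∫ ξ, f (x ξ T) ∂(Measure.pi (fun _ : E => gaussianReal 0 1)))) := by
      apply tendsto_integral_of_dominated_convergence (fun _ => M)
      · intro N
        exact (continuous_Ex hS _ N hf).aestronglyMeasurable
      · exact integrable_const M
      · intro N
        filter_upwards with ξ
        exact Ex_bound hS _ N hM ξ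
      · filter_upwards with ξ
        exact Ex_tendsto hS hq ha hT ξ (x ξ) (hc ξ) (hx ξ) hf hM
    have h3 : Filter.Tendsto (fun N : ℕ => ∫ ξ, Ex S a (T / N) N f ξ
        ∂(Measure.pi (fun _ : E => gaussianReal 0 1))) Filter.atTop (nhds (Lf S a T f)) := by
      apply tendsto_const_nhds.congr'
      filter_upwards [Filter.eventually_gt_atTop 0] with N hN
      exact (h1 N hN).symm
    exact tendsto_nhds_unique h2 h3

end Law

section Trees

variable {E : Type*} [Fintype E]

/-- the mean of the tilted uniform measure on a family of finite sets -/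
noncomputable def mfun (TT : Finset (Finset E)) (h : E → ℝ) (e : E) : ℝ :=
  open scoped Classical in
  (∑ T ∈ TT, if e ∈ T then exp (∑ g ∈ T, h g) else 0) / ∑ T ∈ TT, exp (∑ g ∈ T, h g)

/-- indicator vector of a finite set -/
noncomputable def indv (T : Finset E) (e : E) : ℝ :=
  open scoped Classical in if e ∈ T then 1 else 0

theorem vf_indv (TT : Finset (Finset E)) (s : ℝ) (x : E → ℝ) (e : E) :
    vf TT indv s x e = mfun TT (fun g => s * x g) e := by
  classical
  have h1 : ∀ T : Finset E, s * ip (indv T) x = ∑ g ∈ T, s * x g := by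
    intro T
    unfold ip indv
    rw [Finset.mul_sum, ← Finset.sum_filter_add_sum_filter_not Finset.univ (fun e => e ∈ T)]
    have h2 : ∑ e ∈ Finset.univ.filter (fun e => ¬ e ∈ T), s * ((if e ∈ T then (1 : ℝ) else 0) * x e) = 0 := by
      apply Finset.sum_eq_zero
      intro e he
      rw [Finset.mem_filter] at he
      simp [he.2]
    rw [h2, add_zero]
    have h3 : Finset.univ.filter (fun e => e ∈ T) = T := by ext; simp
    rw [h3]
    apply Finset.sum_congr rfl
    intro e he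
    simp [he]
  unfold vf pif Zf mfun
  simp only [h1]
  rw [Finset.sum_div]
  apply Finset.sum_congr rfl
  intro T _
  unfold indv
  split_ifs <;> simp

/-- **The finite-dimensional law of the drift flow**, uniform measure on a family of finite sets
of the same cardinality. -/
theorem fin_law_trees {TT : Finset (Finset E)} (hTT : TT.Nonempty) {m : ℕ}
    (hm : ∀ T ∈ TT, T.card = m) {t : ℝ} (ht : 0 ≤ t)
    (x : (E → ℝ) → ℝ → E → ℝ) (hc : ∀ ξ e, ContinuousOn (fun r => x ξ r e) (Set.Icc 0 t))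
    (hx : ∀ ξ, ∀ s ∈ Set.Icc 0 t, ∀ e,
      x ξ s e = ξ e + ∫ r in (0 : ℝ)..s, mfun TT (fun g => r * x ξ r g) e)
    {f : (E → ℝ) → ℝ} {M : ℝ} (hf : Continuous f) (hM : ∀ x, |f x| ≤ M) :
    ∫ ξ, f (x ξ t) ∂(Measure.pi (fun _ : E => gaussianReal 0 1)) =
      (∑ T ∈ TT, ∫ ξ, f (ξ + t • indv T) ∂(Measure.pi (fun _ : E => gaussianReal 0 1)))
        / TT.card := by
  classical
  have hq : ∀ T ∈ TT, ∑ e, (indv T e) ^ 2 = (m : ℝ) := by
    intro T hT
    have h1 : ∀ e, (indv T e) ^ 2 = if e ∈ T then (1 : ℝ) else 0 := by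
      intro e
      unfold indv
      split_ifs <;> simp
    simp only [h1]
    rw [Finset.sum_ite_mem, Finset.univ_inter, Finset.sum_const, nsmul_eq_mul, mul_one, hm T hT]
  have ha : ∀ T ∈ TT, ∀ e, |indv T e| ≤ 1 := by
    intro T _ e
    unfold indv
    split_ifs <;> simp
  exact fin_law hTT hq ha ht x hc (fun ξ s hs e => by
    rw [hx ξ s hs e]
    simp only [vf_indv]) hf hM

end Trees

end P143
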