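import Vale.Agent.P143.FinalOf
import Vale.Agent.P143.EdgeLabels

/-!
# P143: the label statement from the edge-label construction
-/

open MeasureTheory ProbabilityTheory Filter Topology unitInterval
open scoped ENNReal

namespace P143

theorem labelStatement : LabelStatement := by
  obtain ⟨ψ, hψ, hlaw⟩ := Lab.exists_psi_gaussian
  refine ⟨fun G U => Lab.uLab ψ G U, ?_, ?_, ?_⟩
  · refine Lab.measurable_uLab ψ hψ (fun p : SimpleGraph ℕ × (ℕ → I) => p.1) ?_
      (fun p => p.2) measurable_snd
    intro u v
    exact (measurableSet_adj u v).preimage measurable_fst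
  · intro τ G U _ e _
    refine Lab.uLab_equiv ψ τ G (rG τ G) ?_ U _ ?_ e
    · intro a b
      simp [rG]
    · intro v
      simp
  · intro G hG F hF hloc
    exact Lab.map_comp_uLab G hG.2 _ ψ hψ hlaw F hF hloc

end P143
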