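import Mathlib

/-!
# P143, L1: countably many i.i.d. Gaussians from one uniform variable
-/

open MeasureTheory ProbabilityTheory Measure unitInterval

namespace P143

/-- One uniform variable on `[0,1]` produces a uniform variable together with an independent
i.i.d. sequence of standard Gaussians. -/
theorem exists_psi :
    ∃ ψ : I → I × (ℕ → ℝ), Measurable ψ ∧
      (volume : Measure I).map ψ =
        (volume : Measure I).prod (infinitePi fun _ : ℕ => gaussianReal 0 1) :=
  MeasureTheory.Measure.exists_measurable_map_eq _

/-- One uniform variable on `[0,1]` produces an i.i.d. sequence of standard Gaussians. -/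
theorem exists_psi_gauss :
    ∃ ψ : I → (ℕ → ℝ), Measurable ψ ∧
      (volume : Measure I).map ψ = infinitePi fun _ : ℕ => gaussianReal 0 1 :=
  MeasureTheory.Measure.exists_measurable_map_eq _

section prod
variable {ι : Type*} {X Y : ι → Type*} [∀ i, MeasurableSpace (X i)] [∀ i, MeasurableSpace (Y i)]

/-- The infinite product of products is the product of the infinite products. -/
theorem infinitePi_prod_map (μ : ∀ i, Measure (X i)) (ν : ∀ i, Measure (Y i))
    [∀ i, IsProbabilityMeasure (μ i)] [∀ i, IsProbabilityMeasure (ν i)] :
    (infinitePi fun i => (μ i).prod (ν i)).map (fun w => ((fun i => (w i).1), fun i => (w i).2)) =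
      (infinitePi μ).prod (infinitePi ν) := by
  classical
  have hmeas : Measurable (fun w : (∀ i, X i × Y i) => ((fun i => (w i).1), fun i => (w i).2)) := by
    fun_prop
  have hu1 : (Set.univ : Set (∀ i, X i)) ∈ squareCylinders
      (fun i => {s : Set (X i) | MeasurableSet s}) :=
    ⟨∅, fun _ => Set.univ, by simp, by simp⟩
  have hu2 : (Set.univ : Set (∀ i, Y i)) ∈ squareCylinders
      (fun i => {s : Set (Y i) | MeasurableSet s}) :=
    ⟨∅, fun _ => Set.univ, by simp, by simp⟩
  refine (Measure.prod_eq_generateFrom (generateFrom_squareCylinders (α := X))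
    (generateFrom_squareCylinders (α := Y))
    (isPiSystem_squareCylinders (fun _ => MeasurableSpace.isPiSystem_measurableSet) (by simp))
    (isPiSystem_squareCylinders (fun _ => MeasurableSpace.isPiSystem_measurableSet) (by simp))
    ⟨fun _ => Set.univ, fun _ => hu1, fun _ => measure_lt_top _ _, by simp [Set.iUnion_const]⟩
    ⟨fun _ => Set.univ, fun _ => hu2, fun _ => measure_lt_top _ _, by simp [Set.iUnion_const]⟩ ?_).symm
  rintro _ ⟨s, t, ht, rfl⟩ _ ⟨s', t', ht', rfl⟩
  simp only [Set.mem_pi, Set.mem_univ, forall_const, Set.mem_ofPred_eq] at ht ht'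
  rw [map_apply hmeas (MeasurableSet.prod (.pi s.countable_toSet fun i _ => ht i)
    (.pi s'.countable_toSet fun i _ => ht' i))]
  have hpre : (fun w : (∀ i, X i × Y i) => ((fun i => (w i).1), fun i => (w i).2)) ⁻¹'
      ((s : Set ι).pi t ×ˢ (s' : Set ι).pi t') =
      ((s ∪ s' : Finset ι) : Set ι).pi (fun i => (if i ∈ s then t i else Set.univ) ×ˢ
        (if i ∈ s' then t' i else Set.univ)) := by
    ext w
    simp only [Set.mem_preimage, Set.mem_prod, Set.mem_pi, Finset.mem_coe, Finset.mem_union]
    constructor
    · rintro ⟨h1, h2⟩ i hi
      constructor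
      · split_ifs with h
        · exact h1 i h
        · trivial
      · split_ifs with h
        · exact h2 i h
        · trivial
    · intro h
      refine ⟨fun i hi => ?_, fun i hi => ?_⟩
      · have := (h i (Or.inl hi)).1
        rwa [if_pos hi] at this
      · have := (h i (Or.inr hi)).2
        rwa [if_pos hi] at this
  rw [hpre, infinitePi_pi, infinitePi_pi _ (fun i _ => ht i), infinitePi_pi _ (fun i _ => ht' i)]
  · simp only [Measure.prod_prod]
    rw [Finset.prod_mul_distrib]
    congr 1
    · rw [← Finset.prod_subset (Finset.subset_union_left (s₁ := s) (s₂ := s'))]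
      · exact Finset.prod_congr rfl fun i hi => by rw [if_pos hi]
      · intro i _ hi
        rw [if_neg hi]; simp
    · rw [← Finset.prod_subset (Finset.subset_union_right (s₁ := s) (s₂ := s'))]
      · exact Finset.prod_congr rfl fun i hi => by rw [if_pos hi]
      · intro i _ hi
        rw [if_neg hi]; simp
  · intro i _
    refine MeasurableSet.prod ?_ ?_
    · split_ifs
      · exact ht i
      · exact .univ
    · split_ifs
      · exact ht' i
      · exact .univ

end prod

/-- I.i.d. uniform vertex labels, transformed by `ψ`, give i.i.d. uniforms `L` and, independently,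
i.i.d. Gaussian sequences `g`. -/
theorem map_psi_law {V : Type*} {A B : Type*} [MeasurableSpace A] [MeasurableSpace B]
    (α : Measure A) (β : Measure B) [IsProbabilityMeasure α] [IsProbabilityMeasure β]
    (ψ : I → A × B) (hψ : Measurable ψ)
    (hlaw : (volume : Measure I).map ψ = α.prod β) :
    (infinitePi fun _ : V => (volume : Measure I)).map
      (fun U => ((fun v => (ψ (U v)).1), fun v => (ψ (U v)).2)) =
      (infinitePi fun _ : V => α).prod (infinitePi fun _ : V => β) := by
  rw [← infinitePi_prod_map (fun _ : V => α) (fun _ : V => β)]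
  have h := infinitePi_map_pi (fun _ : V => (volume : Measure I)) (f := fun _ => ψ) (fun _ => hψ)
  simp only [hlaw] at h
  rw [← h, Measure.map_map (by fun_prop) (by fun_prop)]
  rfl

end P143
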