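import Mathlib

/-!
# P143: definitions used in the final statement
-/

open MeasureTheory ProbabilityTheory Filter Topology unitInterval
open scoped ENNReal

universe u

namespace P143

section general
variable {V : Type*}

/-- `T` (a set of edges) is (the edge set of) a spanning tree of the subgraph `H`. -/
def IsSpanningTree {G : SimpleGraph V} (H : G.Subgraph) (T : Set (Sym2 V)) : Prop :=
  T ⊆ H.edgeSet ∧ ((SimpleGraph.fromEdgeSet T).induce H.verts).IsTree

/-- Probability that the uniform spanning tree of the finite connected `H` lies in `A`. -/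
noncomputable def ustProb {G : SimpleGraph V} (H : G.Subgraph) (A : Set (Set (Sym2 V))) : ℝ :=
  ({T | IsSpanningTree H T ∧ T ∈ A}.ncard : ℝ) / ({T | IsSpanningTree H T}.ncard : ℝ)

/-- Exhaustion of `G` by finite connected subgraphs. -/
structure IsExhaustion (G : SimpleGraph V) (H : ℕ → G.Subgraph) : Prop where
  fin : ∀ n, (H n).verts.Finite
  conn : ∀ n, (H n).Connected
  mono : Monotone H
  exh : ⨆ n, H n = ⊤

/-- Cylinder event: `T ∩ B = A ∩ B`. -/
def cyl (B A : Finset (Sym2 V)) : Set (Set (Sym2 V)) := {T | ∀ e ∈ B, (e ∈ T ↔ e ∈ A)}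

/-- `μ` (a law on edge sets) is the free uniform spanning forest of `G`: it is the weak limit on
`{0,1}^E` of the uniform spanning trees along every exhaustion of `G` by finite connected
subgraphs (and such an exhaustion exists). -/
structure IsFUSF (G : SimpleGraph V) (μ : Measure (Set (Sym2 V))) : Prop where
  prob : IsProbabilityMeasure μ
  exh : ∃ H : ℕ → G.Subgraph, IsExhaustion G H
  lim : ∀ H : ℕ → G.Subgraph, IsExhaustion G H → ∀ B A : Finset (Sym2 V),
    Tendsto (fun n => ustProb (H n) (cyl B A)) atTop (𝓝 (μ.real (cyl B A)))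

end general

/-- Relabelling a graph on `ℕ` by a permutation: `τ x ~ τ y` in `rG τ G` iff `x ~ y` in `G`. -/
def rG (τ : Equiv.Perm ℕ) (G : SimpleGraph ℕ) : SimpleGraph ℕ := G.comap τ.symm

/-- Unimodularity (mass transport principle) for a random graph on `ℕ` with root `0`. -/
def Unimodular (P : Measure (SimpleGraph ℕ)) : Prop :=
  ∀ f : SimpleGraph ℕ → ℕ → ℕ → ℝ≥0∞, (∀ x y, Measurable fun G => f G x y) →
    (∀ (τ : Equiv.Perm ℕ) G x y, f (rG τ G) (τ x) (τ y) = f G x y) →
    ∫⁻ G, ∑' v, f G 0 v ∂P = ∫⁻ G, ∑' v, f G v 0 ∂P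

/-- connected and locally finite -/
def Good (G : SimpleGraph ℕ) : Prop := G.Connected ∧ ∀ x, (G.neighborSet x).Finite

/-- The law of i.i.d. uniform `[0,1]` labels attached to the vertices. -/
noncomputable abbrev vlab (V : Type*) : Measure (V → I) :=
  Measure.infinitePi fun _ : V => (volume : Measure I)

/-- The (right) Cayley graph of a group `Γ` with respect to a finite set `S` of generators:
`g` is joined to `g s` and `g s⁻¹` for `s ∈ S` (no loops, no multiple edges). -/
def cay (Γ : Type*) [Group Γ] (S : Finset Γ) : SimpleGraph Γ where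
  Adj g h := g ≠ h ∧ (g⁻¹ * h ∈ S ∨ h⁻¹ * g ∈ S)
  symm := ⟨fun _ _ h => ⟨h.1.symm, h.2.symm⟩⟩
  loopless := ⟨fun _ h => h.1 rfl⟩

/-- `Φ` is a measurable, isomorphism-invariant rule producing an edge set from a graph with
vertex labels: its value is a function of the isomorphism class of the labelled graph. -/
structure IsGraphRule (Φ : SimpleGraph ℕ → (ℕ → I) → Set (Sym2 ℕ)) : Prop where
  meas : Measurable fun p : SimpleGraph ℕ × (ℕ → I) => Φ p.1 p.2
  inv : ∀ (τ : Equiv.Perm ℕ) (G : SimpleGraph ℕ) (U : ℕ → I),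
    Φ (rG τ G) (fun x => U (τ.symm x)) = Sym2.map τ '' Φ G U

/-- First half: on every Cayley graph of every infinite finitely generated group `Γ` the FUSF is
a `Γ`-factor of IID. -/
def CayleyHalf : Prop :=
  ∀ (Γ : Type u) [Group Γ] [Infinite Γ] (S : Finset Γ), Subgroup.closure (S : Set Γ) = ⊤ →
    ∃ Φ : (Γ → I) → Set (Sym2 Γ), Measurable Φ ∧
      (∀ (γ : Γ) (U : Γ → I), Φ (fun x => U (γ⁻¹ * x)) = Sym2.map (fun x => γ * x) '' Φ U) ∧
      IsFUSF (cay Γ S) ((vlab Γ).map Φ)

/-- Second half: on every unimodular random graph (represented on `ℕ` with root `0`) the FUSF is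
a graph factor of IID. -/
def UnimodularHalf : Prop :=
  ∀ P : Measure (SimpleGraph ℕ), IsProbabilityMeasure P → (∀ᵐ G ∂P, Good G) → Unimodular P →
    ∃ Φ : SimpleGraph ℕ → (ℕ → I) → Set (Sym2 ℕ), IsGraphRule Φ ∧
      ∀ᵐ G ∂P, IsFUSF G ((vlab ℕ).map (Φ G))

/-- Stronger: one rule works for all infinite connected locally finite graphs. -/
def UniversalRule : Prop :=
  ∃ Φ : SimpleGraph ℕ → (ℕ → I) → Set (Sym2 ℕ), IsGraphRule Φ ∧
    ∀ G : SimpleGraph ℕ, Good G → IsFUSF G ((vlab ℕ).map (Φ G))

end P143
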