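import Vale.Agent.P143.StmtDefs

/-!
# P143: transport of the free uniform spanning forest along a bijection of vertex sets
-/

open MeasureTheory ProbabilityTheory Filter Topology unitInterval
open scoped ENNReal

namespace P143

variable {V W : Type*}

/-- relabelling of edge configurations -/
def rSe (e : V ≃ W) (T : Set (Sym2 V)) : Set (Sym2 W) := {f | Sym2.map e.symm f ∈ T}

theorem mem_rSe (e : V ≃ W) (T : Set (Sym2 V)) (f : Sym2 V) : Sym2.map e f ∈ rSe e T ↔ f ∈ T := by
  simp [rSe, Sym2.map_map]

theorem rSe_eq_image (e : V ≃ W) (T : Set (Sym2 V)) : rSe e T = Sym2.map e '' T := by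
  ext f
  constructor
  · intro h
    exact ⟨_, h, by simp [Sym2.map_map]⟩
  · rintro ⟨g, hg, rfl⟩
    exact (mem_rSe e T g).2 hg

theorem rSe_symm_rSe (e : V ≃ W) (T : Set (Sym2 V)) : rSe e.symm (rSe e T) = T := by
  ext f
  simp [rSe, Sym2.map_map]

theorem rSe_rSe_symm (e : V ≃ W) (T : Set (Sym2 W)) : rSe e (rSe e.symm T) = T := by
  ext f
  simp [rSe, Sym2.map_map]

theorem measurable_rSe (e : V ≃ W) : Measurable (rSe e) := by
  rw [measurable_set_iff]
  intro a
  exact measurable_set_mem _

/-- the transported graph -/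
def tG (e : V ≃ W) (G : SimpleGraph V) : SimpleGraph W := G.comap e.symm

theorem tG_adj (e : V ≃ W) (G : SimpleGraph V) (x y : V) :
    (tG e G).Adj (e x) (e y) ↔ G.Adj x y := by
  simp [tG]

/-- pull back a subgraph of the transported graph -/
def pullS (e : V ≃ W) {G : SimpleGraph V} (H : (tG e G).Subgraph) : G.Subgraph where
  verts := {x | e x ∈ H.verts}
  Adj x y := H.Adj (e x) (e y)
  adj_sub h := (tG_adj e G _ _).1 (H.adj_sub h)
  edge_vert h := H.edge_vert h
  symm := ⟨fun _ _ h => H.symm.symm _ _ h⟩

theorem fromEdgeSet_rSe_adj (e : V ≃ W) (T : Set (Sym2 V)) (x y : V) :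
    (SimpleGraph.fromEdgeSet (rSe e T)).Adj (e x) (e y) ↔ (SimpleGraph.fromEdgeSet T).Adj x y := by
  rw [SimpleGraph.fromEdgeSet_adj, SimpleGraph.fromEdgeSet_adj]
  have : s(e x, e y) = Sym2.map e s(x, y) := rfl
  rw [this, mem_rSe]
  simp

/-- the isomorphism of tree graphs -/
def isoT (e : V ≃ W) {G : SimpleGraph V} (H : (tG e G).Subgraph) (T : Set (Sym2 V)) :
    ((SimpleGraph.fromEdgeSet T).induce (pullS e H).verts) ≃g
      ((SimpleGraph.fromEdgeSet (rSe e T)).induce H.verts) where
  toFun x := ⟨e x.1, x.2⟩
  invFun y := ⟨e.symm y.1, by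
    show e (e.symm y.1) ∈ H.verts
    rw [e.apply_symm_apply]; exact y.2⟩
  left_inv x := by simp
  right_inv y := by simp
  map_rel_iff' := by
    rintro ⟨a, ha⟩ ⟨b, hb⟩
    exact fromEdgeSet_rSe_adj e T a b

theorem pullS_edgeSet (e : V ≃ W) {G : SimpleGraph V} (H : (tG e G).Subgraph) (f : Sym2 V) :
    f ∈ (pullS e H).edgeSet ↔ Sym2.map e f ∈ H.edgeSet := by
  induction f with
  | _ x y => rfl

theorem isSpanningTree_iff (e : V ≃ W) {G : SimpleGraph V} (H : (tG e G).Subgraph)
    (T : Set (Sym2 V)) : IsSpanningTree (pullS e H) T ↔ IsSpanningTree H (rSe e T) := by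
  unfold IsSpanningTree
  refine and_congr ?_ ?_
  · constructor
    · intro h f hf
      have h1 := h hf
      rw [pullS_edgeSet] at h1
      simpa [Sym2.map_map] using h1
    · intro h f hf
      rw [pullS_edgeSet]
      exact h ((mem_rSe e T f).2 hf)
  · exact (isoT e H T).isTree_iff

theorem ustProb_pull (e : V ≃ W) {G : SimpleGraph V} (H : (tG e G).Subgraph)
    (A : Set (Set (Sym2 W))) : ustProb H A = ustProb (pullS e H) {T | rSe e T ∈ A} := by
  unfold ustProb
  have key : ∀ B : Set (Set (Sym2 W)), {T | IsSpanningTree H T ∧ T ∈ B}.ncard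
      = {T | IsSpanningTree (pullS e H) T ∧ rSe e T ∈ B}.ncard := by
    intro B
    have : {T | IsSpanningTree H T ∧ T ∈ B}
        = rSe e '' {T | IsSpanningTree (pullS e H) T ∧ rSe e T ∈ B} := by
      ext T
      constructor
      · rintro ⟨h1, h2⟩
        refine ⟨rSe e.symm T, ⟨?_, ?_⟩, rSe_rSe_symm e T⟩
        · rw [isSpanningTree_iff, rSe_rSe_symm]; exact h1
        · rw [rSe_rSe_symm]; exact h2
      · rintro ⟨T', ⟨h1, h2⟩, rfl⟩
        exact ⟨(isSpanningTree_iff e H T').1 h1, h2⟩
    rw [this]
    refine Set.ncard_image_of_injective _ ?_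
    intro T T' h
    have := congrArg (rSe e.symm) h
    rwa [rSe_symm_rSe, rSe_symm_rSe] at this
  have k1 := key A
  have k2 := key Set.univ
  simp only [Set.mem_univ, and_true] at k2
  rw [k1, k2]
  rfl

theorem pullS_exhaustion (e : V ≃ W) {G : SimpleGraph V} {H : ℕ → (tG e G).Subgraph}
    (hH : IsExhaustion (tG e G) H) : IsExhaustion G (fun n => pullS e (H n)) where
  fin n := by
    have : (pullS e (H n)).verts = e ⁻¹' (H n).verts := rfl
    rw [this]
    exact (hH.fin n).preimage e.injective.injOn
  conn n := by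
    have h := (hH.conn n)
    rw [SimpleGraph.Subgraph.connected_iff'] at h ⊢
    have iso : (pullS e (H n)).coe ≃g (H n).coe :=
      { toFun := fun x => ⟨e x.1, x.2⟩
        invFun := fun y => ⟨e.symm y.1, by
          show e (e.symm y.1) ∈ (H n).verts
          rw [e.apply_symm_apply]; exact y.2⟩
        left_inv := fun x => by simp
        right_inv := fun y => by simp
        map_rel_iff' := by
          rintro ⟨a, ha⟩ ⟨b, hb⟩
          exact Iff.rfl }
    exact iso.connected_iff.2 h
  mono := by
    intro n m hnm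
    have h := hH.mono hnm
    refine ⟨fun x hx => h.1 hx, fun x y hxy => h.2 hxy⟩
  exh := by
    have h := hH.exh
    ext x y
    · constructor
      · intro _; trivial
      · intro _
        have : e x ∈ (⨆ n, H n).verts := by rw [h]; trivial
        rw [SimpleGraph.Subgraph.verts_iSup, Set.mem_iUnion] at this ⊢
        exact this
    · constructor
      · intro h'
        exact (⨆ n, pullS e (H n)).adj_sub h'
      · intro h'
        have : (⨆ n, H n).Adj (e x) (e y) := by
          rw [h]; exact (tG_adj e G x y).2 h'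
        rw [SimpleGraph.Subgraph.iSup_adj] at this ⊢
        exact this

/-- push forward a subgraph -/
def pushS (e : V ≃ W) {G : SimpleGraph V} (H : G.Subgraph) : (tG e G).Subgraph where
  verts := {x | e.symm x ∈ H.verts}
  Adj x y := H.Adj (e.symm x) (e.symm y)
  adj_sub h := H.adj_sub h
  edge_vert h := H.edge_vert h
  symm := ⟨fun _ _ h => H.symm.symm _ _ h⟩

theorem pushS_exhaustion (e : V ≃ W) {G : SimpleGraph V} {H : ℕ → G.Subgraph}
    (hH : IsExhaustion G H) : IsExhaustion (tG e G) (fun n => pushS e (H n)) where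
  fin n := by
    have : (pushS e (H n)).verts = e.symm ⁻¹' (H n).verts := rfl
    rw [this]
    exact (hH.fin n).preimage e.symm.injective.injOn
  conn n := by
    have h := (hH.conn n)
    rw [SimpleGraph.Subgraph.connected_iff'] at h ⊢
    have iso : (pushS e (H n)).coe ≃g (H n).coe :=
      { toFun := fun x => ⟨e.symm x.1, x.2⟩
        invFun := fun y => ⟨e y.1, by
          show e.symm (e y.1) ∈ (H n).verts
          rw [e.symm_apply_apply]; exact y.2⟩
        left_inv := fun x => by simp
        right_inv := fun y => by simp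
        map_rel_iff' := by
          rintro ⟨a, ha⟩ ⟨b, hb⟩
          exact Iff.rfl }
    exact iso.connected_iff.2 h
  mono := by
    intro n m hnm
    have h := hH.mono hnm
    refine ⟨fun x hx => h.1 hx, fun x y hxy => h.2 hxy⟩
  exh := by
    have h := hH.exh
    ext x y
    · constructor
      · intro _; trivial
      · intro _
        have : e.symm x ∈ (⨆ n, H n).verts := by rw [h]; trivial
        rw [SimpleGraph.Subgraph.verts_iSup, Set.mem_iUnion] at this ⊢
        exact this
    · constructor
      · intro h'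
        exact (⨆ n, pushS e (H n)).adj_sub h'
      · intro h'
        have : (⨆ n, H n).Adj (e.symm x) (e.symm y) := by
          rw [h]; exact h'
        rw [SimpleGraph.Subgraph.iSup_adj] at this ⊢
        exact this

theorem IsFUSF.transport (e : V ≃ W) {G : SimpleGraph V} {μ : Measure (Set (Sym2 V))}
    (h : IsFUSF G μ) : IsFUSF (tG e G) (μ.map (rSe e)) := by
  have hp := h.1
  obtain ⟨H0, hH0⟩ := h.exh
  refine ⟨Measure.isProbabilityMeasure_map (measurable_rSe e).aemeasurable,
    ⟨_, pushS_exhaustion e hH0⟩, ?_⟩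
  intro H hH B A
  classical
  have h1 := h.lim _ (pullS_exhaustion e hH) (B.image (Sym2.map e.symm)) (A.image (Sym2.map e.symm))
  have hc : {T : Set (Sym2 V) | rSe e T ∈ cyl B A}
      = cyl (B.image (Sym2.map e.symm)) (A.image (Sym2.map e.symm)) := by
    ext T
    simp only [cyl, Set.mem_ofPred_eq, Finset.mem_image]
    constructor
    · rintro h f ⟨g, hg, rfl⟩
      have := h g hg
      rw [show (g ∈ rSe e T ↔ Sym2.map e.symm g ∈ T) from Iff.rfl] at this
      rw [this]
      constructor
      · intro h'; exact ⟨g, h', rfl⟩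
      · rintro ⟨g', hg', h'⟩
        have : g' = g := by
          have := congrArg (Sym2.map e) h'
          simpa [Sym2.map_map] using this
        rwa [this] at hg'
    · intro h g hg
      have := h _ ⟨g, hg, rfl⟩
      rw [show (g ∈ rSe e T ↔ Sym2.map e.symm g ∈ T) from Iff.rfl, this]
      constructor
      · rintro ⟨g', hg', h'⟩
        have : g' = g := by
          have := congrArg (Sym2.map e) h'
          simpa [Sym2.map_map] using this
        rwa [this] at hg'
      · intro h'; exact ⟨g, h', rfl⟩
  have hmc : MeasurableSet (cyl B A) := by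
    have : cyl B A = ⋂ f ∈ B, {T : Set (Sym2 W) | (f ∈ T ↔ f ∈ A)} := by
      ext T; simp [cyl]
    rw [this]
    refine Finset.measurableSet_biInter _ fun f _ => ?_
    by_cases hf : f ∈ A
    · simp only [hf, iff_true]
      exact (measurable_set_mem f).setOf
    · simp only [hf, iff_false]
      exact ((measurable_set_mem f).setOf).compl
  have e1 : (μ.map (rSe e)).real (cyl B A)
      = μ.real (cyl (B.image (Sym2.map e.symm)) (A.image (Sym2.map e.symm))) := by
    rw [Measure.real, Measure.map_apply (measurable_rSe e) hmc, Measure.real, ← hc]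
    rfl
  rw [e1]
  refine h1.congr fun n => ?_
  rw [ustProb_pull, hc]

end P143
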